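import Crest.Agent.H4.Riemann

/-!
The exterior conformal map of a compact convex set and the convexity of its level curves.
-/

set_option autoImplicit false

open Filter Metric Set Function
open scoped Topology

namespace Crest.Agent.H4

/-- One-sided derivative test for the modulus of a curve. -/
theorem re_conj_mul_nonneg_of_norm_le {h : ℝ → ℂ} {h' : ℂ} (hd : HasDerivAt h h' 0)
    (hle : ∀ᶠ t in 𝓝[>] (0 : ℝ), ‖h 0‖ ≤ ‖h t‖) : 0 ≤ ((starRingEnd ℂ) (h 0) * h').re := by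
  have h1 := hd.norm_sq
  have h2 := h1.tendsto_slope_zero_right
  have h3 : 0 ≤ 2 * inner ℝ (h 0) h' := by
    refine ge_of_tendsto h2 ?_
    filter_upwards [hle, self_mem_nhdsWithin] with t ht ht0
    rw [zero_add, smul_eq_mul]
    refine mul_nonneg (inv_nonneg.2 (le_of_lt ht0)) (sub_nonneg.2 ?_)
    exact pow_le_pow_left₀ (norm_nonneg _) ht 2
  rw [Complex.inner] at h3
  rw [mul_comm]
  linarith

/-- The inverted exterior of `K`, with the origin added. -/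
def invDom (K : Set ℂ) : Set ℂ := {ζ | ζ = 0 ∨ ζ⁻¹ ∉ K}

theorem isOpen_invDom {K : Set ℂ} (hK : IsCompact K) : IsOpen (invDom K) := by
  rw [isOpen_iff_mem_nhds]
  intro ζ hζ
  by_cases h0 : ζ = 0
  · subst h0
    obtain ⟨R, hR, hKR⟩ := hK.isBounded.subset_ball_lt 0 (0 : ℂ)
    filter_upwards [ball_mem_nhds (0 : ℂ) (inv_pos.2 hR)] with z hz
    by_cases hz0 : z = 0
    · exact Or.inl hz0
    · refine Or.inr fun h => ?_
      have h1 := mem_ball_zero_iff.1 (hKR h)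
      have h2 := mem_ball_zero_iff.1 hz
      rw [norm_inv] at h1
      have h3 := norm_pos_iff.2 hz0
      have := (inv_lt_comm₀ h3 hR).1 h1
      linarith
  · have h1 : ζ⁻¹ ∈ Kᶜ := hζ.resolve_left h0
    filter_upwards [(continuousAt_inv₀ h0).preimage_mem_nhds
      (hK.isClosed.isOpen_compl.mem_nhds h1)] with z hz using Or.inr hz

theorem isBounded_invDom {K : Set ℂ} (h0 : (0 : ℂ) ∈ interior K) :
    Bornology.IsBounded (invDom K) := by
  obtain ⟨ε, hε, hball⟩ := Metric.mem_nhds_iff.1 (mem_interior_iff_mem_nhds.1 h0)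
  refine (isBounded_closedBall (x := (0 : ℂ)) (r := ε⁻¹)).subset fun ζ hζ => ?_
  rw [mem_closedBall_zero_iff]
  by_cases hz : ζ = 0
  · rw [hz, norm_zero]; positivity
  · have h1 : ζ⁻¹ ∉ ball (0 : ℂ) ε := fun h => hζ.resolve_left hz (hball h)
    rw [mem_ball_zero_iff, not_lt, norm_inv] at h1
    exact (le_inv_comm₀ hε (norm_pos_iff.2 hz)).1 h1

theorem isSimplyConnected_invDom {K : Set ℂ} (hKc : Convex ℝ K) (h0 : (0 : ℂ) ∈ K) :
    IsSimplyConnected (invDom K) := by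
  have hs : StarConvex ℝ (0 : ℂ) (invDom K) := by
    intro ζ hζ a t ha ht hat
    by_cases hz : ζ = 0
    · left; simp [hz]
    by_cases ht0 : t = 0
    · left; simp [ht0]
    refine Or.inr fun h => hζ.resolve_left hz ?_
    have := hKc h0 h ha ht hat
    have e : a • (0 : ℂ) + t • (a • (0 : ℂ) + t • ζ)⁻¹ = ζ⁻¹ := by
      have : (t : ℂ) ≠ 0 := by exact_mod_cast ht0
      simp only [smul_zero, zero_add, Complex.real_smul]
      field_simp
    rwa [e] at this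
  have := hs.contractibleSpace ⟨0, Or.inl rfl⟩
  exact (inferInstance : SimplyConnectedSpace (invDom K))

section Main

variable {K : Set ℂ} {ψ φ : ℂ → ℂ}

/-- Data of the Riemann map of the inverted exterior. -/
structure ExtData (K : Set ℂ) (ψ φ : ℂ → ℂ) : Prop where
  cpt : IsCompact K
  int : (0 : ℂ) ∈ interior K
  diff : DifferentiableOn ℂ ψ (invDom K)
  inj : InjOn ψ (invDom K)
  zero : ψ 0 = 0
  img : ψ '' invDom K = ball 0 1
  linv : ∀ z ∈ invDom K, φ (ψ z) = z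

namespace ExtData

theorem zero_mem (_ : ExtData K ψ φ) : (0 : ℂ) ∈ invDom K := Or.inl rfl

theorem maps (h : ExtData K ψ φ) {z : ℂ} (hz : z ∈ invDom K) : ‖ψ z‖ < 1 :=
  mem_ball_zero_iff.1 (h.img ▸ mem_image_of_mem ψ hz)

theorem rinv (h : ExtData K ψ φ) {w : ℂ} (hw : w ∈ ball (0 : ℂ) 1) :
    φ w ∈ invDom K ∧ ψ (φ w) = w := by
  rw [← h.img] at hw
  obtain ⟨z, hz, rfl⟩ := hw
  rw [h.linv z hz]
  exact ⟨hz, rfl⟩

theorem phi_zero (h : ExtData K ψ φ) : φ 0 = 0 := by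
  have := h.linv 0 h.zero_mem
  rwa [h.zero] at this

theorem phi_diff (h : ExtData K ψ φ) : DifferentiableOn ℂ φ (ball 0 1) := by
  intro w hw
  have := analyticAt_leftInv (isOpen_invDom h.cpt) h.diff h.inj h.linv (h.rinv hw).1
  rw [(h.rinv hw).2] at this
  exact this.differentiableAt.differentiableWithinAt

theorem phi_inj (h : ExtData K ψ φ) : InjOn φ (ball 0 1) := by
  intro w hw u hu hwu
  rw [← (h.rinv hw).2, ← (h.rinv hu).2, hwu]

theorem phi_ne (h : ExtData K ψ φ) {w : ℂ} (hw : w ∈ ball (0 : ℂ) 1) (h0 : w ≠ 0) : φ w ≠ 0 := by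
  intro h1
  apply h0
  rw [← (h.rinv hw).2, h1, h.zero]

theorem not_mem (h : ExtData K ψ φ) {w : ℂ} (hw : w ∈ ball (0 : ℂ) 1) (h0 : w ≠ 0) :
    (φ w)⁻¹ ∉ K := (h.rinv hw).1.resolve_left (h.phi_ne hw h0)

theorem near_bdry (h : ExtData K ψ φ) {U : Set ℂ} (hU : IsOpen U) (hKU : K ⊆ U) :
    ∃ r : ℝ, 0 < r ∧ r < 1 ∧ ∀ w : ℂ, r ≤ ‖w‖ → ‖w‖ < 1 → (φ w)⁻¹ ∈ U := by
  have hsub : invDom U ⊆ invDom K := fun z hz => hz.imp_right fun h1 h2 => h1 (hKU h2)
  have hcl : IsClosed (invDom U) := by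
    rw [← isOpen_compl_iff, isOpen_iff_mem_nhds]
    intro z hz
    have hz' : z ≠ 0 ∧ z⁻¹ ∈ U := by simpa [invDom] using hz
    filter_upwards [(continuousAt_inv₀ hz'.1).preimage_mem_nhds (hU.mem_nhds hz'.2),
      eventually_ne_nhds hz'.1] with y hy hy0
    simpa [invDom] using ⟨hy0, hy⟩
  have hc : IsCompact (invDom U) :=
    Metric.isCompact_of_isClosed_isBounded hcl ((isBounded_invDom h.int).subset hsub)
  obtain ⟨z₀, hz₀, hmax⟩ := hc.exists_isMaxOn ⟨0, Or.inl rfl⟩ (f := fun z => ‖ψ z‖)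
    (h.diff.continuousOn.mono hsub).norm
  have h1 := h.maps (hsub hz₀)
  refine ⟨(‖ψ z₀‖ + 1) / 2, by positivity, by linarith, fun w hw1 hw2 => ?_⟩
  have hw := mem_ball_zero_iff.2 hw2
  by_contra hcon
  have h2 : ‖ψ (φ w)‖ ≤ ‖ψ z₀‖ := hmax (Or.inr hcon)
  rw [(h.rinv hw).2] at h2
  linarith

/-- The maximum-principle step. -/
theorem key (h : ExtData K ψ φ) {p : ℂ → ℂ} (hp : DifferentiableOn ℂ p (ball 0 1))
    (hp0 : p 0 ≠ 0)
    (hbd : ∀ V : Set ℂ, IsOpen V → K ⊆ V →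
      ∃ r : ℝ, r < 1 ∧ ∀ w : ℂ, r ≤ ‖w‖ → ‖w‖ < 1 → p w / w ∈ V)
    {w₁ : ℂ} (hw₁ : w₁ ∈ ball (0 : ℂ) 1) (hK₁ : p w₁ / w₁ ∉ K) :
    ‖w₁‖ ≤ ‖ψ (w₁ / p w₁)‖ := by
  have hD := isOpen_invDom h.cpt
  have h0K : (0 : ℂ) ∈ K := interior_subset h.int
  set O : Set ℂ := {w | w ∈ ball (0 : ℂ) 1 ∧ p w ≠ 0 ∧ w / p w ∈ invDom K} with hO
  have hquot : ∀ w ∈ ball (0 : ℂ) 1, p w ≠ 0 → DifferentiableAt ℂ (fun w => w / p w) w :=
    fun w hw h0 => differentiableAt_id.div (hp.differentiableAt (isOpen_ball.mem_nhds hw)) h0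
  have hOo : IsOpen O := by
    rw [isOpen_iff_mem_nhds]
    rintro w ⟨hw, h0, hm⟩
    filter_upwards [isOpen_ball.mem_nhds hw,
      (hp.continuousOn.continuousAt (isOpen_ball.mem_nhds hw)).eventually_ne h0,
      (hquot w hw h0).continuousAt.preimage_mem_nhds (hD.mem_nhds hm)] with y h1 h2 h3
    exact ⟨h1, h2, h3⟩
  set ψ₁ := dslope ψ 0 with hψ₁
  have hψ₁d : DifferentiableOn ℂ ψ₁ (invDom K) :=
    (Complex.differentiableOn_dslope (hD.mem_nhds h.zero_mem)).2 h.diff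
  have hψ₁ne : ∀ z ∈ invDom K, ψ₁ z ≠ 0 := fun z hz =>
    dslope_ne_zero_of_injOn hD h.diff h.inj h.zero_mem hz
  have hψ₁eq : ∀ z, ψ z = z * ψ₁ z := by
    intro z
    have := sub_smul_dslope ψ 0 z
    rw [h.zero, sub_zero, sub_zero, smul_eq_mul] at this
    exact this.symm
  set Θ : ℂ → ℂ := fun w => p w / ψ₁ (w / p w) with hΘ
  have hΘd : DifferentiableOn ℂ Θ O := by
    rintro w ⟨hw, h0, hm⟩
    refine DifferentiableAt.differentiableWithinAt ?_
    exact (hp.differentiableAt (isOpen_ball.mem_nhds hw)).div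
      ((hψ₁d.differentiableAt (hD.mem_nhds hm)).comp w (hquot w hw h0)) (hψ₁ne _ hm)
  have hΘeq : ∀ w ∈ O, ‖ψ (w / p w)‖ * ‖Θ w‖ = ‖w‖ := by
    rintro w ⟨hw, h0, hm⟩
    rw [← norm_mul, hψ₁eq]
    congr 1
    have := hψ₁ne _ hm
    simp only [hΘ]
    field_simp
  have hw₁O : w₁ ∈ O := by
    refine ⟨hw₁, fun h0 => hK₁ (by rw [h0, zero_div]; exact h0K), Or.inr ?_⟩
    rwa [inv_div]
  by_contra hcon
  push Not at hcon
  set s := ‖Θ w₁‖ with hs
  have hs1 : 1 < s := by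
    by_contra h1
    push Not at h1
    have := hΘeq w₁ hw₁O
    nlinarith [norm_nonneg (ψ (w₁ / p w₁))]
  have hsub : closedBall (0 : ℂ) s⁻¹ ⊆ ball 0 1 :=
    closedBall_subset_ball (inv_lt_one_of_one_lt₀ hs1)
  set C := φ '' closedBall (0 : ℂ) s⁻¹ with hC
  have hCc : IsCompact C :=
    (isCompact_closedBall _ _).image_of_continuousOn (h.phi_diff.continuousOn.mono hsub)
  have hCD : C ⊆ invDom K := by
    rintro _ ⟨w, hw, rfl⟩
    exact (h.rinv (hsub hw)).1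
  have hEC : ∀ w ∈ O, s ≤ ‖Θ w‖ → w / p w ∈ C := by
    intro w hw hsw
    refine ⟨ψ (w / p w), ?_, h.linv _ hw.2.2⟩
    rw [mem_closedBall_zero_iff, ← one_div, le_div_iff₀ (by linarith)]
    have h1 := hΘeq w hw
    have h2 := mem_ball_zero_iff.1 hw.1
    nlinarith [norm_nonneg (ψ (w / p w))]
  set V : Set ℂ := interior K ∪ {z | z ≠ 0 ∧ z⁻¹ ∉ C} with hV
  have hVo : IsOpen V := by
    refine isOpen_interior.union ?_
    rw [isOpen_iff_mem_nhds]
    rintro z ⟨hz0, hz⟩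
    filter_upwards [(continuousAt_inv₀ hz0).preimage_mem_nhds
      (hCc.isClosed.isOpen_compl.mem_nhds hz), eventually_ne_nhds hz0] with y hy hy0
    exact ⟨hy0, hy⟩
  have hKV : K ⊆ V := by
    intro z hz
    by_cases hz0 : z = 0
    · left; rw [hz0]; exact h.int
    · refine Or.inr ⟨hz0, fun h1 => ?_⟩
      rcases hCD h1 with h2 | h2
      · exact hz0 (inv_eq_zero.1 h2)
      · rw [inv_inv] at h2; exact h2 hz
  obtain ⟨r, hr1, hr⟩ := hbd V hVo hKV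
  set r' := max r 0 with hr'
  have hr'1 : r' < 1 := max_lt hr1 one_pos
  have hsub' : closedBall (0 : ℂ) r' ⊆ ball 0 1 := closedBall_subset_ball hr'1
  set E : Set ℂ := Prod.fst '' ((closedBall (0 : ℂ) r' ×ˢ C) ∩
    (fun x : ℂ × ℂ => x.2 * p x.1 - x.1) ⁻¹' {0}) with hE
  have hEc : IsCompact E := by
    refine IsCompact.image ?_ continuous_fst
    have hc := (isCompact_closedBall (0 : ℂ) r').prod hCc
    refine hc.of_isClosed_subset ?_ inter_subset_left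
    refine ContinuousOn.preimage_isClosed_of_isClosed ?_ hc.isClosed isClosed_singleton
    refine (continuousOn_snd.mul ?_).sub continuousOn_fst
    exact hp.continuousOn.comp continuousOn_fst fun x hx => hsub' hx.1
  have hEO : E ⊆ O := by
    rintro _ ⟨⟨w, c⟩, ⟨⟨hw, hc⟩, he⟩, rfl⟩
    have he' : c * p w = w := sub_eq_zero.1 he
    have h0 : p w ≠ 0 := by
      intro h0
      rw [h0, mul_zero] at he'
      rw [← he'] at h0
      exact hp0 h0
    refine ⟨hsub' hw, h0, ?_⟩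
    have : w / p w = c := by rw [div_eq_iff h0, he']
    simp only
    rw [this]
    exact hCD hc
  have hOE : ∀ w ∈ O, s ≤ ‖Θ w‖ → w ∈ E := by
    intro w hw hsw
    have h1 := hEC w hw hsw
    refine ⟨(w, w / p w), ⟨⟨?_, h1⟩, ?_⟩, rfl⟩
    · rw [mem_closedBall_zero_iff]
      by_contra hlt
      push Not at hlt
      have hw0 : w ≠ 0 := norm_pos_iff.1 (lt_of_le_of_lt (le_max_right _ _) hlt)
      rcases hr w ((le_max_left _ _).trans hlt.le) (mem_ball_zero_iff.1 hw.1) with h2 | h2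
      · rcases hw.2.2 with h3 | h3
        · exact div_ne_zero hw0 hw.2.1 h3
        · rw [inv_div] at h3; exact h3 (interior_subset h2)
      · apply h2.2; rwa [inv_div]
    · have := hw.2.1
      simp only [mem_preimage, mem_singleton_iff]
      field_simp
      ring
  obtain ⟨w₀, hw₀, hmax⟩ := hEc.exists_isMaxOn ⟨w₁, hOE w₁ hw₁O le_rfl⟩ (f := fun z => ‖Θ z‖)
    (hΘd.continuousOn.mono hEO).norm
  have hs0 : s ≤ ‖Θ w₀‖ := hmax (hOE w₁ hw₁O le_rfl)
  have hmaxO : ∀ w ∈ O, ‖Θ w‖ ≤ ‖Θ w₀‖ := by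
    intro w hw
    rcases le_total s ‖Θ w‖ with h1 | h1
    · exact hmax (hOE w hw h1)
    · exact h1.trans hs0
  have hM : {z | O ∈ 𝓝 z ∧ IsMaxOn (norm ∘ Θ) O z} = E ∩ (fun z => ‖Θ z‖) ⁻¹' {‖Θ w₀‖} := by
    ext z
    constructor
    · rintro ⟨h1, h2⟩
      have hz := mem_of_mem_nhds h1
      have h3 : ‖Θ w₀‖ ≤ ‖Θ z‖ := h2 (hEO hw₀)
      exact ⟨hOE z hz (hs0.trans h3), le_antisymm (hmaxO z hz) h3⟩
    · rintro ⟨h1, h2⟩
      refine ⟨hOo.mem_nhds (hEO h1), fun y hy => ?_⟩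
      have h3 : ‖Θ z‖ = ‖Θ w₀‖ := h2
      have := hmaxO y hy
      simpa [h3] using this
  have hMo := Complex.isOpen_setOfPred_mem_nhds_and_isMaxOn_norm hΘd
  rw [hM] at hMo
  have hMc : IsClosed (E ∩ (fun z => ‖Θ z‖) ⁻¹' {‖Θ w₀‖}) :=
    (hΘd.continuousOn.mono hEO).norm.preimage_isClosed_of_isClosed hEc.isClosed isClosed_singleton
  have huniv := IsClopen.eq_univ ⟨hMc, hMo⟩ ⟨w₀, hw₀, rfl⟩
  have h1 : (1 : ℂ) ∈ E ∩ (fun z => ‖Θ z‖) ⁻¹' {‖Θ w₀‖} := huniv ▸ mem_univ _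
  have := (hEO h1.1).1
  simp at this

/-- The derivative step. -/
theorem deriv_step (h : ExtData K ψ φ) {w b g' : ℂ} (hw : w ∈ ball (0 : ℂ) 1) (h0 : w ≠ 0)
    (hg : HasDerivAt (fun u => (φ u)⁻¹) g' w)
    (hle : ∀ t : ℝ, 0 < t → t < 1 / 2 → (1 - t) * (φ w)⁻¹ + t * b ∉ K →
      ‖w‖ ≤ ‖ψ ((1 - t) * (φ w)⁻¹ + t * b)⁻¹‖) :
    0 ≤ ((starRingEnd ℂ) (-(w * g')) * ((φ w)⁻¹ - b)).re := by
  have hD := isOpen_invDom h.cpt
  have hne := h.phi_ne hw h0
  set g₀ := (φ w)⁻¹ with hg₀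
  have hg₀ne : g₀ ≠ 0 := inv_ne_zero hne
  have hΨ : DifferentiableAt ℂ (fun z => ψ z⁻¹) g₀ := by
    refine DifferentiableAt.comp g₀ (g := ψ) ?_ (differentiableAt_inv hg₀ne)
    rw [hg₀, inv_inv]
    exact h.diff.differentiableAt (hD.mem_nhds (h.rinv hw).1)
  set Ψ' := deriv (fun z => ψ z⁻¹) g₀ with hΨ'
  have hone : Ψ' * g' = 1 := by
    have h1 := hΨ.hasDerivAt.comp w hg
    have h2 : ((fun z => ψ z⁻¹) ∘ fun u => (φ u)⁻¹) =ᶠ[𝓝 w] id := by
      filter_upwards [isOpen_ball.mem_nhds hw] with u hu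
      simp [(h.rinv hu).2]
    exact h1.unique ((hasDerivAt_id w).congr_of_eventuallyEq h2)
  have hline : HasDerivAt (fun t : ℝ => (1 - (t : ℂ)) * g₀ + t * b) (b - g₀) 0 := by
    have h1 : HasDerivAt (fun t : ℝ => (t : ℂ)) 1 0 := Complex.ofRealCLM.hasDerivAt
    refine (((h1.const_sub 1).mul_const g₀).add (h1.mul_const b)).congr_deriv ?_
    ring
  have hcomp : HasDerivAt (fun t : ℝ => ψ ((1 - (t : ℂ)) * g₀ + t * b)⁻¹) (Ψ' * (b - g₀)) 0 := by
    have h1 : HasDerivAt (fun z => ψ z⁻¹) Ψ' ((1 - ((0 : ℝ) : ℂ)) * g₀ + ((0 : ℝ) : ℂ) * b) := by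
      have e0 : (1 - ((0 : ℝ) : ℂ)) * g₀ + ((0 : ℝ) : ℂ) * b = g₀ := by simp
      rw [e0]
      exact hΨ.hasDerivAt
    exact h1.comp_of_eq (0 : ℝ) hline rfl
  have hval : ψ ((1 - ((0 : ℝ) : ℂ)) * g₀ + ((0 : ℝ) : ℂ) * b)⁻¹ = w := by
    simp [hg₀, (h.rinv hw).2]
  have hmain := re_conj_mul_nonneg_of_norm_le hcomp (by
    have h1 : ∀ᶠ t : ℝ in 𝓝 0, (1 - (t : ℂ)) * g₀ + t * b ∈ Kᶜ := by
      refine hline.continuousAt.preimage_mem_nhds (h.cpt.isClosed.isOpen_compl.mem_nhds ?_)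
      simpa using h.not_mem hw h0
    filter_upwards [nhdsWithin_le_nhds h1, self_mem_nhdsWithin,
      nhdsWithin_le_nhds (Iio_mem_nhds (show (0 : ℝ) < 1 / 2 by norm_num))] with t ht ht0 ht1
    rw [hval]
    exact hle t ht0 ht1 ht)
  rw [hval] at hmain
  have e : (starRingEnd ℂ) (-(w * g')) * (g₀ - b)
      = ((‖g'‖ ^ 2 : ℝ) : ℂ) * ((starRingEnd ℂ) w * (Ψ' * (b - g₀))) := by
    rw [Complex.ofReal_pow, ← Complex.conj_mul', map_neg, map_mul]
    linear_combination ((starRingEnd ℂ) w * (starRingEnd ℂ) g' * (g₀ - b)) * hone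
  rw [e, Complex.re_ofReal_mul]
  positivity

end ExtData

end Main

/-- The exterior conformal map of a compact convex set with `0` in its interior, written as
`g w = q w / w` on the punctured unit disc, with convex level curves. -/
theorem exterior_map (K U : Set ℂ) (hK : IsCompact K) (hKc : Convex ℝ K)
    (h0 : (0 : ℂ) ∈ interior K) (hU : IsOpen U) (hKU : K ⊆ U) :
    ∃ (q : ℂ → ℂ) (r : ℝ), 0 < r ∧ r < 1 ∧ DifferentiableOn ℂ q (Metric.ball 0 1) ∧ q 0 ≠ 0 ∧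
      (∀ w ∈ Metric.ball (0 : ℂ) 1, w ≠ 0 → q w / w ∉ K) ∧
      Set.InjOn (fun w => q w / w) (Metric.ball 0 1 \ {0}) ∧
      (∀ w ∈ Metric.ball (0 : ℂ) 1, q w - w * deriv q w ≠ 0) ∧
      (∀ w : ℂ, r ≤ ‖w‖ → ‖w‖ < 1 → q w / w ∈ U) ∧
      (∀ w ∈ Metric.ball (0 : ℂ) 1, w ≠ 0 → ∀ a ∈ K,
        0 ≤ ((starRingEnd ℂ) ((q w - w * deriv q w) / w) * (q w / w - a)).re) ∧
      (∀ w ∈ Metric.ball (0 : ℂ) 1, w ≠ 0 → ∀ u : ℂ, ‖u‖ = ‖w‖ →
        0 ≤ ((starRingEnd ℂ) ((q w - w * deriv q w) / w) * (q w / w - q u / u)).re) := by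
  obtain ⟨ψ, hψd, hψi, hψ0, hψim⟩ := riemann_map (isOpen_invDom hK)
    (isSimplyConnected_invDom hKc (interior_subset h0)) (Or.inl rfl) (isBounded_invDom h0)
  set φ := invFunOn ψ (invDom K) with hφ
  have h : ExtData K ψ φ := ⟨hK, h0, hψd, hψi, hψ0, hψim, fun z hz => hψi.leftInvOn_invFunOn hz⟩
  have hb0 : (0 : ℂ) ∈ ball (0 : ℂ) 1 := mem_ball_self one_pos
  have hdne : ∀ w ∈ ball (0 : ℂ) 1, dslope φ 0 w ≠ 0 := fun w hw =>
    dslope_ne_zero_of_injOn isOpen_ball h.phi_diff h.phi_inj hb0 hw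
  set q : ℂ → ℂ := fun w => (dslope φ 0 w)⁻¹ with hq
  have hqd : DifferentiableOn ℂ q (ball 0 1) :=
    ((Complex.differentiableOn_dslope (isOpen_ball.mem_nhds hb0)).2 h.phi_diff).inv hdne
  have hq0 : q 0 ≠ 0 := inv_ne_zero (hdne 0 hb0)
  have hqm : ∀ w : ℂ, w ≠ 0 → q w = w * (φ w)⁻¹ := by
    intro w hw
    simp only [hq]
    rw [dslope_of_ne _ hw, slope_def_field, h.phi_zero, sub_zero, sub_zero, inv_div,
      div_eq_mul_inv]
  have hqg : ∀ w : ℂ, w ≠ 0 → q w / w = (φ w)⁻¹ := by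
    intro w hw
    rw [hqm w hw]; field_simp
  have hgd : ∀ w ∈ ball (0 : ℂ) 1, w ≠ 0 →
      HasDerivAt (fun u => (φ u)⁻¹) (-deriv φ w / φ w ^ 2) w := fun w hw hw0 =>
    (h.phi_diff.differentiableAt (isOpen_ball.mem_nhds hw)).hasDerivAt.fun_inv (h.phi_ne hw hw0)
  have hnu : ∀ w ∈ ball (0 : ℂ) 1, w ≠ 0 →
      (q w - w * deriv q w) / w = -(w * (-deriv φ w / φ w ^ 2)) := by
    intro w hw hw0
    have h1 : HasDerivAt q (1 * (φ w)⁻¹ + w * (-deriv φ w / φ w ^ 2)) w := by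
      refine ((hasDerivAt_id w).mul (hgd w hw hw0)).congr_of_eventuallyEq ?_
      filter_upwards [eventually_ne_nhds hw0] with u hu using hqm u hu
    rw [h1.deriv, hqm w hw0]
    field_simp
    ring
  obtain ⟨r, hr0, hr1, hr⟩ := h.near_bdry hU hKU
  -- the boundary behaviour of convex combinations
  have hbd : ∀ (p b : ℂ → ℂ) (t : ℝ), 0 < t → t < 1 →
      (∀ w : ℂ, w ≠ 0 → p w / w = (1 - t) * (φ w)⁻¹ + t * b w) →
      (∀ w : ℂ, b w ∈ K ∨ ∃ u : ℂ, ‖u‖ = ‖w‖ ∧ b w = (φ u)⁻¹) →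
      ∀ V : Set ℂ, IsOpen V → K ⊆ V →
        ∃ r : ℝ, r < 1 ∧ ∀ w : ℂ, r ≤ ‖w‖ → ‖w‖ < 1 → p w / w ∈ V := by
    intro p b t ht0 ht1 hp hb V hV hKV
    obtain ⟨δ, hδ, hδV⟩ := hK.exists_thickening_subset_open hV hKV
    obtain ⟨r, hr0, hr1, hr⟩ := h.near_bdry (isOpen_thickening (δ := δ) (E := K))
      (self_subset_thickening hδ K)
    refine ⟨r, hr1, fun w hw1 hw2 => hδV ?_⟩
    have hw0 : w ≠ 0 := norm_pos_iff.1 (hr0.trans_le hw1)
    have hbw : b w ∈ thickening δ K := by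
      rcases hb w with h1 | ⟨u, hu, h1⟩
      · exact self_subset_thickening hδ K h1
      · rw [h1]; exact hr u (hu ▸ hw1) (hu ▸ hw2)
    have := (hKc.thickening δ) (hr w hw1 hw2) hbw (sub_nonneg.2 ht1.le) ht0.le (by ring)
    rw [hp w hw0]
    simpa [Complex.real_smul] using this
  refine ⟨q, r, hr0, hr1, hqd, hq0, ?_, ?_, ?_, ?_, ?_, ?_⟩
  · intro w hw hw0
    rw [hqg w hw0]
    exact h.not_mem hw hw0
  · intro w hw u hu hwu
    simp only [hqg w hw.2, hqg u hu.2] at hwu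
    exact h.phi_inj hw.1 hu.1 (inv_injective hwu)
  · intro w hw
    by_cases hw0 : w = 0
    · simpa [hw0] using hq0
    · intro h1
      have h2 := hnu w hw hw0
      rw [h1, zero_div] at h2
      have h3 := deriv_ne_zero_of_injOn isOpen_ball h.phi_diff h.phi_inj hw
      have h4 := h.phi_ne hw hw0
      exact neg_ne_zero.2 (mul_ne_zero hw0 (div_ne_zero (neg_ne_zero.2 h3) (pow_ne_zero 2 h4)))
        h2.symm
  · intro w hw1 hw2
    rw [hqg w (norm_pos_iff.1 (hr0.trans_le hw1))]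
    exact hr w hw1 hw2
  · intro w hw hw0 a ha
    rw [hnu w hw hw0, hqg w hw0]
    refine h.deriv_step hw hw0 (hgd w hw hw0) fun t ht0 ht1 htK => ?_
    set p : ℂ → ℂ := fun u => (1 - t) * q u + t * (a * u) with hp
    have hpq : ∀ u : ℂ, u ≠ 0 → p u / u = (1 - t) * (φ u)⁻¹ + t * a := by
      intro u hu
      simp only [hp]
      rw [hqm u hu]; field_simp
    have hp0 : p 0 ≠ 0 := by
      simp only [hp, mul_zero, add_zero]
      refine mul_ne_zero ?_ hq0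
      rw [← Complex.ofReal_one, ← Complex.ofReal_sub, Complex.ofReal_ne_zero]
      linarith
    have := h.key (p := p) ((hqd.const_mul _).add (by fun_prop)) hp0
      (hbd p (fun _ => a) t ht0 (by linarith) hpq fun _ => Or.inl ha) hw
      (by rwa [hpq w hw0])
    rwa [← inv_div, hpq w hw0] at this
  · intro w hw hw0 u hu
    have hu0 : u ≠ 0 := by
      rw [← norm_pos_iff, hu, norm_pos_iff]; exact hw0
    rw [hnu w hw hw0, hqg w hw0, hqg u hu0]
    refine h.deriv_step hw hw0 (hgd w hw hw0) fun t ht0 ht1 htK => ?_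
    set c := u / w with hc
    have hc1 : ‖c‖ = 1 := by
      rw [hc, norm_div, hu, div_self (norm_pos_iff.2 hw0).ne']
    have hc0 : c ≠ 0 := div_ne_zero hu0 hw0
    have hcw : c * w = u := by rw [hc]; field_simp
    set p : ℂ → ℂ := fun y => (1 - t) * q y + t * (c⁻¹ * q (c * y)) with hp
    have hpq : ∀ y : ℂ, y ≠ 0 → p y / y = (1 - t) * (φ y)⁻¹ + t * (φ (c * y))⁻¹ := by
      intro y hy
      simp only [hp]
      rw [hqm y hy, hqm _ (mul_ne_zero hc0 hy)]; field_simp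
    have hp0 : p 0 ≠ 0 := by
      have e : p 0 = ((1 - t) + t * c⁻¹) * q 0 := by simp only [hp, mul_zero]; ring
      rw [e]
      refine mul_ne_zero ?_ hq0
      intro h1
      have h2 : ((1 - t : ℝ) : ℂ) = -(t * c⁻¹) := by push_cast; linear_combination h1
      have h3 := congrArg norm h2
      rw [norm_neg, norm_mul, norm_inv, hc1, Complex.norm_real, Complex.norm_real,
        Real.norm_of_nonneg (by linarith), Real.norm_of_nonneg ht0.le] at h3
      linarith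
    have hpd : DifferentiableOn ℂ p (ball 0 1) := by
      refine (hqd.const_mul _).add (((hqd.comp (by fun_prop) ?_).const_mul _).const_mul _)
      intro y hy
      rw [mem_ball_zero_iff] at hy ⊢
      rw [norm_mul, hc1, one_mul]; exact hy
    have := h.key (p := p) hpd hp0
      (hbd p (fun y => (φ (c * y))⁻¹) t ht0 (by linarith) hpq fun y =>
        Or.inr ⟨c * y, by rw [norm_mul, hc1, one_mul], rfl⟩) hw
      (by rwa [hpq w hw0, hcw])
    rwa [← inv_div, hpq w hw0, hcw] at this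

end Crest.Agent.H4
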