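import Crest.Agent.H4.SpecDiv
import Crest.Agent.H4.ExtMap

/-!
Contour integrals along the boundary curve `θ ↦ G (exp (θ i))` given by an exterior conformal map.
-/

set_option autoImplicit false

open Filter Metric Set Function Polynomial
open scoped Topology
open Crest.AnalysisR.NumRange

namespace Crest.Agent.H4

/-- The point `exp (θ i)` of the unit circle. -/
noncomputable def ct (θ : ℝ) : ℂ := Complex.exp ((θ : ℂ) * Complex.I)

theorem norm_ct (θ : ℝ) : ‖ct θ‖ = 1 := Complex.norm_exp_ofReal_mul_I θ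

theorem hasDerivAt_ct (θ : ℝ) : HasDerivAt ct (ct θ * Complex.I) θ := by
  have h1 : HasDerivAt (fun t : ℝ => (t : ℂ)) 1 θ := Complex.ofRealCLM.hasDerivAt
  have := (h1.mul_const Complex.I).cexp
  simpa [ct] using! this

theorem continuous_ct : Continuous ct :=
  continuous_iff_continuousAt.2 fun θ => (hasDerivAt_ct θ).continuousAt

theorem periodic_ct : Function.Periodic ct (2 * Real.pi) := by
  intro θ
  simp only [ct]
  push_cast
  rw [add_mul, Complex.exp_add, Complex.exp_two_pi_mul_I, mul_one]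

/-- The mean over one period. -/
noncomputable def cmean (φ : ℝ → ℂ) : ℂ :=
  (2 * Real.pi : ℂ)⁻¹ * ∫ θ in (0 : ℝ)..2 * Real.pi, φ θ

theorem cmean_add {φ ψ : ℝ → ℂ} (hφ : Continuous φ) (hψ : Continuous ψ) :
    cmean (fun θ => φ θ + ψ θ) = cmean φ + cmean ψ := by
  simp only [cmean]
  rw [intervalIntegral.integral_add (hφ.intervalIntegrable _ _) (hψ.intervalIntegrable _ _),
    mul_add]

theorem cmean_sum {κ : Type*} [Fintype κ] {φ : κ → ℝ → ℂ} (hφ : ∀ i, Continuous (φ i))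
    (c : κ → ℂ) : cmean (fun θ => ∑ i, φ i θ * c i) = ∑ i, cmean (φ i) * c i := by
  simp only [cmean]
  rw [intervalIntegral.integral_finsetSum (f := fun i θ => φ i θ * c i)
    (fun i _ => ((hφ i).mul continuous_const).intervalIntegrable _ _), Finset.mul_sum]
  refine Finset.sum_congr rfl fun i _ => ?_
  rw [intervalIntegral.integral_mul_const, mul_assoc]

theorem cmean_re_nonneg {φ : ℝ → ℂ} (hφ : Continuous φ) (h : ∀ θ, 0 ≤ (φ θ).re) :
    0 ≤ (cmean φ).re := by
  have e : (2 * Real.pi : ℂ)⁻¹ = (((2 * Real.pi)⁻¹ : ℝ) : ℂ) := by push_cast; rfl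
  rw [cmean, e, Complex.re_ofReal_mul]
  refine mul_nonneg (by positivity) ?_
  have := Complex.reCLM.intervalIntegral_comp_comm
    (hφ.intervalIntegrable (μ := MeasureTheory.volume) 0 (2 * Real.pi))
  simp only [Complex.reCLM_apply] at this
  rw [← this]
  exact intervalIntegral.integral_nonneg (by positivity) fun θ _ => h θ

theorem cmean_eq_circleAverage (F : ℂ → ℂ) :
    cmean (fun θ => F (ct θ)) = Real.circleAverage F 0 1 := by
  rw [cmean, Real.circleAverage_def, Complex.real_smul]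
  simp [circleMap, ct]

/-- An exterior conformal map of the closure of a bounded convex domain. -/
structure Curve (Ω : Set ℂ) (G : ℂ → ℂ) (r : ℝ) : Prop where
  op : IsOpen Ω
  bdd : Bornology.IsBounded Ω
  cvx : Convex ℝ Ω
  ne : Ω.Nonempty
  pos : 0 < r
  lt : r < 1
  diff : DifferentiableOn ℂ G {t : ℂ | r < ‖t‖}
  inj : InjOn G {t : ℂ | r < ‖t‖}
  img : G '' {t : ℂ | 1 < ‖t‖} = (closure Ω)ᶜ

theorem isOpen_ext (r : ℝ) : IsOpen {t : ℂ | r < ‖t‖} := isOpen_lt continuous_const continuous_norm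

namespace Curve

variable {Ω : Set ℂ} {G : ℂ → ℂ} {r : ℝ}

theorem diffAt (h : Curve Ω G r) {t : ℂ} (ht : r < ‖t‖) : DifferentiableAt ℂ G t :=
  h.diff.differentiableAt ((isOpen_ext r).mem_nhds ht)

theorem out (h : Curve Ω G r) {t : ℂ} (ht : 1 < ‖t‖) : G t ∉ closure Ω := by
  have : G t ∈ (closure Ω)ᶜ := h.img ▸ mem_image_of_mem G ht
  exact this

theorem radial {t : ℂ} (ht : ‖t‖ = 1) :
    HasDerivAt (fun ρ : ℝ => (1 + (ρ : ℂ)) * t) t 0 ∧
      ∀ ρ : ℝ, 0 < ρ → 1 < ‖(1 + (ρ : ℂ)) * t‖ := by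
  constructor
  · have h1 : HasDerivAt (fun t : ℝ => (t : ℂ)) 1 0 := Complex.ofRealCLM.hasDerivAt
    simpa using (h1.const_add 1).mul_const t
  · intro ρ hρ
    rw [norm_mul, ht, mul_one, ← Complex.ofReal_one, ← Complex.ofReal_add, Complex.norm_real,
      Real.norm_of_nonneg (by linarith)]
    linarith

theorem not_mem (h : Curve Ω G r) {t : ℂ} (ht : 1 ≤ ‖t‖) : G t ∉ Ω := by
  rcases ht.eq_or_lt with ht | ht
  · intro hΩ
    obtain ⟨h1, h2⟩ := radial ht.symm
    have h3 : ContinuousAt (fun ρ : ℝ => G ((1 + (ρ : ℂ)) * t)) 0 := by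
      refine ContinuousAt.comp (g := G) ?_ h1.continuousAt
      simpa using (h.diffAt (h.lt.trans_eq ht)).continuousAt
    have h4 : ∀ᶠ ρ : ℝ in 𝓝 0, G ((1 + (ρ : ℂ)) * t) ∈ Ω :=
      h3.preimage_mem_nhds (h.op.mem_nhds (by simpa using hΩ))
    obtain ⟨ρ, h5, h6⟩ := ((h4.filter_mono (nhdsWithin_le_nhds (s := Ioi 0))).and
      self_mem_nhdsWithin).exists
    exact h.out (h2 ρ h6) (subset_closure h5)
  · exact fun hΩ => h.out ht (subset_closure hΩ)

theorem mem_closure (h : Curve Ω G r) {t : ℂ} (ht : ‖t‖ = 1) : G t ∈ closure Ω := by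
  by_contra hcon
  have : G t ∈ G '' {t : ℂ | 1 < ‖t‖} := h.img ▸ hcon
  obtain ⟨u, hu, hut⟩ := this
  have := h.inj (h.lt.trans hu) (h.lt.trans_eq ht.symm) hut
  rw [this] at hu
  exact (ht ▸ hu : (1 : ℝ) < 1).false

theorem continuous_G (h : Curve Ω G r) : Continuous fun θ => G (ct θ) :=
  h.diff.continuousOn.comp_continuous continuous_ct fun θ => h.lt.trans_eq (norm_ct θ).symm

theorem continuous_dG (h : Curve Ω G r) : Continuous fun θ => ct θ * deriv G (ct θ) :=
  continuous_ct.mul ((h.diff.deriv (isOpen_ext r)).continuousOn.comp_continuous continuous_ct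
    fun θ => h.lt.trans_eq (norm_ct θ).symm)

theorem continuous_comp (h : Curve Ω G r) {k : ℂ → ℂ} {V : Set ℂ} (hk : ContinuousOn k V)
    (hV : closure Ω \ Ω ⊆ V) : Continuous fun θ => k (G (ct θ)) :=
  hk.comp_continuous h.continuous_G fun θ =>
    hV ⟨h.mem_closure (norm_ct θ), h.not_mem (norm_ct θ).ge⟩

/-- Cauchy's theorem along the boundary curve. -/
theorem cauchy_zero (h : Curve Ω G r) {k : ℂ → ℂ} {V : Set ℂ} (hV : IsOpen V)
    (hΩV : closure Ω ⊆ V) (hk : DifferentiableOn ℂ k V) :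
    cmean (fun θ => ct θ * deriv G (ct θ) * k (G (ct θ))) = 0 := by
  obtain ⟨δ, hδ, hδV⟩ := h.bdd.isCompact_closure.exists_thickening_subset_open hV hΩV
  obtain ⟨g, hg⟩ := (h.cvx.closure.thickening δ).exists_forall_hasDerivWithinAt (hk.mono hδV)
  have hd : ∀ θ, HasDerivAt (fun θ => -Complex.I * g (G (ct θ)))
      (ct θ * deriv G (ct θ) * k (G (ct θ))) θ := by
    intro θ
    have hm := self_subset_thickening hδ _ (h.mem_closure (norm_ct θ))
    have h1 := (hg _ hm).hasDerivAt (isOpen_thickening.mem_nhds hm)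
    have h2 := (h.diffAt (h.lt.trans_eq (norm_ct θ).symm)).hasDerivAt
    have h3 := ((h1.comp (ct θ) h2).comp θ (hasDerivAt_ct θ)).const_mul (-Complex.I)
    refine h3.congr_deriv ?_
    linear_combination (-(ct θ * deriv G (ct θ) * k (G (ct θ)))) * Complex.I_mul_I
  have hc : Continuous fun θ => ct θ * deriv G (ct θ) * k (G (ct θ)) :=
    h.continuous_dG.mul (h.continuous_comp hk.continuousOn (diff_subset.trans hΩV))
  rw [cmean, intervalIntegral.integral_eq_sub_of_hasDerivAt (fun θ _ => hd θ)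
    (hc.intervalIntegrable _ _)]
  have : ct (2 * Real.pi) = ct 0 := by simpa using periodic_ct 0
  rw [this, sub_self, mul_zero]

/-- The exterior map has a simple pole at infinity. -/
theorem exists_q (h : Curve Ω G r) :
    ∃ q : ℂ → ℂ, DifferentiableOn ℂ q (ball 0 r⁻¹) ∧ q 0 ≠ 0 ∧
      ∀ w : ℂ, w ≠ 0 → q w = w * G w⁻¹ := by
  obtain ⟨a, ha⟩ := h.ne
  obtain ⟨ε, hε, hball⟩ := Metric.isOpen_iff.1 h.op a ha
  have hinv : ∀ w ∈ ball (0 : ℂ) 1 \ {0}, 1 < ‖w⁻¹‖ := by
    rintro w ⟨hw, hw0⟩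
    rw [norm_inv]
    exact (one_lt_inv₀ (norm_pos_iff.2 hw0)).2 (mem_ball_zero_iff.1 hw)
  have hfar : ∀ w ∈ ball (0 : ℂ) 1 \ {0}, ε ≤ ‖G w⁻¹ - a‖ := by
    intro w hw
    by_contra hlt
    push Not at hlt
    exact h.not_mem (hinv w hw).le (hball (by rwa [mem_ball, dist_eq_norm]))
  have hne : ∀ w ∈ ball (0 : ℂ) 1 \ {0}, G w⁻¹ - a ≠ 0 := fun w hw =>
    norm_pos_iff.1 (hε.trans_le (hfar w hw))
  set u : ℂ → ℂ := fun w => (G w⁻¹ - a)⁻¹ with hu
  have hud : DifferentiableOn ℂ u (ball 0 1 \ {0}) := by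
    refine DifferentiableOn.inv (fun w hw => ?_) hne
    exact (((h.diffAt (h.lt.trans (hinv w hw))).comp w
      (differentiableAt_inv hw.2)).sub_const a).differentiableWithinAt
  have hb0 : ball (0 : ℂ) 1 ∈ 𝓝 (0 : ℂ) := ball_mem_nhds _ one_pos
  have hûd := Complex.differentiableOn_update_limUnder_of_bddAbove hb0 hud (by
    refine ⟨ε⁻¹, ?_⟩
    rintro _ ⟨w, hw, rfl⟩
    simp only [Function.comp_apply, hu, norm_inv]
    exact inv_anti₀ hε (hfar w hw))
  set û := update u 0 (limUnder (𝓝[≠] 0) u) with hû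
  have hûu : ∀ w : ℂ, w ≠ 0 → û w = u w := fun w hw => update_of_ne hw _ _
  have hû0 : û 0 = 0 := by
    by_contra hc
    have h1 : ContinuousAt (fun w => a + (û w)⁻¹) 0 :=
      continuousAt_const.add ((hûd.differentiableAt hb0).continuousAt.inv₀ hc)
    obtain ⟨δ, hδ, hδ'⟩ := Metric.eventually_nhds_iff_ball.1
      (h1.eventually (ball_mem_nhds _ one_pos))
    have hK : IsCompact (closedBall (0 : ℂ) δ⁻¹ \ ball 0 1) :=
      (isCompact_closedBall _ _).diff isOpen_ball
    have hKb : Bornology.IsBounded (G '' (closedBall (0 : ℂ) δ⁻¹ \ ball 0 1)) := by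
      refine (hK.image_of_continuousOn (h.diff.continuousOn.mono ?_)).isBounded
      rintro t ⟨-, ht⟩
      rw [mem_ball_zero_iff, not_lt] at ht
      exact h.lt.trans_le ht
    have hall : Bornology.IsBounded (univ : Set ℂ) := by
      refine ((h.bdd.closure.union hKb).union
        (isBounded_ball (x := a + (û 0)⁻¹) (r := 1))).subset fun z _ => ?_
      by_cases hz : z ∈ closure Ω
      · exact Or.inl (Or.inl hz)
      have : z ∈ G '' {t : ℂ | 1 < ‖t‖} := h.img ▸ hz
      obtain ⟨t, ht, rfl⟩ := this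
      have ht' : 1 < ‖t‖ := ht
      by_cases htδ : ‖t‖ ≤ δ⁻¹
      · refine Or.inl (Or.inr ⟨t, ⟨mem_closedBall_zero_iff.2 htδ, ?_⟩, rfl⟩)
        rw [mem_ball_zero_iff, not_lt]; exact ht'.le
      · right
        push Not at htδ
        have ht0 : t ≠ 0 := norm_pos_iff.1 (one_pos.trans ht')
        have h2 := hδ' t⁻¹ (by
          rw [mem_ball_zero_iff, norm_inv]
          exact (inv_lt_comm₀ (one_pos.trans ht') hδ).2 htδ)
        rw [hûu _ (inv_ne_zero ht0)] at h2
        simpa [hu] using h2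
    exact NormedSpace.unbounded_univ ℝ ℂ hall
  have hûi : InjOn û (ball 0 1) := by
    intro w hw y hy hwy
    by_cases hw0 : w = 0
    · by_contra hne'
      have hy0 : y ≠ 0 := fun h => hne' (hw0.trans h.symm)
      rw [hw0, hû0, hûu y hy0] at hwy
      exact inv_ne_zero (hne y ⟨hy, hy0⟩) hwy.symm
    by_cases hy0 : y = 0
    · rw [hy0, hû0, hûu w hw0] at hwy
      exact absurd hwy (inv_ne_zero (hne w ⟨hw, hw0⟩))
    rw [hûu w hw0, hûu y hy0] at hwy
    have h1 := sub_left_injective (inv_injective hwy)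
    exact inv_injective
      (h.inj (h.lt.trans (hinv w ⟨hw, hw0⟩)) (h.lt.trans (hinv y ⟨hy, hy0⟩)) h1)
  have he : ∀ w ∈ ball (0 : ℂ) 1, dslope û 0 w ≠ 0 := fun w hw =>
    dslope_ne_zero_of_injOn isOpen_ball hûd hûi (mem_ball_self one_pos) hw
  have hed : DifferentiableOn ℂ (dslope û 0) (ball 0 1) :=
    (Complex.differentiableOn_dslope hb0).2 hûd
  refine ⟨update (fun w => w * G w⁻¹) 0 (dslope û 0 0)⁻¹, fun w hw => ?_, ?_,
    fun w hw => update_of_ne hw _ _⟩
  · refine DifferentiableAt.differentiableWithinAt ?_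
    by_cases hw0 : w = 0
    · subst hw0
      have h1 : DifferentiableAt ℂ (fun w => (dslope û 0 w)⁻¹ + a * w) 0 :=
        ((hed.differentiableAt hb0).inv (he 0 (mem_ball_self one_pos))).add (by fun_prop)
      refine h1.congr_of_eventuallyEq ?_
      filter_upwards [hb0] with y hy
      by_cases hy0 : y = 0
      · simp [hy0]
      · rw [update_of_ne hy0, dslope_of_ne _ hy0, slope_def_field, hû0, hûu y hy0]
        simp only [hu, sub_zero]
        have := hne y ⟨hy, hy0⟩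
        field_simp
        ring
    · have h1 : r < ‖w⁻¹‖ := by
        rw [norm_inv]
        exact (lt_inv_comm₀ h.pos (norm_pos_iff.2 hw0)).2 (mem_ball_zero_iff.1 hw)
      have h2 : DifferentiableAt ℂ (fun w => w * G w⁻¹) w :=
        differentiableAt_id.mul ((h.diffAt h1).comp w (differentiableAt_inv hw0))
      refine h2.congr_of_eventuallyEq ?_
      filter_upwards [eventually_ne_nhds hw0] with y hy using update_of_ne hy _ _
  · rw [update_self]
    exact inv_ne_zero (he 0 (mem_ball_self one_pos))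

end Curve

theorem det_ne_zero_of_not_mem_spectrum {ι : Type*} [Fintype ι] [DecidableEq ι]
    {B : Matrix ι ι ℂ} {s : ℂ} (hs : s ∉ spectrum ℂ B) : (s • (1 : Matrix ι ι ℂ) - B).det ≠ 0 := by
  rw [spectrum.notMem_iff, Matrix.isUnit_iff_isUnit_det, isUnit_iff_ne_zero,
    Algebra.algebraMap_eq_smul_one] at hs
  exact hs

namespace Curve

variable {Ω : Set ℂ} {G : ℂ → ℂ} {r : ℝ} {ι : Type*} [Fintype ι] [DecidableEq ι]

/-- The boundary curve winds once around the spectrum. -/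
theorem winding (h : Curve Ω G r) {B : Matrix ι ι ℂ} (hB : spectrum ℂ B ⊆ Ω) (a b : ι) :
    cmean (fun θ => ct θ * deriv G (ct θ) * (G (ct θ) • (1 : Matrix ι ι ℂ) - B)⁻¹ a b)
      = (1 : Matrix ι ι ℂ) a b := by
  obtain ⟨q, hqd, hq0, hq⟩ := h.exists_q
  have hsub : closedBall (0 : ℂ) 1 ⊆ ball 0 r⁻¹ :=
    closedBall_subset_ball ((one_lt_inv₀ h.pos).2 h.lt)
  have hfac : ∀ w : ℂ, w ≠ 0 →
      q w • (1 : Matrix ι ι ℂ) - w • B = w • (G w⁻¹ • (1 : Matrix ι ι ℂ) - B) := by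
    intro w hw
    rw [hq w hw, smul_sub, mul_smul]
  have hdet : ∀ w ∈ closedBall (0 : ℂ) 1, (q w • (1 : Matrix ι ι ℂ) - w • B).det ≠ 0 := by
    intro w hw
    by_cases hw0 : w = 0
    · simp [hw0, hq0]
    · rw [hfac w hw0, Matrix.det_smul]
      refine mul_ne_zero (pow_ne_zero _ hw0) (det_ne_zero_of_not_mem_spectrum fun hs => ?_)
      refine h.not_mem ?_ (hB hs)
      rw [norm_inv]
      exact (one_le_inv₀ (norm_pos_iff.2 hw0)).2 (mem_closedBall_zero_iff.1 hw)
  set R : ℂ → Matrix ι ι ℂ :=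
    fun w => (q w - w * deriv q w) • (q w • (1 : Matrix ι ι ℂ) - w • B)⁻¹ with hR
  have hRd : Hol (closedBall 0 1) R := by
    refine Hol.smul ((hqd.sub (differentiableOn_id.mul (hqd.deriv isOpen_ball))).mono hsub) ?_
    refine Hol.inv ?_ hdet
    exact (Hol.smul (hqd.mono hsub) (Hol.const _)).sub (Hol.smul differentiableOn_id (Hol.const _))
  have h1 : Real.circleAverage (fun w => R w a b) 0 1 = R 0 a b := by
    refine DiffContOnCl.circleAverage (DifferentiableOn.diffContOnCl ?_)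
    rw [abs_one, closure_ball _ one_ne_zero]
    exact hRd a b
  have h2 : R 0 = 1 := by
    simp only [hR, zero_mul, sub_zero, zero_smul]
    rw [Matrix.inv_eq_right_inv (B := (q 0)⁻¹ • (1 : Matrix ι ι ℂ))
      (by simp [smul_smul, hq0]), smul_smul, mul_inv_cancel₀ hq0, one_smul]
  rw [← Real.circleAverage_zero_one_congr_inv, h2, ← cmean_eq_circleAverage] at h1
  rw [← h1]
  congr 1
  funext θ
  have ht0 : ct θ ≠ 0 := norm_pos_iff.1 (by rw [norm_ct]; exact one_pos)
  have hw0 : (ct θ)⁻¹ ≠ 0 := inv_ne_zero ht0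
  have hdq : HasDerivAt q
      (1 * G (ct θ)⁻¹⁻¹ + (ct θ)⁻¹ * (deriv G (ct θ)⁻¹⁻¹ * (-(((ct θ)⁻¹) ^ 2)⁻¹))) (ct θ)⁻¹ := by
    have h3 : DifferentiableAt ℂ G (ct θ)⁻¹⁻¹ := by
      rw [inv_inv]; exact h.diffAt (h.lt.trans_eq (norm_ct θ).symm)
    refine ((hasDerivAt_id _).mul (h3.hasDerivAt.comp _ (hasDerivAt_inv hw0))).congr_of_eventuallyEq
      ?_
    filter_upwards [eventually_ne_nhds hw0] with y hy using hq y hy
  have hdet' : IsUnit (G (ct θ) • (1 : Matrix ι ι ℂ) - B).det :=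
    isUnit_iff_ne_zero.2
      (det_ne_zero_of_not_mem_spectrum fun hs => h.not_mem (norm_ct θ).ge (hB hs))
  simp only [hR]
  rw [hfac _ hw0, hdq.deriv, hq _ hw0, inv_inv,
    Matrix.inv_eq_right_inv (A := (ct θ)⁻¹ • (G (ct θ) • (1 : Matrix ι ι ℂ) - B))
      (B := ct θ • (G (ct θ) • (1 : Matrix ι ι ℂ) - B)⁻¹) (by
      rw [smul_mul_smul_comm, Matrix.mul_nonsing_inv _ hdet', inv_mul_cancel₀ ht0, one_smul])]
  simp only [Matrix.smul_apply, smul_eq_mul]
  field_simp
  ring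

end Curve

end Crest.Agent.H4
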