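import Crest.Agent.H4.CrzRepr

/-!
Norm bounds from a positive integral representation.
-/

set_option autoImplicit false

open Filter Metric Set Function Polynomial
open scoped Topology ComplexOrder Matrix Kronecker

namespace Crest.Agent.H4

section

variable {ι : Type*} [Fintype ι]

/-- Squared Euclidean norm of a vector. -/
noncomputable def nsq (x : ι → ℂ) : ℝ := (star x ⬝ᵥ x).re

theorem norm_sq_eq_nsq (x : EuclideanSpace ℂ ι) : ‖x‖ ^ 2 = nsq x.ofLp := by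
  rw [nsq, ← inner_self_eq_norm_sq (𝕜 := ℂ), EuclideanSpace.inner_eq_star_dotProduct,
    dotProduct_comm]
  rfl

theorem dot_mulVec_mulVec {κ : Type*} [Fintype κ] (M N : Matrix κ ι ℂ) (x y : ι → ℂ) :
    star (M *ᵥ x) ⬝ᵥ (N *ᵥ y) = star x ⬝ᵥ ((Mᴴ * N) *ᵥ y) := by
  rw [Matrix.star_mulVec, ← Matrix.dotProduct_mulVec, Matrix.mulVec_mulVec]

theorem re_nonneg_of_psd {M : Matrix ι ι ℂ} (hM : M.PosSemidef) (x : ι → ℂ) :
    0 ≤ (star x ⬝ᵥ (M *ᵥ x)).re := (Complex.nonneg_iff.1 (hM.dotProduct_mulVec_nonneg x)).1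

variable [DecidableEq ι]

theorem nsq_le_of_psd {κ : Type*} [Fintype κ] {M : Matrix κ ι ℂ} {c : ℝ}
    (h : ((c : ℂ) • (1 : Matrix ι ι ℂ) - Mᴴ * M).PosSemidef) (x : ι → ℂ) :
    nsq (M *ᵥ x) ≤ c * nsq x := by
  have := re_nonneg_of_psd h x
  rw [Matrix.sub_mulVec, dotProduct_sub, Matrix.smul_mulVec, Matrix.one_mulVec, dotProduct_smul,
    ← dot_mulVec_mulVec, Complex.sub_re, smul_eq_mul, Complex.re_ofReal_mul] at this
  simp only [nsq]
  linarith

theorem le_nsq_of_psd {κ : Type*} [Fintype κ] {M : Matrix κ ι ℂ}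
    (h : (Mᴴ * M - 1).PosSemidef) (x : ι → ℂ) : nsq x ≤ nsq (M *ᵥ x) := by
  have := re_nonneg_of_psd h x
  rw [Matrix.sub_mulVec, dotProduct_sub, Matrix.one_mulVec, ← dot_mulVec_mulVec,
    Complex.sub_re] at this
  simp only [nsq]
  linarith

theorem psd_of_norm_le {v : Matrix ι ι ℂ} {M : ℝ}
    (h : ‖Matrix.toEuclideanCLM (n := ι) (𝕜 := ℂ) v‖ ≤ M) :
    (((M ^ 2 : ℝ) : ℂ) • (1 : Matrix ι ι ℂ) - vᴴ * v).PosSemidef := by
  refine Matrix.PosSemidef.of_dotProduct_mulVec_nonneg ?_ fun x => ?_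
  · simp [Matrix.IsHermitian, Matrix.conjTranspose_sub, Matrix.conjTranspose_smul,
      Matrix.conjTranspose_mul]
  · rw [Matrix.sub_mulVec, dotProduct_sub, Matrix.smul_mulVec, Matrix.one_mulVec, dotProduct_smul,
      ← dot_mulVec_mulVec]
    have e : ∀ y : ι → ℂ, star y ⬝ᵥ y = (nsq y : ℂ) := by
      intro y
      have := Complex.nonneg_iff.1 (dotProduct_star_self_nonneg y)
      exact Complex.ext (by simp [nsq]) (by simp [← this.2])
    rw [e, e, smul_eq_mul, ← Complex.ofReal_mul, ← Complex.ofReal_sub, Complex.zero_le_real,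
      sub_nonneg]
    have h1 := (Matrix.toEuclideanCLM (n := ι) (𝕜 := ℂ) v).le_of_opNorm_le h (WithLp.toLp 2 x)
    have h2 := pow_le_pow_left₀ (norm_nonneg _) h1 2
    rwa [mul_pow, norm_sq_eq_nsq, norm_sq_eq_nsq] at h2

omit [DecidableEq ι] in
theorem cmean_dot {N : ℝ → Matrix ι ι ℂ} (hN : ∀ i j, Continuous fun θ => N θ i j)
    {N₀ : Matrix ι ι ℂ} (h0 : ∀ i j, cmean (fun θ => N θ i j) = N₀ i j) (x y : ι → ℂ) :
    (Continuous fun θ => y ⬝ᵥ (N θ *ᵥ x)) ∧ cmean (fun θ => y ⬝ᵥ (N θ *ᵥ x)) = y ⬝ᵥ (N₀ *ᵥ x) := by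
  have e : ∀ M : Matrix ι ι ℂ, y ⬝ᵥ (M *ᵥ x) = ∑ p : ι × ι, M p.1 p.2 * (y p.1 * x p.2) := by
    intro M
    simp only [dotProduct, Matrix.mulVec, Fintype.sum_prod_type, Finset.mul_sum]
    refine Finset.sum_congr rfl fun i _ => Finset.sum_congr rfl fun j _ => by ring
  simp only [e]
  refine ⟨continuous_finsetSum _ fun p _ => (hN p.1 p.2).mul continuous_const, ?_⟩
  rw [cmean_sum (φ := fun (p : ι × ι) θ => N θ p.1 p.2) (fun p => hN p.1 p.2)]
  simp only [h0]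

end

theorem nsq_le_of_density {ι κ : Type*} [Fintype ι] [DecidableEq ι] [Fintype κ] [DecidableEq κ]
    {Λ : ℝ → Matrix ι ι ℂ} (hΛc : ∀ a b, Continuous fun θ => Λ θ a b)
    (hΛ : ∀ θ, (Λ θ).PosSemidef)
    (hΛ1 : ∀ a b, cmean (fun θ => Λ θ a b) = (1 : Matrix ι ι ℂ) a b)
    {w : ℝ → Matrix κ κ ℂ} (hwc : ∀ c d, Continuous fun θ => w θ c d) {c₀ : ℝ}
    (hw : ∀ θ, ((c₀ : ℂ) • (1 : Matrix κ κ ℂ) - (w θ)ᴴ * w θ).PosSemidef)
    {N : Matrix (ι × κ) (ι × κ) ℂ}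
    (hN : ∀ i j, cmean (fun θ => Λ θ i.1 j.1 * w θ i.2 j.2) = N i j) (x : ι × κ → ℂ) :
    nsq (N *ᵥ x) ≤ c₀ * nsq x := by
  set y := N *ᵥ x with hy
  have h1c : ∀ i j, Continuous fun θ => (Λ θ ⊗ₖ (1 : Matrix κ κ ℂ)) i j := fun i j =>
    (hΛc i.1 j.1).mul continuous_const
  have h1m : ∀ i j, cmean (fun θ => (Λ θ ⊗ₖ (1 : Matrix κ κ ℂ)) i j)
      = (1 : Matrix (ι × κ) (ι × κ) ℂ) i j := by
    intro i j
    rw [← Matrix.one_kronecker_one]
    have := cmean_sum (κ := Unit) (φ := fun _ θ => Λ θ i.1 j.1) (fun _ => hΛc i.1 j.1)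
      (fun _ => (1 : Matrix κ κ ℂ) i.2 j.2)
    simp only [Finset.univ_unique, Finset.sum_singleton, hΛ1] at this
    exact this
  have h2c : ∀ i j, Continuous fun θ => (Λ θ ⊗ₖ w θ) i j := fun i j =>
    (hΛc i.1 j.1).mul (hwc i.2 j.2)
  obtain ⟨c1, m1⟩ := cmean_dot h1c h1m y (star y)
  obtain ⟨c2, m2⟩ := cmean_dot h1c h1m x (star x)
  obtain ⟨c3, m3⟩ := cmean_dot (N := fun θ => Λ θ ⊗ₖ w θ) h2c hN x (star y)
  set φ : Fin 3 → ℝ → ℂ := ![fun θ => star y ⬝ᵥ ((Λ θ ⊗ₖ (1 : Matrix κ κ ℂ)) *ᵥ y),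
    fun θ => star x ⬝ᵥ ((Λ θ ⊗ₖ (1 : Matrix κ κ ℂ)) *ᵥ x),
    fun θ => star y ⬝ᵥ ((Λ θ ⊗ₖ w θ) *ᵥ x)] with hφ
  have hφc : ∀ i, Continuous (φ i) := by
    intro i
    fin_cases i
    exacts [c1, c2, c3]
  have hs := cmean_sum hφc ![1, c₀, -2]
  have hpos := cmean_re_nonneg (φ := fun θ => ∑ i, φ i θ * ![1, (c₀ : ℂ), -2] i)
    (continuous_finsetSum _ fun i _ => (hφc i).mul continuous_const) (by
      intro θ
      simp only [Fin.sum_univ_three, hφ, Matrix.cons_val_zero, Matrix.cons_val_one,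
        Matrix.cons_val]
      set L := Λ θ ⊗ₖ (1 : Matrix κ κ ℂ) with hL
      set V := (1 : Matrix ι ι ℂ) ⊗ₖ w θ with hV
      have hLp : L.PosSemidef := (hΛ θ).kronecker Matrix.PosSemidef.one
      have e1 : Λ θ ⊗ₖ w θ = L * V := by
        rw [hL, hV, ← Matrix.mul_kronecker_mul, Matrix.mul_one, Matrix.one_mul]
      have e2 : Λ θ ⊗ₖ ((c₀ : ℂ) • (1 : Matrix κ κ ℂ) - (w θ)ᴴ * w θ)
          = (c₀ : ℂ) • L - Vᴴ * (L * V) := by
        rw [← e1, hV, Matrix.conjTranspose_kronecker, ← Matrix.mul_kronecker_mul,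
          Matrix.conjTranspose_one, Matrix.one_mul, hL]
        ext i j
        simp [Matrix.kroneckerMap_apply, mul_sub]
        ring
      have p1 := re_nonneg_of_psd hLp (y - V *ᵥ x)
      have p2 := re_nonneg_of_psd ((hΛ θ).kronecker (hw θ)) x
      rw [e2, Matrix.sub_mulVec, dotProduct_sub, Matrix.smul_mulVec, dotProduct_smul,
        ← dot_mulVec_mulVec] at p2
      have e3 : (star (V *ᵥ x) ⬝ᵥ (L *ᵥ y)).re = (star y ⬝ᵥ ((L * V) *ᵥ x)).re := by
        rw [Matrix.star_dotProduct, RCLike.star_def, Complex.conj_re,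
          Matrix.star_mulVec, hLp.isHermitian.eq, ← Matrix.dotProduct_mulVec,
          Matrix.mulVec_mulVec]
      rw [star_sub, Matrix.mulVec_sub, sub_dotProduct, dotProduct_sub, dotProduct_sub,
        Matrix.mulVec_mulVec x L V] at p1
      rw [e1]
      simp only [Complex.sub_re, Complex.add_re, smul_eq_mul, Complex.re_ofReal_mul, mul_one,
        Complex.re_mul_ofReal, mul_neg, Complex.neg_re, Complex.mul_re, Complex.re_ofNat,
        Complex.im_ofNat, mul_zero, sub_zero, Complex.ofReal_re, Complex.ofReal_im, zero_mul]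
        at p1 p2 ⊢
      linarith)
  rw [hs] at hpos
  simp only [Fin.sum_univ_three, hφ, Matrix.cons_val_zero, Matrix.cons_val_one,
    Matrix.cons_val, m1, m2, m3, Matrix.one_mulVec, ← hy] at hpos
  simp only [Complex.add_re, mul_one, mul_neg, Complex.neg_re, Complex.mul_re, Complex.re_ofNat,
    Complex.im_ofNat, mul_zero, sub_zero, Complex.ofReal_re, Complex.ofReal_im] at hpos
  simp only [nsq]
  linarith

theorem aeval_conj {ι : Type*} [Fintype ι] [DecidableEq ι] (A S : Matrix ι ι ℂ)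
    (hS : IsUnit S.det) (a : ℂ[X]) : aeval (S * A * S⁻¹) a * S = S * aeval A a := by
  induction a using Polynomial.induction_on with
  | C c => simp [Algebra.algebraMap_eq_smul_one]
  | add a b ha hb => rw [map_add, map_add, Matrix.add_mul, Matrix.mul_add, ha, hb]
  | monomial k c ih =>
    rw [pow_succ, ← mul_assoc, map_mul _ _ X, map_mul _ _ X, aeval_X, aeval_X, mul_assoc,
      Matrix.nonsing_inv_mul_cancel_right _ _ hS, ← mul_assoc, ih, mul_assoc]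

end Crest.Agent.H4
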