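import Crest.Agent.H4.CrzCurve

/-!
The positive integral representation of the functional calculus of a matrix `B` such that
`f(B)` is a contraction.
-/

set_option autoImplicit false

open Filter Metric Set Function Polynomial
open scoped Topology ComplexOrder Matrix Kronecker
open Crest.AnalysisR.NumRange

namespace Crest.Agent.H4

theorem exists_decomp {n : ℕ} (B : Matrix (Fin n) (Fin n) ℂ) {V : Set ℂ} (hV : IsOpen V)
    (hB : spectrum ℂ B ⊆ V) {u : ℂ → ℂ} (hu : DifferentiableOn ℂ u V) {p : ℂ[X]}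
    (hp : AgreesOnSpectrum B u p) :
    ∃ d : ℂ → ℂ[X], (∀ ℓ : ℂ[X] →ₗ[ℂ] ℂ, DifferentiableOn ℂ (fun s => ℓ (d s)) V) ∧
      (∀ s, u s • (1 : Matrix (Fin n) (Fin n) ℂ)
        = aeval B p + (s • (1 : Matrix (Fin n) (Fin n) ℂ) - B) * aeval B (d s)) ∧
      ∀ μ ∈ spectrum ℂ B, ∀ s, u s = p.eval μ + (s - μ) * (d s).eval μ := by
  obtain ⟨h, hh, he⟩ := exists_charpoly_div B hV hB hu hp
  obtain ⟨d₁, h₁, e₁⟩ := exists_divDiff p
  obtain ⟨d₂, h₂, e₂⟩ := exists_divDiff B.charpoly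
  have key : ∀ s, C (u s) = p + C (h s) * B.charpoly + (C s - X) * (d₁ s + h s • d₂ s) := by
    intro s
    rw [he s, C_add, C_mul, smul_eq_C_mul]
    linear_combination e₁ s + C (h s) * e₂ s
  refine ⟨fun s => d₁ s + h s • d₂ s, fun ℓ => ?_, fun s => ?_, fun μ hμ s => ?_⟩
  · simp only [map_add, map_smul, smul_eq_mul]
    exact (h₁ ℓ).differentiableOn.add (hh.mul (h₂ ℓ).differentiableOn)
  · have := congrArg (aeval B) (key s)
    rw [map_add, map_add, map_mul, map_mul, Matrix.aeval_self_charpoly, mul_zero, add_zero,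
      map_sub, aeval_C, aeval_C, aeval_X, Algebra.algebraMap_eq_smul_one,
      Algebra.algebraMap_eq_smul_one] at this
    exact this
  · have := congrArg (Polynomial.eval μ) (key s)
    have h0 : B.charpoly.eval μ = 0 := Matrix.mem_spectrum_iff_isRoot_charpoly.1 hμ
    rw [eval_add, eval_add, eval_mul, eval_mul, h0, mul_zero, add_zero, eval_sub, eval_C,
      eval_C, eval_X] at this
    exact this

theorem hol_aeval_on {ι : Type*} [Fintype ι] [DecidableEq ι] {W : Set ℂ} (B : Matrix ι ι ℂ)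
    {d : ℂ → ℂ[X]} (hd : ∀ ℓ : ℂ[X] →ₗ[ℂ] ℂ, DifferentiableOn ℂ (fun s => ℓ (d s)) W) :
    Hol W (fun s => aeval B (d s)) := fun a b =>
  hd (Matrix.entryLinearMap ℂ ℂ a b ∘ₗ (aeval B).toLinearMap)

theorem hol_resolvent {ι : Type*} [Fintype ι] [DecidableEq ι] (B : Matrix ι ι ℂ) :
    Hol (spectrum ℂ B)ᶜ (fun s => (s • (1 : Matrix ι ι ℂ) - B)⁻¹) :=
  Hol.inv ((Hol.smul differentiableOn_id (Hol.const _)).sub (Hol.const _))
    fun _ hs => det_ne_zero_of_not_mem_spectrum hs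

namespace Curve

variable {Ω : Set ℂ} {G : ℂ → ℂ} {r : ℝ}

theorem continuous_res (h : Curve Ω G r) {ι : Type*} [Fintype ι] [DecidableEq ι]
    {B : Matrix ι ι ℂ} (hB : spectrum ℂ B ⊆ Ω) (a b : ι) :
    Continuous fun θ => (G (ct θ) • (1 : Matrix ι ι ℂ) - B)⁻¹ a b :=
  h.continuous_comp (hol_resolvent B a b).continuousOn fun _ hs hs' => hs.2 (hB hs')

/-- The Cauchy formula for the holomorphic functional calculus. -/
theorem cauchy_formula (h : Curve Ω G r) {n : ℕ} {B : Matrix (Fin n) (Fin n) ℂ}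
    (hB : spectrum ℂ B ⊆ Ω) {V : Set ℂ} (hV : IsOpen V) (hΩV : closure Ω ⊆ V) {v : ℂ → ℂ}
    (hv : DifferentiableOn ℂ v V) {q : ℂ[X]} (hq : AgreesOnSpectrum B v q) (a b : Fin n) :
    cmean (fun θ => ct θ * deriv G (ct θ) *
      (G (ct θ) • (1 : Matrix (Fin n) (Fin n) ℂ) - B)⁻¹ a b * v (G (ct θ))) = aeval B q a b := by
  obtain ⟨d, hd, he, -⟩ := exists_decomp B hV (hB.trans (subset_closure.trans hΩV)) hv hq
  have hE := hol_aeval_on B hd
  have hpt : ∀ θ, ct θ * deriv G (ct θ) *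
      (G (ct θ) • (1 : Matrix (Fin n) (Fin n) ℂ) - B)⁻¹ a b * v (G (ct θ))
      = (∑ c, (ct θ * deriv G (ct θ) *
          (G (ct θ) • (1 : Matrix (Fin n) (Fin n) ℂ) - B)⁻¹ a c) * aeval B q c b)
        + ct θ * deriv G (ct θ) * aeval B (d (G (ct θ))) a b := by
    intro θ
    have hdet : IsUnit (G (ct θ) • (1 : Matrix (Fin n) (Fin n) ℂ) - B).det :=
      isUnit_iff_ne_zero.2
        (det_ne_zero_of_not_mem_spectrum fun hs => h.not_mem (norm_ct θ).ge (hB hs))
    have h1 := congrArg (fun M => ((G (ct θ) • (1 : Matrix (Fin n) (Fin n) ℂ) - B)⁻¹ * M) a b)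
      (he (G (ct θ)))
    simp only [Matrix.mul_add, Matrix.mul_smul, Matrix.mul_one,
      Matrix.nonsing_inv_mul_cancel_left _ _ hdet, Matrix.smul_apply, Matrix.add_apply,
      smul_eq_mul] at h1
    rw [Matrix.mul_apply] at h1
    simp only [mul_assoc]
    rw [← Finset.mul_sum, ← Finset.mul_sum, ← mul_add, ← mul_add, ← h1]
    ring
  simp only [hpt]
  rw [cmean_add, cmean_sum (fun c => h.continuous_dG.fun_mul (h.continuous_res hB a c)),
    h.cauchy_zero hV hΩV (hE a b), add_zero]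
  · simp only [h.winding hB]
    rw [← Matrix.mul_apply, Matrix.one_mul]
  · exact continuous_finsetSum _ fun c _ =>
      (h.continuous_dG.mul (h.continuous_res hB a c)).mul continuous_const
  · exact h.continuous_dG.mul (h.continuous_comp (hE a b).continuousOn (sdiff_subset.trans hΩV))

end Curve

theorem poisson_psd {ι : Type*} [Fintype ι] [DecidableEq ι] {T : Matrix ι ι ℂ} {z : ℂ}
    (hz : ‖z‖ = 1) (hT : (1 - Tᴴ * T).PosSemidef) (hdet : (1 - z • Tᴴ).det ≠ 0) :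
    ∃ P : Matrix ι ι ℂ, P.PosSemidef ∧
      (z • (1 : Matrix ι ι ℂ) - T)⁻¹ + Tᴴ * (1 - z • Tᴴ)⁻¹ = (starRingEnd ℂ) z • P := by
  have hzz : (starRingEnd ℂ) z * z = 1 := by
    rw [Complex.conj_mul', hz]; simp
  set a : Matrix ι ι ℂ := 1 - (starRingEnd ℂ) z • T with ha
  have haH : aᴴ = 1 - z • Tᴴ := by
    simp [ha, Matrix.conjTranspose_sub, Matrix.conjTranspose_smul]
  have hdH : IsUnit aᴴ.det := by rw [haH]; exact isUnit_iff_ne_zero.2 hdet
  have hda : IsUnit a.det := by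
    rw [Matrix.det_conjTranspose, isUnit_star] at hdH; exact hdH
  refine ⟨(a⁻¹)ᴴ * (1 - Tᴴ * T) * a⁻¹, hT.conjTranspose_mul_mul_same _, ?_⟩
  have e1 : (z • (1 : Matrix ι ι ℂ) - T)⁻¹ = (starRingEnd ℂ) z • a⁻¹ := by
    apply Matrix.inv_eq_right_inv
    have : z • (1 : Matrix ι ι ℂ) - T = z • a := by
      rw [ha, smul_sub, smul_smul, mul_comm, hzz, one_smul]
    rw [this, smul_mul_smul_comm, Matrix.mul_nonsing_inv _ hda, mul_comm, hzz, one_smul]
  have e2 : 1 - Tᴴ * T = aᴴ + a - aᴴ * a := by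
    rw [haH, ha, sub_mul, mul_sub, mul_sub, smul_mul_smul_comm, mul_comm z, hzz, one_smul]
    simp only [one_mul, mul_one]
    abel
  have e3 : Tᴴ = (starRingEnd ℂ) z • (1 - aᴴ) := by
    rw [haH, sub_sub_cancel, smul_smul, hzz, one_smul]
  rw [e1, ← haH, e2, Matrix.conjTranspose_nonsing_inv]
  conv_lhs => rw [e3]
  rw [smul_mul_assoc, ← smul_add]
  congr 1
  simp only [sub_mul, mul_sub, mul_add, add_mul, one_mul, Matrix.mul_nonsing_inv _ hdH,
    Matrix.nonsing_inv_mul _ hdH, Matrix.nonsing_inv_mul_cancel_left _ _ hdH,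
    Matrix.mul_nonsing_inv_cancel_right _ _ hda, Matrix.mul_nonsing_inv _ hda]
  abel

theorem nonneg_of_radial {ψ : ℂ → ℂ} {t : ℂ} (ht : ‖t‖ = 1) (hd : DifferentiableAt ℂ ψ t)
    (h1 : ∀ u : ℂ, ‖u‖ = 1 → ‖ψ u‖ = 1) (h2 : ∀ᶠ u in 𝓝 t, 1 < ‖u‖ → 1 ≤ ‖ψ u‖) :
    0 ≤ t * deriv ψ t * (starRingEnd ℂ) (ψ t) := by
  have key : ∀ (γ : ℝ → ℂ) (γ' : ℂ), HasDerivAt γ γ' 0 → γ 0 = t →
      (∀ᶠ s in 𝓝[>] (0 : ℝ), 1 ≤ ‖ψ (γ s)‖) → 0 ≤ ((starRingEnd ℂ) (ψ t) * (deriv ψ t * γ')).re := by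
    intro γ γ' hγ h0 hle
    have h3 : HasDerivAt ψ (deriv ψ t) (γ 0) := by rw [h0]; exact hd.hasDerivAt
    have h4 := re_conj_mul_nonneg_of_norm_le (h3.comp (0 : ℝ) hγ) (by
      simp only [Function.comp_apply, h0, h1 t ht]; exact hle)
    simpa only [Function.comp_apply, h0] using h4
  obtain ⟨r1, r2⟩ := Curve.radial ht
  have k1 := key _ _ r1 (by simp) (by
    have h5 : ∀ᶠ ρ : ℝ in 𝓝 0, 1 < ‖(1 + (ρ : ℂ)) * t‖ → 1 ≤ ‖ψ ((1 + (ρ : ℂ)) * t)‖ := by
      have h6 := r1.continuousAt.tendsto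
      simp only [Complex.ofReal_zero, add_zero, one_mul] at h6
      exact h6.eventually h2
    filter_upwards [h5.filter_mono (nhdsWithin_le_nhds (s := Ioi 0)), self_mem_nhdsWithin]
      with ρ hρ hρ0 using hρ (r2 ρ hρ0))
  have hct0 : ct 0 = 1 := by simp [ct]
  have k2 := key (fun s => ct s * t) (ct 0 * Complex.I * t) ((hasDerivAt_ct 0).mul_const t)
    (by simp [hct0]) (Eventually.of_forall fun s => (h1 _ (by rw [norm_mul, norm_ct, ht, mul_one])).ge)
  have k3 := key (fun s => ct (-s) * t) (ct 0 * Complex.I * (-1 : ℝ) * t) (by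
      have h7 : HasDerivAt ct (ct 0 * Complex.I) (-0 : ℝ) := by
        rw [neg_zero]; exact hasDerivAt_ct 0
      have := (h7.scomp (0 : ℝ) (hasDerivAt_neg (0 : ℝ))).mul_const t
      refine this.congr_deriv ?_
      simp)
    (by simp [hct0]) (Eventually.of_forall fun s => (h1 _ (by rw [norm_mul, norm_ct, ht, mul_one])).ge)
  set J := t * deriv ψ t * (starRingEnd ℂ) (ψ t) with hJ
  have e1 : (starRingEnd ℂ) (ψ t) * (deriv ψ t * t) = J := by rw [hJ]; ring
  have e2 : (starRingEnd ℂ) (ψ t) * (deriv ψ t * (ct 0 * Complex.I * t)) = Complex.I * J := by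
    rw [hJ, hct0]; ring
  have e3 : (starRingEnd ℂ) (ψ t) * (deriv ψ t * (ct 0 * Complex.I * (-1 : ℝ) * t))
      = -(Complex.I * J) := by
    rw [hJ, hct0]; push_cast; ring
  rw [e1] at k1
  rw [e2] at k2
  rw [e3] at k3
  simp only [Complex.neg_re, Complex.mul_re, Complex.I_re, Complex.I_im, zero_mul, one_mul,
    zero_sub, neg_neg] at k2 k3
  rw [Complex.nonneg_iff]
  exact ⟨k1, by linarith⟩

/-- The positive representation. -/
theorem exists_density {Ω U : Set ℂ} {G : ℂ → ℂ} {r : ℝ} (h : Curve Ω G r) {n : ℕ} (hn : 1 ≤ n)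
    {B : Matrix (Fin n) (Fin n) ℂ} (hB : spectrum ℂ B ⊆ Ω) (hU : IsOpen U) (hΩU : closure Ω ⊆ U)
    {f : ℂ → ℂ} (hf₁ : DifferentiableOn ℂ f U) (hf₂ : InjOn f U) (hf₃ : f '' Ω = ball 0 1)
    {p : ℂ[X]} (hp : AgreesOnSpectrum B f p)
    (hT : (1 - (aeval B p)ᴴ * aeval B p).PosSemidef) :
    ∃ Λ : ℝ → Matrix (Fin n) (Fin n) ℂ, (∀ a b, Continuous fun θ => Λ θ a b) ∧
      Function.Periodic Λ (2 * Real.pi) ∧ (∀ θ, (Λ θ).PosSemidef) ∧
      (∀ a b, cmean (fun θ => Λ θ a b) = (1 : Matrix (Fin n) (Fin n) ℂ) a b) ∧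
      ∀ (V : Set ℂ), IsOpen V → closure Ω ⊆ V → ∀ v : ℂ → ℂ, DifferentiableOn ℂ v V →
        ∀ q : ℂ[X], AgreesOnSpectrum B v q → ∀ a b,
          cmean (fun θ => Λ θ a b * v (G (ct θ))) = aeval B q a b := by
  haveI : Nonempty (Fin n) := ⟨⟨0, hn⟩⟩
  have hΩU' : Ω ⊆ U := subset_closure.trans hΩU
  have hBU : spectrum ℂ B ⊆ U := hB.trans hΩU'
  have hne : (spectrum ℂ B).Nonempty := spectrum.nonempty_of_isAlgClosed_of_finiteDimensional ℂ B
  set T := aeval B p with hTdef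
  obtain ⟨d, hd, he, hev⟩ := exists_decomp B hU hBU hf₁ hp
  set D : ℂ → Matrix (Fin n) (Fin n) ℂ := fun s => aeval B (d s) with hD
  have hDh : Hol U D := hol_aeval_on B hd
  have hpμ : ∀ μ ∈ spectrum ℂ B, p.eval μ = f μ := fun μ hμ => AgreesOnSpectrum.eval_eq hp hn hμ
  have hDdet : ∀ s ∈ U, (D s).det ≠ 0 := by
    intro s hs
    have h0 : (0 : ℂ) ∉ spectrum ℂ (D s) := by
      simp only [hD]
      rw [spectrum.map_polynomial_aeval_of_nonempty B (d s) hne]
      rintro ⟨μ, hμ, h0⟩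
      simp only at h0
      rcases eq_or_ne s μ with rfl | hsμ
      · have h1 : DifferentiableAt ℂ (fun z => (d z).eval s) s :=
          (hd (Polynomial.leval s)).differentiableAt (hU.mem_nhds hs)
        have h2 : HasDerivAt (fun z => p.eval s + (z - s) * (d z).eval s)
            (1 * (d s).eval s + (s - s) * deriv (fun z => (d z).eval s) s) s :=
          (((hasDerivAt_id s).sub_const s).mul h1.hasDerivAt).const_add _
        have h3 : f = fun z => p.eval s + (z - s) * (d z).eval s := funext (hev s hμ)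
        rw [← h3] at h2
        apply deriv_ne_zero_of_injOn hU hf₁ hf₂ hs
        rw [h2.deriv, h0]; simp
      · have h1 := hev μ hμ s
        rw [h0, mul_zero, add_zero, hpμ μ hμ] at h1
        exact hsμ (hf₂ hs (hBU hμ) h1)
    have := det_ne_zero_of_not_mem_spectrum h0
    rw [zero_smul, zero_sub, Matrix.det_neg] at this
    exact right_ne_zero_of_mul this
  set D' : ℂ → Matrix (Fin n) (Fin n) ℂ :=
    fun s => Matrix.of fun a b => deriv (fun z => D z a b) s with hD'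
  have hD'h : Hol U D' := hDh.deriv hU
  have hder : ∀ s ∈ U, deriv f s • (1 : Matrix (Fin n) (Fin n) ℂ)
      = D s + (s • (1 : Matrix (Fin n) (Fin n) ℂ) - B) * D' s := by
    intro s hs
    ext a b
    have h1 : HasDerivAt (fun z => (f z • (1 : Matrix (Fin n) (Fin n) ℂ)) a b)
        ((deriv f s • (1 : Matrix (Fin n) (Fin n) ℂ)) a b) s :=
      (hf₁.differentiableAt (hU.mem_nhds hs)).hasDerivAt.mul_const _
    have h2 : HasDerivAt (fun z => T a b + ∑ c, (z * (1 : Matrix (Fin n) (Fin n) ℂ) a c - B a c)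
        * D z c b) (∑ c, ((1 * (1 : Matrix (Fin n) (Fin n) ℂ) a c) * D s c b
          + (s * (1 : Matrix (Fin n) (Fin n) ℂ) a c - B a c) * D' s c b)) s := by
      refine HasDerivAt.const_add _ (HasDerivAt.fun_sum fun c _ => ?_)
      exact (((hasDerivAt_id s).mul_const _).sub_const _).mul
        ((hDh c b).differentiableAt (hU.mem_nhds hs)).hasDerivAt
    have h3 : (fun z => (f z • (1 : Matrix (Fin n) (Fin n) ℂ)) a b)
        = fun z => T a b + ∑ c, (z * (1 : Matrix (Fin n) (Fin n) ℂ) a c - B a c) * D z c b := by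
      funext z
      rw [he z, Matrix.add_apply, Matrix.mul_apply]
      rfl
    rw [h3] at h1
    rw [h1.unique h2, Finset.sum_add_distrib, Matrix.add_apply, Matrix.mul_apply]
    congr 1
    simp only [one_mul]
    rw [← Matrix.mul_apply, Matrix.one_mul]
  have hres : ∀ s ∈ U, s ∉ spectrum ℂ B →
      deriv f s • (f s • (1 : Matrix (Fin n) (Fin n) ℂ) - T)⁻¹
        = (s • (1 : Matrix (Fin n) (Fin n) ℂ) - B)⁻¹ + (D s)⁻¹ * D' s := by
    intro s hs hsB
    have hu1 : IsUnit (s • (1 : Matrix (Fin n) (Fin n) ℂ) - B).det :=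
      isUnit_iff_ne_zero.2 (det_ne_zero_of_not_mem_spectrum hsB)
    have hu2 : IsUnit (D s).det := isUnit_iff_ne_zero.2 (hDdet s hs)
    have e1 : f s • (1 : Matrix (Fin n) (Fin n) ℂ) - T
        = (s • (1 : Matrix (Fin n) (Fin n) ℂ) - B) * D s := by
      rw [he s]; exact add_sub_cancel_left _ _
    have e2 : (s • (1 : Matrix (Fin n) (Fin n) ℂ) - B) * D s
        = D s * (s • (1 : Matrix (Fin n) (Fin n) ℂ) - B) := by
      have : s • (1 : Matrix (Fin n) (Fin n) ℂ) - B = aeval B (C s - X) := by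
        rw [map_sub, aeval_C, aeval_X, Algebra.algebraMap_eq_smul_one]
      rw [this, hD]
      simp only
      rw [← map_mul, ← map_mul, mul_comm]
    rw [← Matrix.mul_one (f s • (1 : Matrix (Fin n) (Fin n) ℂ) - T)⁻¹, ← Matrix.mul_smul,
      hder s hs, Matrix.mul_add, e1]
    congr 1
    · rw [e2, Matrix.mul_inv_rev, Matrix.nonsing_inv_mul_cancel_right _ _ hu2]
    · rw [Matrix.mul_inv_rev, Matrix.mul_assoc, Matrix.nonsing_inv_mul_cancel_left _ _ hu1]
  have hfle : ∀ s ∈ closure Ω, ‖f s‖ ≤ 1 := by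
    intro s hs
    have h1 : f s ∈ closure (f '' Ω) :=
      (hf₁.continuousOn.mono hΩU).image_closure (mem_image_of_mem f hs)
    rw [hf₃, closure_ball _ one_ne_zero] at h1
    exact mem_closedBall_zero_iff.1 h1
  have hfge : ∀ s ∈ U, s ∉ Ω → 1 ≤ ‖f s‖ := by
    intro s hs hsΩ
    by_contra hlt
    push Not at hlt
    have : f s ∈ f '' Ω := hf₃ ▸ mem_ball_zero_iff.2 hlt
    obtain ⟨s', hs', h1⟩ := this
    exact hsΩ (hf₂ (hΩU' hs') hs h1 ▸ hs')
  have hTdet : ∀ z : ℂ, ‖z‖ ≤ 1 → (1 - z • Tᴴ).det ≠ 0 := by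
    intro z hz
    by_cases hz0 : z = 0
    · simp [hz0]
    have hc0 : (starRingEnd ℂ) z ≠ 0 := by simpa using hz0
    have e1 : 1 - z • Tᴴ = ((starRingEnd ℂ) z •
        (((starRingEnd ℂ) z)⁻¹ • (1 : Matrix (Fin n) (Fin n) ℂ) - T))ᴴ := by
      rw [smul_sub, smul_smul, mul_inv_cancel₀ hc0, one_smul]
      simp [Matrix.conjTranspose_sub, Matrix.conjTranspose_smul]
    rw [e1, Matrix.det_conjTranspose, star_ne_zero, Matrix.det_smul]
    refine mul_ne_zero (pow_ne_zero _ hc0) (det_ne_zero_of_not_mem_spectrum ?_)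
    rw [hTdef, spectrum.map_polynomial_aeval_of_nonempty B p hne]
    rintro ⟨μ, hμ, h0⟩
    simp only at h0
    rw [hpμ μ hμ] at h0
    have h1 : ‖f μ‖ < 1 := mem_ball_zero_iff.1 (hf₃ ▸ mem_image_of_mem f (hB hμ))
    rw [h0, norm_inv, Complex.norm_conj] at h1
    have h2 := (one_le_inv₀ (norm_pos_iff.2 hz0)).2 hz
    linarith
  have hM : Hol U (fun s => 1 - f s • Tᴴ) := (Hol.const _).sub (Hol.smul hf₁ (Hol.const _))
  set W : Set ℂ := U ∩ (fun s => (1 - f s • Tᴴ).det) ⁻¹' {0}ᶜ with hW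
  have hWo : IsOpen W := hM.det.continuousOn.isOpen_inter_preimage hU isOpen_compl_singleton
  have hWU : W ⊆ U := inter_subset_left
  have hΩW : closure Ω ⊆ W := fun s hs => ⟨hΩU hs, hTdet _ (hfle s hs)⟩
  set E : ℂ → Matrix (Fin n) (Fin n) ℂ :=
    fun s => (D s)⁻¹ * D' s + deriv f s • (Tᴴ * (1 - f s • Tᴴ)⁻¹) with hE
  have hEh : Hol W E := by
    refine (((hDh.inv hDdet).mul hD'h).mono hWU).add
      (Hol.smul ((hf₁.deriv hU).mono hWU) ((Hol.const _).mul ?_))
    exact (hM.mono hWU).inv fun s hs => hs.2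
  have hEc : ∀ a b, Continuous fun θ => E (G (ct θ)) a b := fun a b =>
    h.continuous_comp (hEh a b).continuousOn (sdiff_subset.trans hΩW)
  refine ⟨fun θ => (ct θ * deriv G (ct θ)) •
    ((G (ct θ) • (1 : Matrix (Fin n) (Fin n) ℂ) - B)⁻¹ + E (G (ct θ))), fun a b => ?_,
    fun θ => ?_, fun θ => ?_, fun a b => ?_, fun V hV hΩV v hv q hq a b => ?_⟩
  · exact h.continuous_dG.mul ((h.continuous_res hB a b).add (hEc a b))
  · simp only [periodic_ct θ]
  · have hs1 := h.mem_closure (norm_ct θ)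
    have hs2 := h.not_mem (norm_ct θ).ge
    have hbd : ∀ u : ℂ, ‖u‖ = 1 → ‖f (G u)‖ = 1 := fun u hu =>
      le_antisymm (hfle _ (h.mem_closure hu)) (hfge _ (hΩU (h.mem_closure hu)) (h.not_mem hu.ge))
    obtain ⟨P, hP, hPe⟩ := poisson_psd (hbd _ (norm_ct θ)) hT (hTdet _ (hfle _ hs1))
    have hGd := h.diffAt (h.lt.trans_eq (norm_ct θ).symm)
    have hfd := hf₁.differentiableAt (hU.mem_nhds (hΩU hs1))
    have hJ := nonneg_of_radial (ψ := fun u => f (G u)) (norm_ct θ) (hfd.comp _ hGd) hbd (by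
      filter_upwards [hGd.continuousAt.preimage_mem_nhds (hU.mem_nhds (hΩU hs1))] with u hu hu1
      exact hfge _ hu (h.not_mem hu1.le))
    have hch : deriv (fun u => f (G u)) (ct θ) = deriv f (G (ct θ)) * deriv G (ct θ) :=
      (hfd.hasDerivAt.comp _ hGd.hasDerivAt).deriv
    rw [hch] at hJ
    have e : (ct θ * deriv G (ct θ)) •
        ((G (ct θ) • (1 : Matrix (Fin n) (Fin n) ℂ) - B)⁻¹ + E (G (ct θ)))
        = (ct θ * (deriv f (G (ct θ)) * deriv G (ct θ)) * (starRingEnd ℂ) (f (G (ct θ)))) • P := by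
      simp only [hE]
      rw [← add_assoc, ← hres _ (hΩU hs1) (fun hs => hs2 (hB hs)), ← smul_add, hPe, smul_smul,
        smul_smul]
      congr 1
      ring
    simp only
    rw [e]
    exact hP.smul hJ
  · simp only [Matrix.smul_apply, Matrix.add_apply, smul_eq_mul, mul_add]
    rw [cmean_add (h.continuous_dG.fun_mul (h.continuous_res hB a b))
      (h.continuous_dG.fun_mul (hEc a b)), h.winding hB, h.cauchy_zero hWo hΩW (hEh a b), add_zero]
  · have hvc : Continuous fun θ => v (G (ct θ)) :=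
      h.continuous_comp hv.continuousOn (sdiff_subset.trans hΩV)
    simp only [Matrix.smul_apply, Matrix.add_apply, smul_eq_mul, mul_add, add_mul]
    rw [cmean_add ((h.continuous_dG.fun_mul (h.continuous_res hB a b)).fun_mul hvc)
      ((h.continuous_dG.fun_mul (hEc a b)).fun_mul hvc), h.cauchy_formula hB hV hΩV hv hq]
    have := h.cauchy_zero (k := fun s => E s a b * v s) (hWo.inter hV) (subset_inter hΩW hΩV)
      (((hEh a b).mono inter_subset_left).mul (hv.mono inter_subset_right))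
    simp only [← mul_assoc] at this
    rw [this, add_zero]

end Crest.Agent.H4
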