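import Mathlib

set_option autoImplicit false

namespace Crest.Agent.H4.Cut

open Finset MeasureTheory

variable {ι : Type*} [Fintype ι] [DecidableEq ι]

/-- cut indicator -/
def chi (i : ι) (S : Finset ι) : ℝ := if i ∈ S then 1 else 0

/-- the level set -/
def lev (a : ι → ℝ) (S : Finset ι) : Set ℝ := {θ | ∀ i, i ∈ S ↔ θ < a i}

lemma lev_meas (a : ι → ℝ) (S : Finset ι) : MeasurableSet (lev a S) := by
  have : lev a S = ⋂ i, {θ | i ∈ S ↔ θ < a i} := by
    ext θ; simp [lev]
  rw [this]
  refine MeasurableSet.iInter fun i => ?_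
  by_cases h : i ∈ S
  · simp only [h, true_iff]; exact measurableSet_Iio
  · simp only [h, false_iff, not_lt]; exact measurableSet_Ici

lemma lev_sub (a : ι → ℝ) {S : Finset ι} {i j : ι} (hi : i ∈ S) (hj : j ∉ S) :
    lev a S ⊆ Set.Ico (a j) (a i) := by
  intro θ hθ
  refine ⟨?_, (hθ i).1 hi⟩
  by_contra h
  exact hj ((hθ j).2 (not_le.1 h))

/-- cut weights -/
noncomputable def lam (a : ι → ℝ) (S : Finset ι) : ℝ :=
  if S = ∅ ∨ S = univ then 0 else volume.real (lev a S)

lemma lam_nonneg (a : ι → ℝ) (S : Finset ι) : 0 ≤ lam a S := by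
  unfold lam; split_ifs
  · exact le_rfl
  · exact measureReal_nonneg

lemma lam_eq (a : ι → ℝ) {S : Finset ι} {i j : ι} (hi : i ∈ S) (hj : j ∉ S) :
    lam a S = volume.real (lev a S) := by
  unfold lam
  rw [if_neg]
  rintro (h | h)
  · simp [h] at hi
  · simp [h] at hj

lemma sum_lam (a : ι → ℝ) (i j : ι) :
    ∑ S ∈ univ.filter (fun S : Finset ι => i ∈ S ∧ j ∉ S), lam a S = max (a i - a j) 0 := by
  have h1 : Set.Ico (a j) (a i) =
      ⋃ S ∈ univ.filter (fun S : Finset ι => i ∈ S ∧ j ∉ S), lev a S := by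
    ext θ
    simp only [Set.mem_iUnion, mem_filter, mem_univ, true_and, exists_prop]
    constructor
    · intro h
      refine ⟨univ.filter (fun k => θ < a k), ⟨by simpa using h.2, by simpa using h.1⟩, ?_⟩
      intro k; simp
    · rintro ⟨S, ⟨hi, hj⟩, hS⟩
      exact lev_sub a hi hj hS
  have h2 : volume.real (Set.Ico (a j) (a i)) = max (a i - a j) 0 := by
    simp [Measure.real, ENNReal.toReal_ofReal']
  rw [← h2, h1, measureReal_biUnion_finset ?_ ?_ ?_]
  · refine Finset.sum_congr rfl fun S hS => ?_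
    simp only [mem_filter, mem_univ, true_and] at hS
    exact lam_eq a hS.1 hS.2
  · intro S _ T _ hST
    refine Set.disjoint_left.2 fun θ h1 h2 => hST ?_
    ext k
    exact (h1 k).trans (h2 k).symm
  · intro S _; exact lev_meas a S
  · intro S hS
    simp only [mem_filter, mem_univ, true_and] at hS
    exact ne_top_of_le_ne_top (by simp) (measure_mono (lev_sub a hS.1 hS.2))

lemma sum_lam' (a : ι → ℝ) (i j : ι) :
    ∑ S : Finset ι, lam a S * (if i ∈ S ∧ j ∉ S then 1 else 0) = max (a i - a j) 0 := by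
  rw [← sum_lam, Finset.sum_filter]
  refine Finset.sum_congr rfl fun S _ => ?_
  split_ifs <;> simp

lemma sub_eq (a : ι → ℝ) (i j : ι) :
    a i - a j = ∑ S : Finset ι, (chi i S - chi j S) * lam a S := by
  have h : ∀ S : Finset ι, (chi i S - chi j S) * lam a S =
      lam a S * (if i ∈ S ∧ j ∉ S then 1 else 0) - lam a S * (if j ∈ S ∧ i ∉ S then 1 else 0) := by
    intro S
    by_cases hi : i ∈ S <;> by_cases hj : j ∈ S <;> simp [chi, hi, hj]
  simp_rw [h, Finset.sum_sub_distrib, sum_lam']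
  rcases le_total (a i) (a j) with h | h
  · rw [max_eq_right (by linarith), max_eq_left (by linarith)]; ring
  · rw [max_eq_left (by linarith), max_eq_right (by linarith)]; ring

lemma abs_eq (a : ι → ℝ) (i j : ι) :
    |a i - a j| = ∑ S : Finset ι, lam a S * |chi i S - chi j S| := by
  have h : ∀ S : Finset ι, lam a S * |chi i S - chi j S| =
      lam a S * (if i ∈ S ∧ j ∉ S then 1 else 0) + lam a S * (if j ∈ S ∧ i ∉ S then 1 else 0) := by
    intro S
    by_cases hi : i ∈ S <;> by_cases hj : j ∈ S <;> simp [chi, hi, hj]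
  simp_rw [h, Finset.sum_add_distrib, sum_lam']
  rcases le_total (a i) (a j) with h | h
  · rw [max_eq_right (by linarith), max_eq_left (by linarith), abs_of_nonpos (by linarith)]; ring
  · rw [max_eq_left (by linarith), max_eq_right (by linarith), abs_of_nonneg (by linarith)]; ring

lemma lam_le (a : ι → ℝ) {S : Finset ι} {i j : ι} (hi : i ∈ S) (hj : j ∉ S) :
    lam a S ≤ |a i - a j| := by
  rw [abs_eq]
  have := Finset.single_le_sum (f := fun S : Finset ι => lam a S * |chi i S - chi j S|)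
    (s := univ) (fun S _ => mul_nonneg (lam_nonneg a S) (abs_nonneg _)) (mem_univ S)
  simpa [chi, hi, hj] using this

lemma norm_l1 (f : lp (fun _ : ℕ => ℝ) 1) : HasSum (fun k => |f k|) ‖f‖ := by
  have := lp.hasSum_norm (p := 1) (by simp) f
  simpa using this

lemma lam_mem (x : ι → lp (fun _ : ℕ => ℝ) 1) (S : Finset ι) :
    Memℓp (fun k => lam (fun i => x i k) S) 1 := by
  by_cases h : S = ∅ ∨ S = univ
  · have : (fun k => lam (fun i => x i k) S) = 0 := by
      ext k; simp [lam, h]
    rw [this]; exact zero_memℓp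
  · push Not at h
    obtain ⟨i, hi⟩ := h.1
    obtain ⟨j, hj⟩ : ∃ j, j ∉ S := by
      by_contra hc; push Not at hc; exact h.2 (eq_univ_iff_forall.2 hc)
    apply memℓp_gen
    simp only [ENNReal.toReal_one, Real.rpow_one, Real.norm_eq_abs]
    refine Summable.of_nonneg_of_le (fun k => abs_nonneg _) (fun k => ?_)
      (norm_l1 (x i - x j)).summable
    rw [abs_of_nonneg (lam_nonneg _ _)]
    simpa using lam_le (fun i => x i k) hi hj

theorem cut_decomp (x : ι → lp (fun _ : ℕ => ℝ) 1) :
    ∃ v : Finset ι → lp (fun _ : ℕ => ℝ) 1,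
      (∀ i j, x i - x j = ∑ S : Finset ι, (chi i S - chi j S) • v S) ∧
      (∀ i j, ‖x i - x j‖ = ∑ S : Finset ι, ‖v S‖ * |chi i S - chi j S|) := by
  let v : Finset ι → lp (fun _ : ℕ => ℝ) 1 := fun S => ⟨fun k => lam (fun i => x i k) S, lam_mem x S⟩
  have hv : ∀ S k, v S k = lam (fun i => x i k) S := fun S k => rfl
  refine ⟨v, fun i j => ?_, fun i j => ?_⟩
  · ext k
    rw [lp.coeFn_sub, Pi.sub_apply, lp.coeFn_sum, Finset.sum_apply]
    simp only [lp.coeFn_smul, Pi.smul_apply, smul_eq_mul, hv]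
    exact sub_eq (fun i => x i k) i j
  · have h1 := norm_l1 (x i - x j)
    have h2 : HasSum (fun k => ∑ S : Finset ι, |v S k| * |chi i S - chi j S|)
        (∑ S : Finset ι, ‖v S‖ * |chi i S - chi j S|) :=
      hasSum_sum fun S _ => (norm_l1 (v S)).mul_right _
    refine h1.unique ?_
    convert h2 using 2 with k
    rw [lp.coeFn_sub, Pi.sub_apply, abs_eq (fun i => x i k) i j]
    refine Finset.sum_congr rfl fun S _ => ?_
    rw [hv, abs_of_nonneg (lam_nonneg _ _)]

end Crest.Agent.H4.Cut
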