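import Crest.Agent.H4.EdList

/-! Robust lower bounds on common subsequences. -/

set_option autoImplicit false

namespace Crest.Agent.H4.Ed

open List

/-- `u` is far from every infix of a concatenation of words of `F`. -/
def Far (T : ℕ) (u : List ℕ) (F : Set (List ℕ)) : Prop :=
  ∀ (vs : List (List ℕ)) (v w : List ℕ), (∀ x ∈ vs, x ∈ F) → v <:+: vs.flatten → w <+ u →
    w <+ v → 2 * w.length + T ≤ u.length + v.length

theorem Far.le_length {T : ℕ} {u : List ℕ} {F : Set (List ℕ)} (h : Far T u F) :
    T ≤ u.length := by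
  simpa using h [] [] [] (by simp) (by simp) (by simp) (by simp)

theorem Far.le_of_close {T t : ℕ} {u v : List ℕ} {F : Set (List ℕ)} (h : Far T u F)
    (hv : v ∈ F) (hc : Close t u v) : T ≤ 2 * t := by
  obtain ⟨w, a1, a2, a3, a4⟩ := hc
  have := h [v] v w (by simpa using hv) (by simp) a1 a2
  omega

theorem far_flatten {T : ℕ} {B : Set (List ℕ)} (us : List (List ℕ)) (h : ∀ U ∈ us, Far T U B) :
    Far (us.length * T) us.flatten B := by
  intro vs v w hvs
  induction us generalizing v w with
  | nil =>
    intro _ hw _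
    simp only [flatten_nil, sublist_nil] at hw
    subst hw; simp
  | cons U us ih =>
    intro hv hw hwv
    rw [flatten_cons] at hw
    obtain ⟨w₁, w₂, rfl, k1, k2⟩ := sublist_append_iff.1 hw
    obtain ⟨v₁, v₂, rfl, k3, k4⟩ := append_sublist_iff.1 hwv
    have e1 := h U (by simp) vs v₁ w₁ hvs ((prefix_append _ _).isInfix.trans hv) k1 k3
    have e2 := ih (fun U hU => h U (by simp [hU])) v₂ w₂ ((suffix_append _ _).isInfix.trans hv)
      k2 k4
    simp only [length_append, length_cons, flatten_cons, add_mul] at e2 ⊢
    omega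

theorem Far.transfer {T : ℕ} {u : List ℕ} {B F : Set (List ℕ)} (h : Far T u B)
    (hF : ∀ x ∈ F, ∃ bs : List (List ℕ), (∀ y ∈ bs, y ∈ B) ∧ x = bs.flatten) : Far T u F := by
  intro vs v w hvs hv
  have : ∃ bs : List (List ℕ), (∀ y ∈ bs, y ∈ B) ∧ vs.flatten = bs.flatten := by
    clear hv
    induction vs with
    | nil => exact ⟨[], by simp, rfl⟩
    | cons x vs ih =>
      obtain ⟨b1, c1, c2⟩ := hF x (hvs x (by simp))
      obtain ⟨b2, c3, c4⟩ := ih fun y hy => hvs y (by simp [hy])
      refine ⟨b1 ++ b2, fun y hy => ?_, by rw [flatten_cons, flatten_append, c4, ← c2]⟩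
      rcases mem_append.1 hy with hy | hy
      · exact c1 y hy
      · exact c3 y hy
  obtain ⟨bs, c1, c2⟩ := this
  exact h bs v w c1 (c2 ▸ hv)

theorem infix_cover {R : ℕ} (vs : List (List ℕ)) (hvs : ∀ x ∈ vs, x.length = R) (v : List ℕ)
    (hv : v <:+: vs.flatten) (hlen : v.length ≤ 2 * R) :
    ∃ vs' : List (List ℕ), (∀ x ∈ vs', x ∈ vs) ∧ vs'.length ≤ 3 ∧ v <:+: vs'.flatten := by
  induction vs with
  | nil => exact ⟨[], by simp, by simp, hv⟩
  | cons B rest ih =>
    rw [flatten_cons] at hv
    rcases infix_append_iff.1 hv with h | h | ⟨l₁, l₂, rfl, h1, h2⟩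
    · exact ⟨[B], by simp, by simp, by simpa using h⟩
    · obtain ⟨vs', c1, c2, c3⟩ := ih (fun x hx => hvs x (by simp [hx])) h
      exact ⟨vs', fun x hx => by simp [c1 x hx], c2, c3⟩
    · match rest, hvs, h2 with
      | [], _, h2 => exact ⟨[B], by simp, by simp, by
          simpa using infix_append_iff.2 (Or.inr (Or.inr ⟨l₁, l₂, rfl, h1, h2⟩))⟩
      | [x], _, h2 => exact ⟨[B, x], by simp, by simp, by
          simpa using infix_append_iff.2 (Or.inr (Or.inr ⟨l₁, l₂, rfl, h1, h2⟩))⟩
      | x :: y :: t, hvs, h2 =>
        refine ⟨[B, x, y], by simp, by simp, ?_⟩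
        have h3 : l₂ <+: x ++ y := by
          refine prefix_of_prefix_length_le h2 (l₃ := (x :: y :: t).flatten) ?_ ?_
          · simp only [flatten_cons, ← append_assoc]
            exact prefix_append _ _
          · have a1 := hvs x (by simp)
            have a2 := hvs y (by simp)
            simp only [length_append] at hlen ⊢
            omega
        simpa using infix_append_iff.2 (Or.inr (Or.inr ⟨l₁, l₂, rfl, h1, h3⟩))

/-- attach the label `l` -/
def lab (r l : ℕ) (u : List ℕ) : List ℕ := u.map fun a => a * r + l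

/-- keep the letters with label `l` and remove the label -/
def unlab (r l : ℕ) (u : List ℕ) : List ℕ :=
  u.filterMap fun a => if a % r = l then some (a / r) else none

/-- concatenation of labelled words -/
def block {r : ℕ} (f : Fin r → List ℕ) : List ℕ :=
  (finRange r).flatMap fun l : Fin r => lab r l (f l)

theorem unlab_lab {r : ℕ} (l l' : Fin r) (u : List ℕ) :
    unlab r l (lab r l' u) = if l' = l then u else [] := by
  have hr : 0 < r := l.pos
  have h1 : ∀ a : ℕ, (a * r + l') % r = l' := fun a => by
    rw [Nat.mul_add_mod', Nat.mod_eq_of_lt l'.2]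
  have h2 : ∀ a : ℕ, (a * r + l') / r = a := fun a => by
    rw [Nat.add_comm, Nat.add_mul_div_right _ _ hr, Nat.div_eq_of_lt l'.2, Nat.zero_add]
  simp only [unlab, lab, filterMap_map, Function.comp_def, h1, h2]
  split_ifs with h h' h'
  · simp
  · exact absurd (Fin.ext h) h'
  · exact absurd (congrArg Fin.val h') h
  · simp

theorem flatMap_ite {ι : Type*} [DecidableEq ι] (L : List ι) (hL : L.Nodup) (l : ι) (hl : l ∈ L)
    (g : ι → List ℕ) : (L.flatMap fun l' => if l' = l then g l' else []) = g l := by
  induction L with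
  | nil => simp at hl
  | cons a L ih =>
    rw [nodup_cons] at hL
    rw [flatMap_cons]
    by_cases h : a = l
    · subst h
      have : (L.flatMap fun l' => if l' = a then g l' else []) = [] := by
        rw [flatMap_eq_nil_iff]
        intro x hx
        rw [if_neg]
        rintro rfl
        exact hL.1 hx
      simp [this]
    · rw [if_neg h, nil_append]
      exact ih hL.2 ((mem_cons.1 hl).resolve_left (Ne.symm h))

theorem unlab_block {r : ℕ} (f : Fin r → List ℕ) (l : Fin r) : unlab r l (block f) = f l := by
  have : unlab r l (block f) = (finRange r).flatMap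
      fun l' : Fin r => unlab r l (lab r l' (f l')) := by
    simp only [unlab, block, filterMap_flatMap]
  rw [this]
  simp only [unlab_lab]
  exact flatMap_ite _ (nodup_finRange r) l (mem_finRange l) f

theorem length_block {r m : ℕ} (f : Fin r → List ℕ) (hf : ∀ l, (f l).length = m) :
    (block f).length = r * m := by
  rw [block, length_flatMap_const _ _ m fun l _ => by simp [lab, hf]]
  simp

theorem sum_unlab {r : ℕ} (hr : 0 < r) (w : List ℕ) :
    ∑ l : Fin r, (unlab r l w).length = w.length := by
  induction w with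
  | nil => simp [unlab]
  | cons a w ih =>
    have : ∀ l : Fin r, (unlab r l (a :: w)).length =
        (if l = ⟨a % r, Nat.mod_lt _ hr⟩ then 1 else 0) + (unlab r l w).length := by
      intro l
      simp only [unlab, filterMap_cons]
      by_cases h : a % r = l
      · rw [if_pos h, if_pos (Fin.ext h.symm)]; simp [add_comm]
      · rw [if_neg h, if_neg (fun h' => h (by rw [h']))]; simp
    simp only [this, Finset.sum_add_distrib, ih, Finset.sum_ite_eq', Finset.mem_univ, if_true,
      length_cons]
    omega

theorem far_block {r₀ m T : ℕ} (hr : 0 < r₀) (U : Fin (4 * r₀) → List ℕ)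
    (F : Fin (4 * r₀) → Set (List ℕ)) (hU : ∀ l, (U l).length = m) (hF : ∀ l, Far T (U l) (F l))
    (B : Set (List ℕ))
    (hB : ∀ x ∈ B, ∃ (V : Fin (4 * r₀) → List ℕ) (bad : Finset (Fin (4 * r₀))),
      x = block V ∧ (∀ l, (V l).length = m) ∧ bad.card ≤ r₀ ∧ ∀ l, l ∉ bad → V l ∈ F l) :
    Far (r₀ * T) (block U) B := by
  classical
  intro vs v w hvs hv hw hwv
  have hTm : T ≤ m := by
    have := (hF ⟨0, by omega⟩).le_length
    rwa [hU] at this
  have hlenU := length_block U hU
  have hwU := hw.length_le
  by_cases hlen : v.length ≤ 2 * (4 * r₀ * m)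
  · choose V bad hx hV hbad hgood using hB
    obtain ⟨vs', c1, c2, c3⟩ := infix_cover (R := 4 * r₀ * m) vs (fun x hx' => by
      rw [hx x (hvs x hx')]; exact length_block _ (hV x _)) v hv hlen
    have c1' : ∀ x ∈ vs', x ∈ B := fun x hx' => hvs x (c1 x hx')
    let Bad : Finset (Fin (4 * r₀)) := vs'.attach.toFinset.biUnion fun x => bad x.1 (c1' x.1 x.2)
    have hBad : Bad.card ≤ 3 * r₀ := by
      refine Finset.card_biUnion_le.trans ?_
      refine (Finset.sum_le_card_nsmul _ _ r₀ fun x _ => hbad _ _).trans ?_
      rw [smul_eq_mul]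
      refine Nat.mul_le_mul_right _ ((List.toFinset_card_le _).trans ?_)
      simpa using c2
    have key : ∀ l : Fin (4 * r₀), 2 * (unlab (4 * r₀) l w).length + (if l ∈ Badᶜ then T else 0)
        ≤ m + (unlab (4 * r₀) l v).length := by
      intro l
      have a1 : unlab (4 * r₀) l w <+ U l := by
        rw [← unlab_block U l]; exact hw.filterMap _
      have a2 : unlab (4 * r₀) l w <+ unlab (4 * r₀) l v := hwv.filterMap _
      split_ifs with hl
      · have a3 : unlab (4 * r₀) l v <:+: (vs'.map (unlab (4 * r₀) l)).flatten := by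
          have := c3.filterMap (fun a => if a % (4 * r₀) = l then some (a / (4 * r₀)) else none)
          rw [filterMap_flatten] at this
          exact this
        have := hF l (vs'.map (unlab (4 * r₀) l)) _ _ (by
          intro y hy
          obtain ⟨x, hx', rfl⟩ := mem_map.1 hy
          have hb : l ∉ bad x (c1' x hx') := by
            intro hb
            rw [Finset.mem_compl] at hl
            exact hl (Finset.mem_biUnion.2 ⟨⟨x, hx'⟩, by simp, hb⟩)
          have := hgood x (c1' x hx') l hb
          rw [hx x (c1' x hx'), unlab_block]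
          exact this) a3 a1 a2
        rwa [hU] at this
      · have b1 := a1.length_le
        have b2 := a2.length_le
        rw [hU] at b1
        omega
    have hs := Finset.sum_le_sum fun l (_ : l ∈ Finset.univ) => key l
    rw [Finset.sum_add_distrib, Finset.sum_add_distrib, ← Finset.mul_sum, sum_unlab (by omega),
      sum_unlab (by omega), Finset.sum_ite_mem, Finset.univ_inter, Finset.sum_const,
      Finset.sum_const, Finset.card_compl] at hs
    simp only [Fintype.card_fin, smul_eq_mul, Finset.card_univ] at hs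
    have : r₀ * T ≤ (4 * r₀ - Bad.card) * T := Nat.mul_le_mul_right _ (by omega)
    omega
  · have : r₀ * T ≤ r₀ * m := Nat.mul_le_mul_left _ hTm
    have h4 : 4 * r₀ * m = 4 * (r₀ * m) := by ring
    omega

end Crest.Agent.H4.Ed
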