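import Mathlib

/-! Translation-invariant negative-type functions on finite abelian groups. -/

set_option autoImplicit false

namespace Crest.Agent.H4.Ed

open Finset

variable {G : Type} [AddCommGroup G] [Fintype G]

/-- nonnegative combinations of the functions `1 - Re ξ` -/
def NegT (F : G → ℝ) : Prop :=
  ∃ μ : AddChar G ℂ → ℝ, (∀ ξ, 0 ≤ μ ξ) ∧ ∀ h, F h = ∑ ξ, μ ξ * (1 - (ξ h).re)

theorem NegT.sum {ι : Type*} (s : Finset ι) (c : ι → ℝ) (hc : ∀ i ∈ s, 0 ≤ c i) (F : ι → G → ℝ)
    (hF : ∀ i ∈ s, NegT (F i)) : NegT fun h => ∑ i ∈ s, c i * F i h := by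
  classical
  choose! μ h1 h2 using hF
  refine ⟨fun ξ => ∑ i ∈ s, c i * μ i ξ,
    fun ξ => sum_nonneg fun i hi => mul_nonneg (hc i hi) (h1 i hi ξ), fun h => ?_⟩
  simp only [sum_mul]
  rw [sum_comm]
  refine sum_congr rfl fun i hi => ?_
  rw [h2 i hi, mul_sum]
  exact sum_congr rfl fun ξ _ => by ring

theorem autocorr (g : G → ℝ) (h : G) :
    ∑ ξ : AddChar G ℂ, Complex.normSq (∑ z, (g z : ℂ) * ξ z) * (ξ h).re =
      Fintype.card G * ∑ z, g z * g (z + h) := by
  classical
  have key : ∑ ξ : AddChar G ℂ, ((Complex.normSq (∑ z, (g z : ℂ) * ξ z) : ℝ) : ℂ) * ξ h =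
      ((Fintype.card G * ∑ z, g z * g (z + h) : ℝ) : ℂ) := by
    have e1 : ∀ ξ : AddChar G ℂ, ((Complex.normSq (∑ z, (g z : ℂ) * ξ z) : ℝ) : ℂ) * ξ h =
        ∑ z, ∑ z', (g z : ℂ) * g z' * ξ (z + h - z') := by
      intro ξ
      rw [← Complex.mul_conj, map_sum, sum_mul_sum, sum_mul]
      refine sum_congr rfl fun z _ => ?_
      rw [sum_mul]
      refine sum_congr rfl fun z' _ => ?_
      rw [map_mul, Complex.conj_ofReal, ← AddChar.map_neg_eq_conj, sub_eq_add_neg,
        AddChar.map_add_eq_mul, AddChar.map_add_eq_mul]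
      ring
    simp only [e1]
    rw [sum_comm]
    push_cast
    rw [mul_sum]
    refine sum_congr rfl fun z _ => ?_
    rw [sum_comm]
    simp only [← mul_sum, AddChar.sum_apply_eq_ite, sub_eq_zero, mul_ite, mul_zero]
    rw [sum_ite_eq]
    simp only [mem_univ, if_true]
    ring
  have := congrArg Complex.re key
  rw [Complex.ofReal_re, Complex.re_sum] at this
  rw [← this]
  exact sum_congr rfl fun ξ _ => by rw [Complex.re_ofReal_mul]

theorem negT_sq (g : G → ℝ) : NegT fun h => ∑ z, (g z - g (z + h)) ^ 2 := by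
  have hc : (0 : ℝ) < Fintype.card G := by exact_mod_cast Fintype.card_pos
  refine ⟨fun ξ => 2 / Fintype.card G * Complex.normSq (∑ z, (g z : ℂ) * ξ z),
    fun ξ => mul_nonneg (by positivity) (Complex.normSq_nonneg _), fun h => ?_⟩
  have h0 := autocorr g 0
  have h1 := autocorr g h
  simp only [AddChar.map_zero_eq_one, Complex.one_re, mul_one, add_zero] at h0
  have h2 : ∑ z, g (z + h) * g (z + h) = ∑ z, g z * g z :=
    Equiv.sum_comp (Equiv.addRight h) fun z => g z * g z
  have h3 : ∑ z, (g z - g (z + h)) ^ 2 =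
      ∑ z, g z * g z + ∑ z, g (z + h) * g (z + h) - 2 * ∑ z, g z * g (z + h) := by
    rw [mul_sum, ← sum_add_distrib, ← sum_sub_distrib]
    exact sum_congr rfl fun z _ => by ring
  simp only [mul_assoc, ← mul_sum, mul_sub, mul_one, sum_sub_distrib]
  rw [h3, h2, h0, h1]
  field_simp
  ring

theorem exists_cuts (V : Finset ℝ) : ∃ c : ℝ → ℝ, (∀ t, 0 ≤ c t) ∧ ∀ a ∈ V, ∀ b ∈ V,
    |a - b| = ∑ t ∈ V, c t * ((if t ≤ a then (1 : ℝ) else 0) - if t ≤ b then 1 else 0) ^ 2 := by
  classical
  induction V using Finset.induction_on_max with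
  | empty => exact ⟨fun _ => 0, fun _ => le_rfl, by simp⟩
  | insert M V hM ih =>
    obtain ⟨c, hc0, hc⟩ := ih
    have hMV : M ∉ V := fun h => lt_irrefl _ (hM M h)
    rcases V.eq_empty_or_nonempty with rfl | hV
    · exact ⟨fun _ => 0, fun _ => le_rfl, by simp⟩
    set m := V.max' hV with hm
    have hmV : m ∈ V := V.max'_mem hV
    have hle : ∀ t ∈ V, t ≤ m := fun t ht => V.le_max' t ht
    have hmM : m < M := hM m hmV
    have hsum : ∀ φ : ℝ → ℝ, ∑ t ∈ insert M V, Function.update c M (M - m) t * φ t =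
        (M - m) * φ M + ∑ t ∈ V, c t * φ t := by
      intro φ
      rw [sum_insert hMV, Function.update_self]
      congr 1
      refine sum_congr rfl fun t ht => ?_
      rw [Function.update_of_ne (fun h : t = M => hMV (h ▸ ht))]
    have hmix : ∀ b ∈ V, |M - b| = (M - m) * ((if M ≤ M then (1 : ℝ) else 0) -
        if M ≤ b then 1 else 0) ^ 2 + ∑ t ∈ V, c t * ((if t ≤ M then (1 : ℝ) else 0) -
        if t ≤ b then 1 else 0) ^ 2 := by
      intro b hb
      have e : ∑ t ∈ V, c t * ((if t ≤ M then (1 : ℝ) else 0) - if t ≤ b then 1 else 0) ^ 2 =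
          |m - b| := by
        rw [hc m hmV b hb]
        refine sum_congr rfl fun t ht => ?_
        rw [if_pos (hM t ht).le, if_pos (hle t ht)]
      rw [e, if_pos le_rfl, if_neg (not_le.2 (hM b hb)), abs_of_nonneg (sub_nonneg.2 (hle b hb)),
        abs_of_nonneg (sub_nonneg.2 (hM b hb).le)]
      ring
    refine ⟨Function.update c M (M - m), fun t => ?_, fun a ha b hb => ?_⟩
    · by_cases h : t = M
      · rw [h, Function.update_self]; linarith
      · rw [Function.update_of_ne h]; exact hc0 t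
    rw [hsum]
    rcases mem_insert.1 ha with rfl | ha'
    · rcases mem_insert.1 hb with rfl | hb'
      · simp
      · exact hmix b hb'
    · rcases mem_insert.1 hb with rfl | hb'
      · rw [abs_sub_comm, hmix a ha']
        congr 1
        · ring
        · exact sum_congr rfl fun t _ => by ring
      · rw [if_neg (not_le.2 (hM a ha')), if_neg (not_le.2 (hM b hb')), ← hc a ha' b hb']
        simp

theorem negT_abs (g : G → ℝ) : NegT fun h => ∑ z, |g z - g (z + h)| := by
  classical
  obtain ⟨c, hc0, hc⟩ := exists_cuts (univ.image g)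
  have := NegT.sum (univ.image g) c (fun t _ => hc0 t)
    (fun t h => ∑ z, ((if t ≤ g z then (1 : ℝ) else 0) - if t ≤ g (z + h) then 1 else 0) ^ 2)
    (fun t _ => negT_sq fun z => if t ≤ g z then (1 : ℝ) else 0)
  convert this using 2 with h
  simp only [mul_sum]
  rw [sum_comm]
  exact sum_congr rfl fun z _ => hc _ (mem_image_of_mem _ (mem_univ _)) _
    (mem_image_of_mem _ (mem_univ _))

theorem re_le_one {H : Type*} [AddCommGroup H] [Finite H] (ξ : AddChar H ℂ) (h : H) :
    (ξ h).re ≤ 1 := (Complex.re_le_norm _).trans (ξ.norm_apply h).le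

theorem neg_one_le_re {H : Type*} [AddCommGroup H] [Finite H] (ξ : AddChar H ℂ) (h : H) :
    -1 ≤ (ξ h).re := by
  have := Complex.abs_re_le_norm (ξ h)
  rw [ξ.norm_apply h] at this
  exact (abs_le.1 this).1

/-- short shifts detect a nontrivial root of unity of small order -/
theorem geom_detect {ω : ℂ} {N J : ℕ} (hN : 0 < N) (hω : ω ^ N = 1) (h1 : ω ≠ 1)
    (hJ : 2 * N ≤ J) : (J : ℝ) / 2 ≤ ∑ j ∈ range J, (1 - (ω ^ j).re) := by
  have hn : ‖ω‖ = 1 := Complex.norm_eq_one_of_pow_eq_one hω hN.ne'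
  have e : ∑ j ∈ range J, ω ^ j = ∑ j ∈ range (J % N), ω ^ j := by
    rw [geom_sum_eq h1, geom_sum_eq h1, ← pow_eq_pow_mod J hω]
  have h2 : (∑ j ∈ range J, ω ^ j).re ≤ N := by
    rw [e]
    refine (Complex.re_le_norm _).trans ((norm_sum_le _ _).trans ?_)
    simp only [norm_pow, hn, one_pow, sum_const, card_range, nsmul_eq_mul, mul_one]
    exact_mod_cast (Nat.mod_lt J hN).le
  rw [sum_sub_distrib, ← Complex.re_sum]
  simp only [sum_const, card_range, nsmul_eq_mul, mul_one]
  have : (2 * N : ℝ) ≤ J := by exact_mod_cast hJ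
  linarith

end Crest.Agent.H4.Ed
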