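import Crest.Agent.H4.EdFar
import Crest.Agent.H4.EdFour

/-! The recursive construction of words that are far in edit distance but close in every
`ℓ¹`-embedding. -/

set_option autoImplicit false

namespace Crest.Agent.H4.Ed

open Finset

/-- A family of words indexed by a finite abelian group with a distinguished element `τ` of
order dividing `n`: moving by a nontrivial multiple of `τ` changes the word a lot, while every
character that sees `τ` is charged by cheap moves. -/
structure Gad (n m B T : ℕ) (M : ℝ) where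
  G : Type
  [grp : AddCommGroup G]
  [fin : Fintype G]
  τ : G
  S : G → List ℕ
  ord : n • τ = 0
  len : ∀ z, (S z).length = m
  bnd : ∀ z, ∀ a ∈ S z, a < B
  far : ∀ z, Far T (S z) {x | ∃ δ : ℤ, ¬ (n : ℤ) ∣ δ ∧ x = S (z + δ • τ)}
  cheap : ∀ (ι : Type) [Fintype ι] (ξ : ι → AddChar G ℂ) (μ : ι → ℝ) (A : ℝ), 0 ≤ A →
    (∀ i, 0 ≤ μ i) →
    (∀ (h : G) (c : ℕ), (∀ z, Close c (S z) (S (z + h))) →
      ∑ i, μ i * (1 - (ξ i h).re) ≤ A * c) →
    ∑ i, (if ξ i τ = 1 then 0 else μ i) ≤ A * M

attribute [instance] Gad.grp Gad.fin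

/-- weakening the parameters -/
def Gad.mono {n m B B' T : ℕ} {M M' : ℝ} (g : Gad n m B T M) (hB : B ≤ B') (hM : M ≤ M') :
    Gad n m B' T M' where
  G := g.G
  τ := g.τ
  S := g.S
  ord := g.ord
  len := g.len
  bnd := fun z a ha => (g.bnd z a ha).trans_le hB
  far := g.far
  cheap := fun ι _ ξ μ A hA hμ h =>
    (g.cheap ι ξ μ A hA hμ h).trans (mul_le_mul_of_nonneg_left hM hA)

theorem addChar_sum {H ι : Type*} [AddCommGroup H] (ξ : AddChar H ℂ) (s : Finset ι) (x : ι → H) :
    ξ (∑ i ∈ s, x i) = ∏ i ∈ s, ξ (x i) := by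
  classical
  induction s using Finset.induction_on with
  | empty => simp
  | insert a s ha ih => rw [sum_insert ha, prod_insert ha, AddChar.map_add_eq_mul, ih]

theorem detect {H : Type*} [AddCommGroup H] (ξ : AddChar H ℂ) (x : H) {N J : ℕ} (hN : 0 < N)
    (hω : ξ x ^ N = 1) (h1 : ξ x ≠ 1) (hJ : 2 * N ≤ J) :
    1 ≤ 2 / J * ∑ j ∈ range J, (1 - (ξ (j • x)).re) := by
  have h := geom_detect hN hω h1 hJ
  have hJ0 : (0 : ℝ) < J := by exact_mod_cast (by omega : 0 < J)
  simp only [AddChar.map_nsmul_eq_pow]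
  calc (1 : ℝ) = 2 / J * (J / 2) := by field_simp
    _ ≤ _ := mul_le_mul_of_nonneg_left h (by positivity)

theorem shift_sum {H ι : Type*} [AddCommGroup H] [Fintype ι] (ξ : ι → AddChar H ℂ) (μ : ι → ℝ)
    (x : H) (J : ℕ) (C : ℝ) (hC : 0 ≤ C)
    (h : ∀ j < J, ∑ i, μ i * (1 - (ξ i (j • x)).re) ≤ C) :
    ∑ i, μ i * (2 / J * ∑ j ∈ range J, (1 - (ξ i (j • x)).re)) ≤ 2 * C := by
  have e : ∑ i, μ i * (2 / J * ∑ j ∈ range J, (1 - (ξ i (j • x)).re)) =
      2 / J * ∑ j ∈ range J, ∑ i, μ i * (1 - (ξ i (j • x)).re) := by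
    rw [sum_comm, mul_sum]
    refine sum_congr rfl fun i _ => ?_
    rw [← mul_sum]; ring
  rw [e]
  rcases Nat.eq_zero_or_pos J with rfl | hJ
  · simpa using hC
  have hJ0 : (0 : ℝ) < J := by exact_mod_cast hJ
  calc _ ≤ 2 / J * ∑ _j ∈ range J, C :=
        mul_le_mul_of_nonneg_left (sum_le_sum fun j hj => h j (mem_range.1 hj)) (by positivity)
    _ = 2 * C := by simp only [sum_const, card_range, nsmul_eq_mul]; field_simp

theorem Gad.base (n : ℕ) (hn : 0 < n) : Nonempty (Gad n 1 n 1 2) := by
  haveI : NeZero n := ⟨hn.ne'⟩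
  refine ⟨{ G := ZMod n, τ := 1, S := fun z => [z.val], ord := by simp, len := fun _ => rfl
            bnd := fun z a ha => ?_, far := fun z => ?_, cheap := ?_ }⟩
  · rw [List.mem_singleton.1 ha]; exact z.val_lt
  · intro vs v w hvs hv hw hwv
    have : w = [] := by
      rcases List.sublist_singleton.1 hw with h | h
      · exact h
      · exfalso
        have h1 : z.val ∈ vs.flatten := hv.subset (hwv.subset (by simp [h]))
        obtain ⟨x, hx, hzx⟩ := List.mem_flatten.1 h1
        obtain ⟨δ, hδ, rfl⟩ := hvs x hx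
        have h2 := ZMod.val_injective n (List.mem_singleton.1 hzx)
        apply hδ
        rw [← ZMod.intCast_zmod_eq_zero_iff_dvd]
        simpa using h2
    subst this
    simp
  · intro ι _ ξ μ A hA hμ h
    have h1 := shift_sum ξ μ (1 : ZMod n) (2 * n) A hA fun j _ => by
      simpa using h (j • (1 : ZMod n)) 1 fun z => ⟨[], by simp, by simp, by simp, by simp⟩
    rw [mul_comm A]
    refine le_trans (sum_le_sum fun i _ => ?_) h1
    split_ifs with hi
    · exact mul_nonneg (hμ i) (mul_nonneg (by positivity)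
        (sum_nonneg fun j _ => sub_nonneg.2 (re_le_one _ _)))
    · refine le_mul_of_one_le_right (hμ i) (detect _ _ hn ?_ hi le_rfl)
      rw [← AddChar.map_nsmul_eq_pow]; simp

theorem close_block {r : ℕ} (f f' : Fin r → List ℕ) (l : Fin r) (c : ℕ)
    (h : Close c (f l) (f' l)) (h' : ∀ l', l' ≠ l → f' l' = f l') :
    Close c (block f) (block f') := by
  have := Close.flatMap (List.finRange r) (fun l' => if l' = l then c else 0)
    (fun l' : Fin r => lab r l' (f l')) (fun l' : Fin r => lab r l' (f' l')) (fun l' _ => by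
      split_ifs with hl
      · subst hl; exact h.map _
      · rw [h' l' hl]; exact Close.refl _)
  rwa [← Fin.sum_univ_def, sum_ite_eq', if_pos (mem_univ _)] at this

theorem Gad.step {n m B T r₀ b w J P : ℕ} {M : ℝ} (p : Fin (4 * r₀) → ℕ) (hn : 0 < n)
    (hr : 0 < r₀) (hw : 0 < w) (hp2 : ∀ l, 2 ≤ p l) (hpP : ∀ l, p l ≤ P)
    (hcop : Pairwise fun l l' => Nat.Coprime (p l) (p l')) (hnp : ∀ l, Nat.Coprime n (p l))
    (hb : b ≤ 2 ^ r₀) (hJ : 2 * (n * P ^ w) ≤ J) (g : ∀ l, Gad (n * p l) m B T M) :
    Nonempty (Gad n (b * (4 * r₀ * m)) (B * (4 * r₀)) (b * (r₀ * T))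
      (4 * r₀ * b / w * M + 2 * (J * (4 * r₀ * m)))) := by
  classical
  have hcoQ : Nat.Coprime n (∏ l, p l) := Nat.Coprime.prod_right fun l _ => hnp l
  obtain ⟨t, ht1, ht2⟩ := Nat.chineseRemainder hcoQ 1 0
  have ht3 : ∀ l, p l ∣ t := fun l =>
    (dvd_prod_of_mem p (mem_univ l)).trans ((Nat.modEq_zero_iff_dvd).1 ht2)
  let G := ∀ l, (g l).G
  let τ : G := fun l => (g l).τ
  let β : G → List ℕ := fun z => block fun l => (g l).S (z l)
  have hβ : ∀ z, (β z).length = 4 * r₀ * m := fun z => length_block _ fun l => (g l).len _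
  refine ⟨{ G := G, τ := t • τ, S := fun z => (List.range b).flatMap fun j => β (z + j • τ)
            ord := ?_, len := fun z => ?_
            bnd := fun z a ha => ?_, far := fun z => ?_, cheap := ?_ }⟩
  · funext l
    obtain ⟨k, hk⟩ := ht3 l
    show n • t • (g l).τ = 0
    rw [smul_smul, hk, ← mul_assoc, mul_comm _ k, mul_smul, (g l).ord, smul_zero]
  · rw [length_flatMap_const _ _ _ fun j _ => hβ _, List.length_range]
  · obtain ⟨j, -, ha⟩ := List.mem_flatMap.1 ha
    obtain ⟨l, -, ha⟩ := List.mem_flatMap.1 ha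
    obtain ⟨a', ha', rfl⟩ := List.mem_map.1 ha
    have h1 := (g l).bnd _ _ ha'
    calc a' * (4 * r₀) + l < a' * (4 * r₀) + 4 * r₀ := Nat.add_lt_add_left l.2 _
      _ = (a' + 1) * (4 * r₀) := by ring
      _ ≤ _ := Nat.mul_le_mul_right _ h1
  · have h1 := far_flatten (T := r₀ * T)
      (B := {x | ∃ δ : ℤ, ¬ (n : ℤ) ∣ δ ∧ ∃ j' < b, x = β (z + δ • t • τ + j' • τ)})
      ((List.range b).map fun j => β (z + j • τ)) (by
        intro U hU
        obtain ⟨j, hj, rfl⟩ := List.mem_map.1 hU
        rw [List.mem_range] at hj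
        refine far_block hr _ _ (fun l => (g l).len _) (fun l => (g l).far _) _ ?_
        rintro x ⟨δ, hδ, j', hj', rfl⟩
        refine ⟨_, univ.filter fun l => ((n * p l : ℕ) : ℤ) ∣ δ * t + j' - j, rfl,
          fun l => (g l).len _, ?_, fun l hl => ⟨δ * t + j' - j, by simpa using hl, ?_⟩⟩
        · set s := univ.filter fun l => ((n * p l : ℕ) : ℤ) ∣ δ * t + j' - j with hs
          rcases s.eq_empty_or_nonempty with h0 | ⟨l₀, hl₀⟩
          · simp [h0]
          have a1 : ∀ l ∈ s, (p l : ℤ) ∣ (j' : ℤ) - j := by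
            intro l hl
            have b1 : (p l : ℤ) ∣ δ * t + j' - j :=
              (Int.natCast_dvd_natCast.2 (Nat.dvd_mul_left _ _)).trans (mem_filter.1 hl).2
            have b2 : (p l : ℤ) ∣ δ * t := Dvd.dvd.mul_left (Int.natCast_dvd_natCast.2 (ht3 l)) _
            have := dvd_sub b1 b2
            rwa [show δ * t + j' - j - δ * t = (j' : ℤ) - j by ring] at this
          have a2 : (j' : ℤ) - j ≠ 0 := by
            intro h0
            apply hδ
            have b1 : (n : ℤ) ∣ δ * t + j' - j :=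
              (Int.natCast_dvd_natCast.2 (Nat.dvd_mul_right _ _)).trans (mem_filter.1 hl₀).2
            have b2 : (n : ℤ) ∣ δ * ((1 : ℕ) - t) := Dvd.dvd.mul_left ht1.dvd _
            have := dvd_add b1 b2
            rwa [show δ * t + j' - j + δ * ((1 : ℕ) - t) = δ + ((j' : ℤ) - j) by
              push_cast; ring, h0, add_zero] at this
          have a3 : ∏ l ∈ s, (p l : ℤ) ∣ (j' : ℤ) - j :=
            Finset.prod_dvd_of_coprime (fun l _ l' _ hll => Nat.isCoprime_iff_coprime.2 (hcop hll))
              a1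
          have a4 := Int.natAbs_le_of_dvd_ne_zero a3 a2
          rw [← Nat.cast_prod, Int.natAbs_natCast] at a4
          have a5 : 2 ^ s.card ≤ ∏ l ∈ s, p l := pow_card_le_prod _ _ _ fun l _ => hp2 l
          have a6 : 2 ^ s.card < 2 ^ r₀ := by omega
          exact ((Nat.pow_lt_pow_iff_right (by norm_num)).1 a6).le
        · congr 1
          show z l + δ • t • (g l).τ + j' • (g l).τ =
            z l + j • (g l).τ + (δ * t + j' - j) • (g l).τ
          module)
    rw [List.length_map, List.length_range, ← List.flatMap_def] at h1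
    refine h1.transfer ?_
    rintro x ⟨δ, hδ, rfl⟩
    refine ⟨(List.range b).map fun j => β (z + δ • t • τ + j • τ), fun y hy => ?_,
      List.flatMap_def⟩
    obtain ⟨j, hj, rfl⟩ := List.mem_map.1 hy
    exact ⟨δ, hδ, j, List.mem_range.1 hj, rfl⟩
  · intro ι _ ξ μ A hA hμ h
    let ξ' : ∀ l, ι → AddChar (g l).G ℂ := fun l i =>
      (ξ i).compAddMonoidHom (AddMonoidHom.single (fun l => (g l).G) l)
    have hw0 : (0 : ℝ) < w := by exact_mod_cast hw
    have c1 : ∀ l, ∑ i, (if ξ' l i (g l).τ = 1 then 0 else μ i) ≤ A * b * M := by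
      intro l
      refine (g l).cheap ι (ξ' l) μ (A * b) (by positivity) hμ fun x c hx => ?_
      have := h (Pi.single l x) (b * c) fun z => by
        have := Close.flatMap (List.range b) (fun _ => c) (fun j => β (z + j • τ))
          (fun j => β (z + Pi.single l x + j • τ)) (fun j _ => by
            refine close_block _ _ l c ?_ fun l' hl' => ?_
            · have := hx (z l + j • (g l).τ)
              show Close c ((g l).S (z l + j • (g l).τ))
                ((g l).S (z l + (Pi.single l x : ∀ l, (g l).G) l + j • (g l).τ))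
              rw [Pi.single_eq_same, add_right_comm]; exact this
            · show (g l').S (z l' + (Pi.single l x : ∀ l, (g l).G) l' + j • (g l').τ) =
                (g l').S (z l' + j • (g l').τ)
              rw [Pi.single_eq_of_ne hl', add_zero])
        simpa using this
      push_cast at this
      rw [← mul_assoc] at this
      exact this
    have c2 := shift_sum ξ μ τ J (A * (J * (4 * r₀ * m))) (by positivity) fun j hj => by
      have := h (j • τ) (j * (4 * r₀ * m)) fun z => by
        have := close_shift_iter b _ (fun i => β (z + i • τ)) (fun i => hβ _) j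
        have e : (fun i => β (z + (i + j) • τ)) = fun i => β (z + j • τ + i • τ) := by
          funext i; rw [add_smul, add_assoc, add_comm (i • τ)]
        rwa [e] at this
      refine this.trans (mul_le_mul_of_nonneg_left ?_ hA)
      push_cast
      have : (j : ℝ) ≤ J := by exact_mod_cast hj.le
      gcongr
    have c3 : ∀ i, (if ξ i (t • τ) = 1 then 0 else μ i) ≤
        1 / w * ∑ l, (if ξ' l i (g l).τ = 1 then 0 else μ i) +
          μ i * (2 / J * ∑ j ∈ range J, (1 - (ξ i (j • τ)).re)) := by
      intro i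
      have d1 : 0 ≤ 1 / (w : ℝ) * ∑ l, (if ξ' l i (g l).τ = 1 then 0 else μ i) :=
        mul_nonneg (by positivity) (sum_nonneg fun l _ => by split_ifs; exacts [le_rfl, hμ i])
      have d2 : 0 ≤ μ i * (2 / J * ∑ j ∈ range J, (1 - (ξ i (j • τ)).re)) :=
        mul_nonneg (hμ i) (mul_nonneg (by positivity)
          (sum_nonneg fun j _ => sub_nonneg.2 (re_le_one _ _)))
      split_ifs with hi
      · exact add_nonneg d1 d2
      set s := univ.filter fun l => ¬ ξ' l i (g l).τ = 1 with hs
      by_cases hsw : w ≤ s.card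
      · refine le_add_of_le_of_nonneg ?_ d2
        rw [sum_ite, sum_const_zero, zero_add, sum_const, ← hs, nsmul_eq_mul, ← mul_assoc]
        refine le_mul_of_one_le_left (hμ i) ?_
        rw [one_div, ← div_eq_inv_mul, le_div_iff₀ hw0, one_mul]
        exact_mod_cast hsw
      · refine le_add_of_nonneg_of_le d1 (le_mul_of_one_le_right (hμ i)
          (detect (N := n * ∏ l ∈ s, p l) _ _ ?_ ?_ ?_ ?_))
        · exact Nat.mul_pos hn (prod_pos fun l _ => by have := hp2 l; omega)
        · rw [← univ_sum_single τ, addChar_sum, ← prod_pow]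
          refine prod_eq_one fun l _ => ?_
          change ξ' l i (g l).τ ^ _ = 1
          by_cases hl : l ∈ s
          · obtain ⟨k, hk⟩ := dvd_prod_of_mem p hl
            rw [← AddChar.map_nsmul_eq_pow, hk, ← mul_assoc, mul_comm _ k, mul_smul, (g l).ord,
              smul_zero, AddChar.map_zero_eq_one]
          · have : ξ' l i (g l).τ = 1 := by simpa [hs] using hl
            rw [this, one_pow]
        · intro h1
          apply hi
          rw [AddChar.map_nsmul_eq_pow, h1, one_pow]
        · refine le_trans (Nat.mul_le_mul_left _ (Nat.mul_le_mul_left _ ?_)) hJ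
          refine (prod_le_pow_card _ _ P fun l _ => hpP l).trans ?_
          exact Nat.pow_le_pow_right (by have := hp2 ⟨0, by omega⟩; have := hpP ⟨0, by omega⟩; omega)
            (by omega)
    refine (sum_le_sum fun i _ => c3 i).trans ?_
    rw [sum_add_distrib, ← mul_sum, sum_comm]
    have c4 : ∑ l, ∑ i, (if ξ' l i (g l).τ = 1 then 0 else μ i) ≤ (4 * r₀) * (A * b * M) := by
      refine (sum_le_sum fun l _ => c1 l).trans (le_of_eq ?_)
      simp
    have c5 := mul_le_mul_of_nonneg_left c4 (by positivity : 0 ≤ 1 / (w : ℝ))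
    calc _ ≤ 1 / w * ((4 * r₀) * (A * b * M)) + 2 * (A * (J * (4 * r₀ * m))) := add_le_add c5 c2
      _ = _ := by ring

end Crest.Agent.H4.Ed
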