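import Crest.Agent.H4.EdGad

/-! Iterating the construction, and the distortion bound from a gadget. -/

set_option autoImplicit false

namespace Crest.Agent.H4.Ed

open Finset Crest.GeometryTopology.EditDistance

theorem Gad.iter {r₀ b w J P K N : ℕ} (q : ℕ → ℕ) (hr : 0 < r₀) (hw : 0 < w) (hP : 0 < P)
    (hq2 : ∀ i, 2 ≤ q i) (hqP : ∀ i < K * (4 * r₀), q i ≤ P)
    (hcop : Pairwise fun i j => Nat.Coprime (q i) (q j)) (hb : b ≤ 2 ^ r₀)
    (hJ : 2 * (N * P ^ w) ≤ J) (hbJ : 2 * J * w ^ K ≤ b) (k : ℕ) :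
    k ≤ K → ∀ n, 0 < n → (∀ i < k * (4 * r₀), Nat.Coprime n (q i)) → n * P ^ k ≤ N →
      Nonempty (Gad n ((b * (4 * r₀)) ^ k) (n * (P * (4 * r₀)) ^ k) ((b * r₀) ^ k)
        (2 * (2 / w) ^ k * (b * (4 * r₀)) ^ k)) := by
  induction k with
  | zero =>
    intro _ n hn _ _
    simpa using Gad.base n hn
  | succ k ih =>
    intro hk n hn hcn hN
    have hlt : ∀ l : Fin (4 * r₀), k * (4 * r₀) + l < (k + 1) * (4 * r₀) := fun l => by
      have := l.2; rw [add_mul]; omega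
    have hpP : ∀ l : Fin (4 * r₀), q (k * (4 * r₀) + l) ≤ P := fun l =>
      hqP _ ((hlt l).trans_le (Nat.mul_le_mul_right _ hk))
    have hg : ∀ l : Fin (4 * r₀), Nonempty (Gad (n * q (k * (4 * r₀) + l)) ((b * (4 * r₀)) ^ k)
        (n * P * (P * (4 * r₀)) ^ k) ((b * r₀) ^ k) (2 * (2 / w) ^ k * (b * (4 * r₀)) ^ k)) := by
      intro l
      obtain ⟨g⟩ := ih (by omega) (n * q (k * (4 * r₀) + l))
        (Nat.mul_pos hn (by have := hq2 (k * (4 * r₀) + l); omega))
        (fun i hi => Nat.Coprime.mul_left (hcn i (by have := hlt l; omega))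
          (hcop (by omega)))
        (le_trans (by
          rw [pow_succ', ← mul_assoc n P]
          exact Nat.mul_le_mul_right _ (Nat.mul_le_mul_left _ (hpP l))) hN)
      exact ⟨g.mono (Nat.mul_le_mul_right _ (Nat.mul_le_mul_left _ (hpP l))) le_rfl⟩
    have hnN : n ≤ N := le_trans (Nat.le_mul_of_pos_right _ (by positivity)) hN
    obtain ⟨g⟩ := Gad.step (b := b) (w := w) (J := J) (P := P)
      (fun l : Fin (4 * r₀) => q (k * (4 * r₀) + l)) hn hr hw (fun l => hq2 _) hpP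
      (fun l l' hll => hcop (fun h => hll (Fin.ext (by omega)))) (fun l => hcn _ (hlt l)) hb
      (le_trans (Nat.mul_le_mul_left _ (Nat.mul_le_mul_right _ hnN)) hJ)
      (fun l => (hg l).some)
    have e1 : (b * (4 * r₀)) ^ (k + 1) = b * (4 * r₀ * (b * (4 * r₀)) ^ k) := by ring
    have e2 : (b * r₀) ^ (k + 1) = b * (r₀ * (b * r₀) ^ k) := by ring
    rw [e1, e2]
    refine ⟨g.mono (le_of_eq (by ring)) ?_⟩
    have hw0 : (0 : ℝ) < w := by exact_mod_cast hw
    have h1 : (2 * J : ℝ) ≤ (2 / w) ^ (k + 1) * b := by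
      rw [div_pow, div_mul_eq_mul_div, le_div_iff₀ (by positivity)]
      have : 2 * J * w ^ (k + 1) ≤ 2 ^ (k + 1) * b :=
        calc 2 * J * w ^ (k + 1) ≤ 2 * J * w ^ K :=
              Nat.mul_le_mul_left _ (Nat.pow_le_pow_right hw hk)
          _ ≤ b := hbJ
          _ ≤ _ := Nat.le_mul_of_pos_left _ (by positivity)
      exact_mod_cast this
    have h2 : (0 : ℝ) ≤ 4 * r₀ * (b * (4 * r₀)) ^ k := by positivity
    have h3 := mul_le_mul_of_nonneg_right h1 h2
    push_cast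
    calc _ = (2 / w) ^ (k + 1) * b * (4 * r₀ * (b * (4 * r₀)) ^ k) +
          2 * J * (4 * r₀ * ((b : ℝ) * (4 * r₀)) ^ k) := by ring
      _ ≤ (2 / w) ^ (k + 1) * b * (4 * r₀ * (b * (4 * r₀)) ^ k) +
          (2 / w) ^ (k + 1) * b * (4 * r₀ * ((b : ℝ) * (4 * r₀)) ^ k) := by linarith
      _ = _ := by ring

theorem hasSum_l1 (x : lp (fun _ : ℕ => ℝ) 1) : HasSum (fun i => |x i|) ‖x‖ := by
  simpa using lp.hasSum_norm (p := 1) (by simp) x

theorem Gad.distortion {m B T ℓ : ℕ} {M : ℝ} (g : Gad 2 m B T M) (hB : B ≤ 2 ^ ℓ) (hT : 0 < T)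
    (f : List Bool → lp (fun _ : ℕ => ℝ) 1) (s D : ℝ) (hs : 0 < s)
    (hf : ∀ x y : List Bool, x.length = m * (2 * ℓ + 3) → y.length = m * (2 * ℓ + 3) → x ≠ y →
      s * (editDist x y : ℝ) ≤ ‖f x - f y‖ ∧ ‖f x - f y‖ ≤ D * s * (editDist x y : ℝ)) :
    (T : ℝ) ≤ 8 * (2 * ℓ + 3) ^ 2 * D * M := by
  classical
  let E : g.G → List Bool := fun z => (g.S z).flatMap (code ℓ)
  have hE : ∀ z, (E z).length = m * (2 * ℓ + 3) := fun z => by
    rw [length_flatMap_const _ _ _ fun a _ => length_code ℓ a, g.len]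
  have hfar : ∀ z, T ≤ 2 * (editDist (E z) (E (z + g.τ)) * (2 * ℓ + 3)) := fun z =>
    (g.far z).le_of_close ⟨1, by norm_num, by rw [one_smul]⟩
      (close_of_editDist_code ℓ _ _ (fun a ha => (g.bnd _ a ha).trans_le hB)
        (fun a ha => (g.bnd _ a ha).trans_le hB))
  have hpos : ∀ z, 0 < editDist (E z) (E (z + g.τ)) := fun z => by
    have := hfar z
    rcases Nat.eq_zero_or_pos (editDist (E z) (E (z + g.τ))) with h | h
    · rw [h] at this; omega
    · exact h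
  have hne : ∀ z, E z ≠ E (z + g.τ) := fun z h => by
    have := hpos z
    rw [← h, editDist, SimpleGraph.dist_self] at this
    exact lt_irrefl _ this
  have hD : 0 ≤ D := by
    obtain ⟨h1, h2⟩ := hf _ _ (hE 0) (hE _) (hne 0)
    have h3 : (0 : ℝ) < editDist (E 0) (E (0 + g.τ)) := by exact_mod_cast hpos 0
    have h4 : 0 ≤ D * (s * editDist (E 0) (E (0 + g.τ))) := by
      rw [← mul_assoc]; exact (norm_nonneg _).trans h2
    exact nonneg_of_mul_nonneg_left h4 (mul_pos hs h3)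
  have hc : (0 : ℝ) < Fintype.card g.G := by exact_mod_cast Fintype.card_pos
  set A : ℝ := Fintype.card g.G * (D * s * (2 * (2 * ℓ + 3))) with hA
  have hA0 : 0 ≤ A := by positivity
  have hsum : ∀ h, HasSum (fun i => ∑ z, |f (E z) i - f (E (z + h)) i|)
      (∑ z, ‖f (E z) - f (E (z + h))‖) := fun h =>
    hasSum_sum fun z _ => by simpa using hasSum_l1 (f (E z) - f (E (z + h)))
  have hup : ∀ (h : g.G) (c : ℕ), (∀ z, Close c (g.S z) (g.S (z + h))) →
      ∑ z, ‖f (E z) - f (E (z + h))‖ ≤ A * c := by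
    intro h c hc
    have : ∀ z, ‖f (E z) - f (E (z + h))‖ ≤ D * s * (2 * (2 * ℓ + 3)) * c := by
      intro z
      by_cases he : E z = E (z + h)
      · rw [← he, sub_self, norm_zero]; positivity
      · refine (hf _ _ (hE z) (hE _) he).2.trans ?_
        rw [mul_assoc (D * s)]
        refine mul_le_mul_of_nonneg_left ?_ (by positivity)
        have := editDist_code_le ℓ (hc z)
        have h2 : (editDist (E z) (E (z + h)) : ℝ) ≤ (2 * (c * (2 * ℓ + 3)) : ℕ) := by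
          exact_mod_cast this
        refine h2.trans (le_of_eq ?_)
        push_cast; ring
    refine (sum_le_sum fun z _ => this z).trans (le_of_eq ?_)
    simp only [sum_const, card_univ, nsmul_eq_mul, hA]
    ring
  have hpart : ∀ N : ℕ, ∑ i ∈ range N, ∑ z, |f (E z) i - f (E (z + g.τ)) i| ≤ 2 * (A * M) := by
    intro N
    obtain ⟨μ, hμ, hF⟩ := NegT.sum (range N) (fun _ => 1) (fun _ _ => zero_le_one)
      (fun i h => ∑ z, |f (E z) i - f (E (z + h)) i|) (fun i _ => negT_abs fun z => f (E z) i)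
    simp only [one_mul] at hF
    have h1 := g.cheap (AddChar g.G ℂ) (fun ξ => ξ) μ A hA0 hμ fun h c hc => by
      rw [← hF h]
      exact (sum_le_hasSum _ (fun i _ => sum_nonneg fun z _ => abs_nonneg _) (hsum h)).trans
        (hup h c hc)
    rw [hF]
    refine le_trans ?_ (mul_le_mul_of_nonneg_left h1 zero_le_two)
    rw [mul_sum]
    refine sum_le_sum fun ξ _ => ?_
    split_ifs with hξ
    · simp [hξ]
    · have := neg_one_le_re ξ g.τ
      nlinarith [hμ ξ]
  have htot : ∑ z, ‖f (E z) - f (E (z + g.τ))‖ ≤ 2 * (A * M) :=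
    le_of_tendsto' (hsum g.τ).tendsto_sum_nat hpart
  have hlow : ∀ z, s * T ≤ 2 * (2 * ℓ + 3) * ‖f (E z) - f (E (z + g.τ))‖ := by
    intro z
    have h1 := (hf _ _ (hE z) (hE _) (hne z)).1
    have h2 : (T : ℝ) ≤ (2 * (editDist (E z) (E (z + g.τ)) * (2 * ℓ + 3)) : ℕ) := by
      exact_mod_cast hfar z
    push_cast at h2
    calc s * T ≤ s * (2 * (editDist (E z) (E (z + g.τ)) * (2 * ℓ + 3))) :=
          mul_le_mul_of_nonneg_left h2 hs.le
      _ = 2 * (2 * ℓ + 3) * (s * editDist (E z) (E (z + g.τ))) := by ring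
      _ ≤ _ := mul_le_mul_of_nonneg_left h1 (by positivity)
  have h1 := sum_le_sum fun z (_ : z ∈ univ) => hlow z
  rw [← mul_sum (a := (2 * (2 * (ℓ : ℝ) + 3)))] at h1
  simp only [sum_const, card_univ, nsmul_eq_mul] at h1
  have h2 := h1.trans (mul_le_mul_of_nonneg_left htot (by positivity))
  have h3 : (Fintype.card g.G * s) * T ≤
      (Fintype.card g.G * s) * (8 * (2 * ℓ + 3) ^ 2 * D * M) := by
    calc _ = Fintype.card g.G * (s * T) := by ring
      _ ≤ _ := h2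
      _ = _ := by rw [hA]; ring
  exact le_of_mul_le_mul_left h3 (by positivity)

theorem le_primeCounting (y : ℕ) (hy : 1 ≤ y) : y ≤ Nat.primeCounting (y ^ 2 * 4) := by
  by_contra hlt
  push Not at hlt
  set x := y ^ 2 * 4 with hx
  have h1 := Chebyshev.two_pow_le_mul_lcmUpto x
  have hx0 : 0 < x := by positivity
  have h2 : Nat.lcmUpto x ≤ x ^ Nat.primeCounting x := by
    rw [Nat.lcmUpto_eq_prod_pow_log, ← Nat.primesLE_card_eq_primeCounting]
    exact prod_le_pow_card _ _ _ fun p _ => Nat.pow_log_le_self _ hx0.ne'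
  have h3 : x + 1 < 2 ^ (4 * y) := by
    have a1 : y < 2 ^ y := Nat.lt_two_pow_self
    have a2 : 2 ≤ 2 ^ y := by
      calc 2 = 2 ^ 1 := rfl
        _ ≤ _ := Nat.pow_le_pow_right (by norm_num) hy
    have a3 : 2 ^ (4 * y) = (2 ^ y) ^ 2 * (2 ^ y) ^ 2 := by ring
    have a4 : (y + 1) ^ 2 ≤ (2 ^ y) ^ 2 := Nat.pow_le_pow_left a1 2
    have a5 : 2 ^ 2 ≤ (2 ^ y) ^ 2 := Nat.pow_le_pow_left a2 2
    rw [a3]
    calc x + 1 < (y + 1) ^ 2 * 2 ^ 2 := by rw [hx]; nlinarith
      _ ≤ _ := Nat.mul_le_mul a4 a5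
  have h4 : (x + 1) * Nat.lcmUpto x ≤ (x + 1) ^ y :=
    calc (x + 1) * Nat.lcmUpto x ≤ (x + 1) * (x + 1) ^ Nat.primeCounting x :=
          Nat.mul_le_mul_left _ (h2.trans (Nat.pow_le_pow_left (Nat.le_succ x) _))
      _ = (x + 1) ^ (Nat.primeCounting x + 1) := by ring
      _ ≤ _ := Nat.pow_le_pow_right (by omega) hlt
  have h5 : (x + 1) ^ y < (2 ^ (4 * y)) ^ y := Nat.pow_lt_pow_left h3 (by omega)
  have h6 : (2 ^ (4 * y)) ^ y = 2 ^ x := by rw [← pow_mul, hx]; congr 1; ring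
  omega

theorem nth_prime_le (i y : ℕ) (hi : i < y) : Nat.nth Nat.Prime i ≤ y ^ 2 * 4 := by
  have h := le_primeCounting y (by omega)
  have h2 : i < Nat.count Nat.Prime (y ^ 2 * 4 + 1) := hi.trans_le h
  exact Nat.lt_succ_iff.1 (Nat.nth_lt_of_lt_count h2)

end Crest.Agent.H4.Ed
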