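import Mathlib
import Crest.Prelude.Def_EditDistance

/-! List combinatorics for edit distance: common subsequences (`Close`, `Far`). -/

set_option autoImplicit false

namespace Crest.Agent.H4.Ed

open List Crest.GeometryTopology.EditDistance

variable {α β : Type*}

/-- `u` and `v` have a common subsequence missing at most `t` letters of each. -/
def Close (t : ℕ) (u v : List α) : Prop :=
  ∃ w : List α, w <+ u ∧ w <+ v ∧ u.length ≤ w.length + t ∧ v.length ≤ w.length + t

theorem Close.refl (u : List α) : Close 0 u u := ⟨u, Sublist.refl _, Sublist.refl _, le_rfl, le_rfl⟩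

theorem Close.symm {t : ℕ} {u v : List α} (h : Close t u v) : Close t v u := by
  obtain ⟨w, h1, h2, h3, h4⟩ := h
  exact ⟨w, h2, h1, h4, h3⟩

theorem Close.mono {s t : ℕ} {u v : List α} (h : Close s u v) (hst : s ≤ t) : Close t u v := by
  obtain ⟨w, h1, h2, h3, h4⟩ := h
  exact ⟨w, h1, h2, by omega, by omega⟩

theorem exists_common {v w₁ w₂ : List α} (h₁ : w₁ <+ v) (h₂ : w₂ <+ v) :
    ∃ w, w <+ w₁ ∧ w <+ w₂ ∧ w₁.length + w₂.length ≤ w.length + v.length := by
  induction v generalizing w₁ w₂ with
  | nil =>
    simp only [sublist_nil] at h₁ h₂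
    subst h₁; subst h₂
    exact ⟨[], Sublist.refl _, Sublist.refl _, by simp⟩
  | cons a v ih =>
    rcases sublist_cons_iff.1 h₁ with k₁ | ⟨r₁, rfl, k₁⟩
    · rcases sublist_cons_iff.1 h₂ with k₂ | ⟨r₂, rfl, k₂⟩
      · obtain ⟨w, a1, a2, a3⟩ := ih k₁ k₂
        exact ⟨w, a1, a2, by simp only [length_cons]; omega⟩
      · obtain ⟨w, a1, a2, a3⟩ := ih k₁ k₂
        exact ⟨w, a1, a2.cons _, by simp only [length_cons]; omega⟩
    · rcases sublist_cons_iff.1 h₂ with k₂ | ⟨r₂, rfl, k₂⟩
      · obtain ⟨w, a1, a2, a3⟩ := ih k₁ k₂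
        exact ⟨w, a1.cons _, a2, by simp only [length_cons]; omega⟩
      · obtain ⟨w, a1, a2, a3⟩ := ih k₁ k₂
        exact ⟨a :: w, a1.cons_cons _, a2.cons_cons _, by simp only [length_cons]; omega⟩

theorem Close.trans {s t : ℕ} {u v x : List α} (h : Close s u v) (h' : Close t v x) :
    Close (s + t) u x := by
  obtain ⟨w₁, a1, a2, a3, a4⟩ := h
  obtain ⟨w₂, b1, b2, b3, b4⟩ := h'
  obtain ⟨w, c1, c2, c3⟩ := exists_common a2 b1
  exact ⟨w, c1.trans a1, c2.trans b2, by omega, by omega⟩

theorem Close.append {s t : ℕ} {u v u' v' : List α} (h : Close s u v) (h' : Close t u' v') :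
    Close (s + t) (u ++ u') (v ++ v') := by
  obtain ⟨w₁, a1, a2, a3, a4⟩ := h
  obtain ⟨w₂, b1, b2, b3, b4⟩ := h'
  exact ⟨w₁ ++ w₂, a1.append b1, a2.append b2, by simp only [length_append]; omega,
    by simp only [length_append]; omega⟩

theorem Close.map {t : ℕ} {u v : List α} (f : α → β) (h : Close t u v) :
    Close t (u.map f) (v.map f) := by
  obtain ⟨w, a1, a2, a3, a4⟩ := h
  exact ⟨w.map f, a1.map f, a2.map f, by simpa using a3, by simpa using a4⟩

theorem Close.flatMap {ι : Type*} (L : List ι) (t : ι → ℕ) (f g : ι → List α)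
    (h : ∀ i ∈ L, Close (t i) (f i) (g i)) :
    Close (L.map t).sum (L.flatMap f) (L.flatMap g) := by
  induction L with
  | nil => simpa using Close.refl ([] : List α)
  | cons a L ih =>
    simp only [map_cons, sum_cons, flatMap_cons]
    exact (h a (by simp)).append (ih fun i hi => h i (by simp [hi]))

theorem length_flatMap_const {ι : Type*} (L : List ι) (f : ι → List α) (c : ℕ)
    (h : ∀ i ∈ L, (f i).length = c) : (L.flatMap f).length = L.length * c := by
  induction L with
  | nil => simp
  | cons a L ih =>
    simp only [flatMap_cons, length_append, length_cons]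
    rw [h a (by simp), ih fun i hi => h i (by simp [hi])]
    ring

theorem sublist_flatMap {u w : List α} (f : α → List β) (h : w <+ u) :
    w.flatMap f <+ u.flatMap f := by
  induction h with
  | slnil => simp
  | cons a _ ih => simpa only [flatMap_cons] using ih.trans (sublist_append_right _ _)
  | cons_cons a _ ih => simpa only [flatMap_cons] using (Sublist.refl (f a)).append ih

theorem Close.flatMap_const {t c : ℕ} {u v : List α} (f : α → List β)
    (hf : ∀ a, (f a).length = c) (h : Close t u v) :
    Close (t * c) (u.flatMap f) (v.flatMap f) := by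
  obtain ⟨w, a1, a2, a3, a4⟩ := h
  refine ⟨w.flatMap f, sublist_flatMap f a1, sublist_flatMap f a2, ?_, ?_⟩
  · rw [length_flatMap_const _ _ c fun i _ => hf i, length_flatMap_const _ _ c fun i _ => hf i,
      ← add_mul]
    exact Nat.mul_le_mul_right _ a3
  · rw [length_flatMap_const _ _ c fun i _ => hf i, length_flatMap_const _ _ c fun i _ => hf i,
      ← add_mul]
    exact Nat.mul_le_mul_right _ a4

/-- rotating a window by one block -/
theorem close_shift (b R : ℕ) (g : ℕ → List α) (hg : ∀ i, (g i).length = R) :
    Close R ((range b).flatMap g) ((range b).flatMap fun i => g (i + 1)) := by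
  cases b with
  | zero => simpa using (Close.refl ([] : List α)).mono (Nat.zero_le R)
  | succ b =>
    refine ⟨(range b).flatMap fun i => g (i + 1), ?_, ?_, ?_, ?_⟩
    · rw [range_succ_eq_map, flatMap_cons, flatMap_map]
      exact sublist_append_right _ _
    · rw [range_succ, flatMap_append]
      exact sublist_append_left _ _
    · rw [length_flatMap_const _ _ R fun i _ => hg i,
        length_flatMap_const _ _ R fun i _ => hg (i + 1)]
      simp [add_mul]
    · rw [length_flatMap_const _ _ R fun i _ => hg (i + 1),
        length_flatMap_const _ _ R fun i _ => hg (i + 1)]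
      simp [add_mul]

theorem close_shift_iter (b R : ℕ) (g : ℕ → List α) (hg : ∀ i, (g i).length = R) (j : ℕ) :
    Close (j * R) ((range b).flatMap g) ((range b).flatMap fun i => g (i + j)) := by
  induction j with
  | zero => simpa using Close.refl _
  | succ j ih =>
    have := ih.trans (close_shift b R (fun i => g (i + j)) fun i => hg _)
    have e : (fun i => g (i + 1 + j)) = fun i => g (i + (j + 1)) := by
      funext i; congr 1; ring
    simpa [add_mul, e] using this

/-! ### edit distance versus `Close` -/

theorem exists_walk_of_sublist {u w : List α} (h : w <+ u) (l : List α) :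
    ∃ p : (editGraph α).Walk (l ++ w) (l ++ u), p.length + w.length = u.length := by
  induction h generalizing l with
  | slnil => exact ⟨.nil, rfl⟩
  | @cons w u a _ ih =>
    obtain ⟨p, hp⟩ := ih l
    have hadj : (editGraph α).Adj (l ++ u) (l ++ a :: u) := by
      rw [editGraph, SimpleGraph.fromRel_adj]
      refine ⟨fun h => ?_, Or.inl (Or.inl ⟨l, u, a, rfl, rfl⟩)⟩
      have := congrArg List.length h
      simp at this
    refine ⟨p.concat hadj, ?_⟩
    simp only [SimpleGraph.Walk.length_concat, length_cons]
    omega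
  | @cons_cons w u a _ ih =>
    obtain ⟨p, hp⟩ := ih (l ++ [a])
    refine ⟨p.copy (by simp) (by simp), ?_⟩
    simp only [SimpleGraph.Walk.length_copy, length_cons]
    omega

theorem exists_walk_of_close {t : ℕ} {u v : List α} (h : Close t u v) :
    ∃ p : (editGraph α).Walk u v, p.length ≤ 2 * t := by
  obtain ⟨w, a1, a2, a3, a4⟩ := h
  obtain ⟨p, hp⟩ := exists_walk_of_sublist a1 []
  obtain ⟨q, hq⟩ := exists_walk_of_sublist a2 []
  refine ⟨(p.copy (by simp) (by simp)).reverse.append (q.copy (u' := w) (by simp) (by simp)), ?_⟩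
  simp only [SimpleGraph.Walk.length_append, SimpleGraph.Walk.length_reverse,
    SimpleGraph.Walk.length_copy]
  omega

theorem editDist_le_of_close {t : ℕ} {u v : List α} (h : Close t u v) : editDist u v ≤ 2 * t := by
  obtain ⟨p, hp⟩ := exists_walk_of_close h
  exact (SimpleGraph.dist_le p).trans hp

theorem reachable (u v : List α) : (editGraph α).Reachable u v := by
  have : Close (u.length + v.length) u v := ⟨[], nil_sublist _, nil_sublist _, by simp, by simp⟩
  obtain ⟨p, -⟩ := exists_walk_of_close this
  exact ⟨p⟩

theorem close_of_editDist (Φ : List α → List β) (C : ℕ)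
    (hΦ : ∀ u v, (editGraph α).Adj u v → Close C (Φ u) (Φ v)) (u v : List α) :
    Close (editDist u v * C) (Φ u) (Φ v) := by
  obtain ⟨p, hp⟩ := (reachable u v).exists_walk_length_eq_dist
  rw [editDist, ← hp]
  clear hp
  induction p with
  | nil => simpa using Close.refl _
  | cons h p ih =>
    have := (hΦ _ _ h).trans ih
    refine this.mono (le_of_eq ?_)
    simp only [SimpleGraph.Walk.length_cons]
    ring

/-! ### a comma-free binary code -/

/-- the code word of `a` -/
def code (ℓ : ℕ) (a : ℕ) : List Bool :=
  true :: true :: ((range ℓ).flatMap (fun i => [false, a.testBit i]) ++ [false])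

theorem length_code (ℓ a : ℕ) : (code ℓ a).length = 2 * ℓ + 3 := by
  simp only [code, length_cons, length_append]
  rw [length_flatMap_const _ _ 2 fun i _ => rfl]
  simp; ring

/-- the parser: all windows of length `L` starting with `true, true` -/
def parse (L : ℕ) : List Bool → List (List Bool)
  | [] => []
  | a :: s => (if (a :: s).take 2 = [true, true] then [(a :: s).take L] else []) ++ parse L s

theorem parse_false (L : ℕ) (s : List Bool) : parse L (false :: s) = parse L s := by
  cases s <;> simp [parse]

theorem parse_cons_false (L : ℕ) (a : Bool) (s : List Bool) :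
    parse L (a :: false :: s) = parse L s := by
  rw [parse, parse_false]; simp

theorem parse_body (L : ℕ) (g : ℕ → Bool) (is : List ℕ) (a : Bool) (rest : List Bool) :
    parse L (a :: (is.flatMap (fun i => [false, g i]) ++ false :: rest)) = parse L rest := by
  induction is generalizing a with
  | nil => simp [parse_cons_false]
  | cons i is ih =>
    simp only [flatMap_cons, cons_append, nil_append]
    rw [parse_cons_false, ih]

theorem parse_code (ℓ a : ℕ) (rest : List Bool) :
    parse (2 * ℓ + 3) (code ℓ a ++ rest) = code ℓ a :: parse (2 * ℓ + 3) rest := by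
  have h1 : (code ℓ a ++ rest).take (2 * ℓ + 3) = code ℓ a := by
    rw [← length_code ℓ a]; simp
  have h2 : code ℓ a ++ rest =
      true :: true :: ((range ℓ).flatMap (fun i => [false, a.testBit i]) ++ false :: rest) := by
    simp [code]
  rw [h2] at h1 ⊢
  rw [parse, h1, parse_body]
  simp

theorem parse_flatMap (ℓ : ℕ) (x : List ℕ) :
    parse (2 * ℓ + 3) (x.flatMap (code ℓ)) = x.map (code ℓ) := by
  induction x with
  | nil => simp [parse]
  | cons a x ih => rw [flatMap_cons, parse_code, ih, map_cons]

theorem parse_append (L : ℕ) (l r : List Bool) :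
    ∃ P, parse L (l ++ r) = P ++ parse L r ∧ P.length ≤ l.length := by
  induction l with
  | nil => exact ⟨[], rfl, le_rfl⟩
  | cons a l ih =>
    obtain ⟨P, h1, h2⟩ := ih
    rw [cons_append, parse, h1, ← append_assoc]
    refine ⟨_, rfl, ?_⟩
    split_ifs <;> simp <;> omega

theorem close_parse (L : ℕ) (hL : 2 ≤ L) (l x y r : List Bool) (hx : x.length ≤ 1)
    (hy : y.length ≤ 1) : Close L (parse L (l ++ x ++ r)) (parse L (l ++ y ++ r)) := by
  induction l with
  | nil =>
    obtain ⟨P, h1, h2⟩ := parse_append L x r
    obtain ⟨Q, h3, h4⟩ := parse_append L y r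
    simp only [nil_append]
    rw [h1, h3]
    exact ⟨parse L r, sublist_append_right _ _, sublist_append_right _ _,
      by simp only [length_append]; omega, by simp only [length_append]; omega⟩
  | cons a l ih =>
    by_cases hl : L ≤ (a :: l).length
    · have e : ∀ (z : List Bool) (k : ℕ), k ≤ L →
          (a :: (l ++ z ++ r)).take k = (a :: l).take k := by
        intro z k hk
        rw [append_assoc, ← cons_append, take_append_of_le_length (hk.trans hl)]
      simp only [cons_append]
      rw [parse, parse, e x 2 hL, e y 2 hL, e x L le_rfl, e y L le_rfl]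
      simpa using (Close.refl _).append ih
    · obtain ⟨P, h1, h2⟩ := parse_append L (a :: l ++ x) r
      obtain ⟨Q, h3, h4⟩ := parse_append L (a :: l ++ y) r
      rw [h1, h3]
      simp only [length_append] at h2 h4
      exact ⟨parse L r, sublist_append_right _ _, sublist_append_right _ _,
        by simp only [length_append]; omega, by simp only [length_append]; omega⟩

theorem close_parse_adj (L : ℕ) (hL : 2 ≤ L) (u v : List Bool) (h : (editGraph Bool).Adj u v) :
    Close L (parse L u) (parse L v) := by
  have key : ∀ u v : List Bool, IsInsertion u v ∨ IsSubstitution u v →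
      Close L (parse L u) (parse L v) := by
    rintro u v (⟨l, r, a, rfl, rfl⟩ | ⟨l, r, a, b, -, rfl, rfl⟩)
    · simpa using close_parse L hL l [] [a] r (by simp) (by simp)
    · simpa using close_parse L hL l [a] [b] r (by simp) (by simp)
  rw [editGraph, SimpleGraph.fromRel_adj] at h
  rcases h.2 with h | h
  · exact key _ _ h
  · exact (key _ _ h).symm

theorem body_inj (g g' : ℕ → Bool) (is : List ℕ) (r r' : List Bool)
    (h : is.flatMap (fun i => [false, g i]) ++ r = is.flatMap (fun i => [false, g' i]) ++ r') :
    ∀ i ∈ is, g i = g' i := by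
  induction is with
  | nil => simp
  | cons j is ih =>
    simp only [flatMap_cons, cons_append, nil_append, cons.injEq, true_and] at h
    intro i hi
    rcases mem_cons.1 hi with rfl | hi
    · exact h.1
    · exact ih h.2 i hi

theorem code_injOn (ℓ : ℕ) : Set.InjOn (code ℓ) {a | a < 2 ^ ℓ} := by
  intro a ha b hb h
  simp only [code, cons.injEq, true_and] at h
  have := body_inj _ _ _ _ _ h
  apply Nat.eq_of_testBit_eq
  intro i
  by_cases hi : i < ℓ
  · exact this i (mem_range.2 hi)
  · have h2 : 2 ^ ℓ ≤ 2 ^ i := Nat.pow_le_pow_right (by norm_num) (by omega)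
    rw [Nat.testBit_lt_two_pow (lt_of_lt_of_le ha h2),
      Nat.testBit_lt_two_pow (lt_of_lt_of_le hb h2)]

/-- decoding: binary edit distance controls closeness of the symbol strings -/
theorem close_of_editDist_code (ℓ : ℕ) (x y : List ℕ) (hx : ∀ a ∈ x, a < 2 ^ ℓ)
    (hy : ∀ a ∈ y, a < 2 ^ ℓ) :
    Close (editDist (x.flatMap (code ℓ)) (y.flatMap (code ℓ)) * (2 * ℓ + 3)) x y := by
  have h := close_of_editDist (parse (2 * ℓ + 3)) (2 * ℓ + 3)
    (close_parse_adj _ (by omega)) (x.flatMap (code ℓ)) (y.flatMap (code ℓ))
  rw [parse_flatMap, parse_flatMap] at h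
  have h2 := h.map (Function.invFunOn (code ℓ) {a | a < 2 ^ ℓ})
  have e : ∀ x : List ℕ, (∀ a ∈ x, a < 2 ^ ℓ) →
      (x.map (code ℓ)).map (Function.invFunOn (code ℓ) {a | a < 2 ^ ℓ}) = x := by
    intro x hx
    rw [map_map]
    conv_rhs => rw [← map_id x]
    exact map_congr_left fun a ha => (code_injOn ℓ).leftInvOn_invFunOn (hx a ha)
  rwa [e x hx, e y hy] at h2

theorem editDist_code_le (ℓ : ℕ) {t : ℕ} {x y : List ℕ} (h : Close t x y) :
    editDist (x.flatMap (code ℓ)) (y.flatMap (code ℓ)) ≤ 2 * (t * (2 * ℓ + 3)) :=
  editDist_le_of_close (h.flatMap_const _ (length_code ℓ))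

end Crest.Agent.H4.Ed
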