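import Crest.Agent.H4.IMNum2

set_option autoImplicit false
set_option linter.unusedSectionVars false
set_option linter.unusedVariables false
set_option linter.unusedSimpArgs false

/-! Row 326: products of integer polynomials by Kronecker substitution. -/

namespace Crest.Agent.H4.IM
open Crest.Agent.H3.Ptime Crest.Agent.H9.IM Function Polynomial

variable {α β γ : Type} [Enc α] [Enc β] [Enc γ] {S : α → ℕ → Prop}

theorem chunks_cons {α : Type} {k : ℕ} (hk : 0 < k) (c r : List α) (hc : c.length = k) :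
    chunks k (c ++ r) = c :: chunks k r := by
  unfold chunks
  rw [List.length_append, hc, Nat.add_div_left _ hk, List.range_succ_eq_map, List.map_cons,
    List.map_map]
  congr 1
  · simp [← hc]
  · refine List.map_congr_left (fun j _ => ?_)
    simp only [Function.comp, Nat.succ_mul]
    rw [add_comm (j * k) k, ← List.drop_drop, ← hc, List.drop_left]

theorem chunks_flatten {α : Type} {k : ℕ} (hk : 0 < k) : ∀ L : List (List α),
    (∀ c ∈ L, c.length = k) → chunks k L.flatten = L
  | [], _ => by simp [chunks]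
  | c :: L, h => by
    rw [List.flatten_cons, chunks_cons hk c _ (h c (by simp)),
      chunks_flatten hk L (fun d hd => h d (by simp [hd]))]

def pack (w : ℕ) (l : List ℕ) : List Bool := (l.map (fun x => tb w x)).flatten

theorem pack_length (w : ℕ) (l : List ℕ) : (pack w l).length = l.length * w := by
  induction l with
  | nil => simp [pack]
  | cons a l ih => simp only [pack, List.map_cons, List.flatten_cons, List.length_append,
      tb_length, List.length_cons] at ih ⊢; rw [ih]; ring

theorem ob_pack_cons (w x : ℕ) (l : List ℕ) (hx : x < 2 ^ w) :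
    ob (pack w (x :: l)) = x + 2 ^ w * ob (pack w l) := by
  simp only [pack, List.map_cons, List.flatten_cons]
  rw [ob_append, ob_tb, tb_length, Nat.mod_eq_of_lt hx]

noncomputable def ivp : List ℤ → ℤ[X]
  | [] => 0
  | a :: l => C a + X * ivp l

theorem ivp_coeff : ∀ (l : List ℤ) (i : ℕ), (ivp l).coeff i = l.getD i 0
  | [], i => by simp [ivp]
  | a :: l, 0 => by simp [ivp]
  | a :: l, i + 1 => by rw [ivp, coeff_add, coeff_C, coeff_X_mul, ivp_coeff l i]; simp

theorem ivp_pmul (a b : List ℤ) : ivp (pmul a b) = ivp a * ivp b := by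
  ext e
  rw [ivp_coeff, coeff_mul, Finset.Nat.sum_antidiagonal_eq_sum_range_succ
    (fun x y => (ivp a).coeff x * (ivp b).coeff y)]
  simp only [ivp_coeff]
  by_cases he : e < a.length + b.length
  · simp [pmul, List.getD_eq_getElem?_getD, he]
  · rw [List.getD_eq_default _ _ (by simp [pmul]; omega)]
    refine (Finset.sum_eq_zero (fun x hx => ?_)).symm
    by_cases h : a.length ≤ x
    · rw [List.getD_eq_default _ _ h, zero_mul]
    · rw [List.getD_eq_default b _ (by omega), mul_zero]

theorem pack_sub (w : ℕ) : ∀ l : List ℤ, (∀ z ∈ l, z.natAbs < 2 ^ w) →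
    (ob (pack w (l.map (fun z => z.toNat))) : ℤ) - ob (pack w (l.map (fun z => (-z).toNat))) =
      (ivp l).eval (2 ^ w)
  | [], _ => by simp [ivp]
  | a :: l, h => by
    have ha := h a (by simp)
    have ih := pack_sub w l (fun z hz => h z (by simp [hz]))
    rw [List.map_cons, List.map_cons, ob_pack_cons _ _ _ (by omega), ob_pack_cons _ _ _ (by omega)]
    simp only [ivp, eval_add, eval_C, eval_mul, eval_X, ← ih]
    push_cast
    have : ((a.toNat : ℕ) : ℤ) - ((-a).toNat : ℕ) = a := by omega
    linear_combination this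

theorem pack_off (w : ℕ) : ∀ l : List ℤ, (∀ z ∈ l, z.natAbs < 2 ^ w) →
    (ivp l).eval (2 ^ (w + 1)) + ob (pack (w + 1) (l.map (fun _ => 2 ^ w))) =
      ob (pack (w + 1) (l.map (fun z : ℤ => (z + (2 ^ w : ℕ)).toNat)))
  | [], _ => by simp [ivp]
  | a :: l, h => by
    have ha := h a (by simp)
    have ih := pack_off w l (fun z hz => h z (by simp [hz]))
    have hp : 2 ^ (w + 1) = 2 * 2 ^ w := by ring
    have hp0 : 0 < 2 ^ w := by positivity
    rw [List.map_cons, List.map_cons, ob_pack_cons _ _ _ (by omega), ob_pack_cons _ _ _ (by omega)]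
    have : (((a + (2 ^ w : ℕ)).toNat : ℕ) : ℤ) = a + (2 ^ w : ℕ) := by omega
    simp only [ivp, eval_add, eval_C, eval_mul, eval_X, Nat.cast_add, Nat.cast_mul, this, ← ih]
    push_cast
    ring

def asum (l : List ℤ) : ℕ := (l.map Int.natAbs).sum

theorem sum_getD_le : ∀ (l : List ℤ) (m : ℕ),
    ∑ x ∈ Finset.range m, (l.getD x 0).natAbs ≤ asum l
  | [], m => by simp
  | a :: l, 0 => by simp
  | a :: l, m + 1 => by
    rw [Finset.sum_range_succ']
    have := sum_getD_le l m
    simp only [asum, List.getD_cons_succ, List.getD_cons_zero, List.map_cons, List.sum_cons] at this ⊢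
    omega

theorem getD_le_asum (l : List ℤ) (i : ℕ) : (l.getD i 0).natAbs ≤ asum l :=
  le_trans (Finset.single_le_sum (f := fun x => (l.getD x 0).natAbs) (fun _ _ => Nat.zero_le _)
    (Finset.self_mem_range_succ i)) (sum_getD_le l (i + 1))

theorem mem_le_asum {l : List ℤ} {z : ℤ} (h : z ∈ l) : z.natAbs ≤ asum l :=
  List.le_sum_of_mem (List.mem_map_of_mem h)

theorem pmul_le (a b : List ℤ) : ∀ z ∈ pmul a b, z.natAbs ≤ asum a * asum b := by
  intro z hz
  obtain ⟨e, -, rfl⟩ := List.mem_map.1 hz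
  refine (Int.natAbs_sum_le _ _).trans ?_
  refine le_trans (Finset.sum_le_sum (g := fun x => (a.getD x 0).natAbs * asum b) (fun x _ => ?_)) ?_
  · rw [Int.natAbs_mul]
    exact Nat.mul_le_mul_left _ (getD_le_asum b _)
  · rw [← Finset.sum_mul]
    exact Nat.mul_le_mul_right _ (sum_getD_le a _)

def sstep (x : ℕ × ℤ) : ℕ × Unit := (x.1 + x.2.natAbs, ())

theorem scan_sstep : ∀ (l : List ℤ) (r : ℕ), (scan sstep r l).1 = r + asum l ∧
    ∀ y ∈ visits sstep r l, y.1 ≤ r + asum l
  | [], r => by simp [scan, visits, asum]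
  | z :: l, r => by
    obtain ⟨h1, h2⟩ := scan_sstep l (r + z.natAbs)
    have e : asum (z :: l) = z.natAbs + asum l := by simp [asum]
    refine ⟨by simp only [scan, sstep] at h1 ⊢; omega, fun y hy => ?_⟩
    simp only [visits, List.mem_cons] at hy
    rcases hy with rfl | hy
    · simp
    · have := h2 y hy
      omega

theorem asum_le (l : List ℤ) (M : ℕ) (h : ∀ z ∈ l, z.natAbs < M) : asum l ≤ l.length * M := by
  have := List.sum_le_card_nsmul (l.map Int.natAbs) M (by
    intro x hx
    obtain ⟨z, hz, rfl⟩ := List.mem_map.1 hx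
    exact (h z hz).le)
  simpa [asum] using this

section
variable [hC : Fact CoreStmt]

theorem cc_mapE {ε : Type} [Enc ε] {f : ε × β → γ} (hf : Lin f) {e : α → ε} {l : α → List β}
    (he : CC e S) (hl : CC l S) (K : ℕ)
    (h : ∀ a T, S a T → (l a).length * sz (e a) ≤ K * (T + sz a + 1)) :
    CC (fun a => (l a).map (fun b => f (e a, b))) S :=
  (hC.out.map hf).comp3 (he.pair hl) K (fun a T hT =>
    ⟨_, ⟨fun _ => 0, fun _ _ => trivial, by simp⟩, h a T hT⟩)

theorem cc_pack {w : α → List Bool} {l : α → List ℕ} (hw : CC w S) (hl : CC l S) (K : ℕ)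
    (h : ∀ a T, S a T → (l a).length * sz (w a) ≤ K * (T + sz a + 1)) :
    CC (fun a => pack (w a).length (l a)) S :=
  cc_flatten (cc_mapE (f := fun x : List Bool × ℕ => tb x.1.length x.2)
    (cc_tb (by fun_prop) (by fun_prop)) hw hl K h)

theorem cc_asum {l : α → List ℤ} (hl : CC l S) (K : ℕ)
    (h : ∀ a T, S a T → (l a).length * (4 * (asum (l a)).size + 4) ≤ K * (T + sz a + 1)) :
    CC (fun a => asum (l a)) S := by
  have h1 : Lin sstep := by unfold sstep; fun_prop
  have h2 := (hC.out.scan' h1).comp3 ((CC.const (0 : ℕ)).pair hl) K (fun a T hT => by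
    refine ⟨_, ⟨fun _ => 0, fun _ _ => trivial, ?_⟩, h a T hT⟩
    have h3 := (scan_sstep (l a) 0).2
    have := List.sum_le_card_nsmul ((visits sstep 0 (l a)).map
      (fun y => 0 + sz y.1)) (4 * (asum (l a)).size + 4) (by
        intro z hz
        obtain ⟨y, hy, rfl⟩ := List.mem_map.1 hz
        simpa using sz_nat_mono (h3 y hy))
    simpa [visits_length] using this)
  exact h2.fst.of_eq (fun a => by simp [(scan_sstep (l a) 0).1])

end

theorem cellStmt (hC : CoreStmt) (hN : NumStmt) : CellStmt := by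
  haveI : Fact CoreStmt := ⟨hC⟩
  intro γ hγ
  set S : List ℤ × List ℤ → ℕ → Prop := fun x T => ∃ V W : ℕ,
    x.1.length ≤ V ∧ x.2.length ≤ V ∧ (∀ z ∈ x.1 ++ x.2, z.natAbs < 2 ^ W) ∧ V < 2 ^ W ∧
    ((V + 1 : ℝ) * (W + 1)) ^ (1 + γ) ≤ T with hS
  have key : ∀ x T, S x T → ∃ V W : ℕ, x.1.length ≤ V ∧ x.2.length ≤ V ∧
      (asum (x.1 ++ x.2)).size ≤ 2 * W + 1 ∧ (V + 1) * (W + 1) ≤ T ∧
      ((V + 1 : ℝ) * (W + 1)) ^ (1 + γ) ≤ T := by
    rintro x T ⟨V, W, h1, h2, h3, h4, h5⟩
    refine ⟨V, W, h1, h2, ?_, ?_, h5⟩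
    · have := asum_le _ _ h3
      rw [Nat.size_le, show 2 ^ (2 * W + 1) = 2 * 2 ^ W * 2 ^ W by ring]
      rw [List.length_append] at this
      exact this.trans_lt (Nat.mul_lt_mul_of_pos_right (by omega) (by positivity))
    · have h6 : (1 : ℝ) ≤ (V + 1 : ℝ) * (W + 1) := by
        have : (0 : ℝ) ≤ V := by positivity
        have : (0 : ℝ) ≤ W := by positivity
        nlinarith
      have h7 : (V + 1 : ℝ) * (W + 1) ≤ ((V + 1 : ℝ) * (W + 1)) ^ (1 + γ) := by
        conv_lhs => rw [← Real.rpow_one ((V + 1 : ℝ) * (W + 1))]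
        exact Real.rpow_le_rpow_of_exponent_le h6 (by linarith)
      exact_mod_cast h7.trans h5
  have h12 : CC (fun x : List ℤ × List ℤ => x.1 ++ x.2) S := by fun_prop
  have hs : CC (fun x : List ℤ × List ℤ => asum (x.1 ++ x.2)) S :=
    cc_asum h12 16 (fun x T hT => by
      obtain ⟨V, W, h1, h2, h3, h4, -⟩ := key x T hT
      rw [List.length_append]
      calc _ ≤ (2 * V) * (8 * (W + 1)) := Nat.mul_le_mul (by omega) (by omega)
        _ ≤ _ := by nlinarith)
  set hw : List ℤ × List ℤ → List Bool := fun x =>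
    (asum (x.1 ++ x.2)).bits ++ (asum (x.1 ++ x.2)).bits with hhw
  have hlen : ∀ x, (hw x).length = 2 * (asum (x.1 ++ x.2)).size := fun x => by
    simp [hhw, Nat.size_eq_bits_len, two_mul]
  have c0 : CC hw S := cc_append hs.bits hs.bits
  have c1 : CC (fun x => true :: hw x) S := (CC.const true).cons c0
  have cH : CC (fun x => 2 ^ (hw x).length) S := cc_pow c0
  have bw : ∀ (n : List ℤ × List ℤ → ℕ), (∀ x, n x ≤ x.1.length + x.2.length) →
      ∀ x T, S x T → n x * sz (true :: hw x) ≤ 32 * (T + sz x + 1) := by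
    intro n hn x T hT
    obtain ⟨V, W, h1, h2, h3, h4, -⟩ := key x T hT
    have h5 := sz_bits_le (true :: hw x)
    rw [List.length_cons, hlen] at h5
    have := hn x
    calc _ ≤ (2 * V) * (16 * (W + 1)) := Nat.mul_le_mul (by omega) (by omega)
      _ ≤ _ := by nlinarith
  have bH : ∀ (n : List ℤ × List ℤ → ℕ), (∀ x, n x ≤ x.1.length + x.2.length) →
      ∀ x T, S x T → n x * sz (2 ^ (hw x).length) ≤ 32 * (T + sz x + 1) := by
    intro n hn x T hT
    obtain ⟨V, W, h1, h2, h3, h4, -⟩ := key x T hT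
    have h5 := sz_nat_le (2 ^ (hw x).length)
    rw [Nat.size_pow, hlen] at h5
    have := hn x
    rw [hlen]
    calc _ ≤ (2 * V) * (16 * (W + 1)) := Nat.mul_le_mul (by omega) (by omega)
      _ ≤ _ := by nlinarith
  have cI : ∀ {l : List ℤ × List ℤ → List ℤ}, CC l S →
      (∀ x, (l x).length ≤ x.1.length + x.2.length) →
      CC (fun x => (ob (pack (true :: hw x).length ((l x).map (fun z => z.toNat))) : ℤ) -
        ob (pack (true :: hw x).length ((l x).map (fun z => (-z).toNat)))) S := by
    intro l hl hll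
    exact (cc_ob (cc_pack c1 (cc_map (by fun_prop) hl) 32 (bw _ (by simpa using hll)))).ofSub
      (cc_ob (cc_pack c1 (cc_map (by fun_prop) hl) 32 (bw _ (by simpa using hll))))
  have bI : ∀ (w : ℕ) (l : List ℤ), sz ((ob (pack w (l.map (fun z => z.toNat))) : ℤ) -
        ob (pack w (l.map (fun z => (-z).toNat)))) ≤ 9 * (l.length * w) + 9 := by
    intro w l
    refine (sz_int_le _).trans ?_
    have h1 := ob_lt (pack w (l.map (fun z => z.toNat)))
    have h2 := ob_lt (pack w (l.map (fun z => (-z).toNat)))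
    rw [pack_length, List.length_map] at h1 h2
    have : ((ob (pack w (l.map (fun z => z.toNat))) : ℤ) -
        ob (pack w (l.map (fun z => (-z).toNat)))).natAbs.size ≤ l.length * w :=
      Nat.size_le.2 (by omega)
    omega
  have cP := (hN.imul γ hγ).comp3 ((cI (l := fun x => x.1) (by fun_prop) (by simp)).pair
    (cI (l := fun x => x.2) (by fun_prop) (by simp))) ⌈(100 : ℝ) ^ (1 + γ)⌉₊ (fun x T hT => by
      obtain ⟨V, W, h1, h2, h3, h4, h5⟩ := key x T hT
      refine ⟨⌈(100 : ℝ) ^ (1 + γ)⌉₊ * T, ?_, Nat.mul_le_mul_left _ (by omega)⟩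
      have h6 := bI (true :: hw x).length x.1
      have h7 := bI (true :: hw x).length x.2
      have h8 : (true :: hw x).length ≤ 4 * (W + 1) := by rw [List.length_cons, hlen]; omega
      have h9 := Nat.mul_le_mul h1 h8
      have h10 := Nat.mul_le_mul h2 h8
      rw [sz_pair]
      generalize sz ((ob (pack (true :: hw x).length (x.1.map (fun z => z.toNat))) : ℤ) -
        ob (pack (true :: hw x).length (x.1.map (fun z => (-z).toNat)))) = s1 at *
      generalize sz ((ob (pack (true :: hw x).length (x.2.map (fun z => z.toNat))) : ℤ) -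
        ob (pack (true :: hw x).length (x.2.map (fun z => (-z).toNat)))) = s2 at *
      have h11 : s1 + s2 + 1 ≤ 100 * ((V + 1) * (W + 1)) := by nlinarith
      have h12 : ((s1 + s2 + 1 : ℕ) : ℝ) ≤ 100 * ((V + 1 : ℝ) * (W + 1)) := by exact_mod_cast h11
      refine (Real.rpow_le_rpow (by positivity) h12 (by linarith)).trans ?_
      rw [Real.mul_rpow (by positivity) (by positivity)]
      push_cast
      exact mul_le_mul (Nat.le_ceil _) h5 (by positivity) (by positivity))
  have cO := cc_pack c1 (cc_mapE (f := fun y : ℕ × ℤ => y.1) (by fun_prop) cH h12 32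
    (bH _ (by simp))) 32 (bw _ (by simp))
  have cB := cc_tb (cP.iadd (cc_ob cO).natCast).toNat cO
  have cF := cc_mapE (f := fun y : ℕ × List Bool => (ob y.2 : ℤ) - (y.1 : ℤ)) (by fun_prop) cH
    (cc_chunks (cc_repl () c1) cB) 32 (bH _ (fun x => by
      simp [chunks, pack_length]))
  refine cF.of_eq (fun x => ?_)
  obtain ⟨a, b⟩ := x
  simp only [List.length_replicate, List.length_cons]
  have hs2 : asum (a ++ b) = asum a + asum b := by simp [asum]
  have hw1 : asum (a ++ b) < 2 ^ (asum (a ++ b)).size := Nat.lt_size_self _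
  have hw2 : (hw (a, b)).length = 2 * (asum (a ++ b)).size := hlen _
  generalize (hw (a, b)).length = w at *
  have hw3 : 2 ^ w = 2 ^ (asum (a ++ b)).size * 2 ^ (asum (a ++ b)).size := by rw [hw2]; ring
  have hw4 : 2 ^ (asum (a ++ b)).size ≤ 2 ^ (w + 1) := Nat.pow_le_pow_right (by norm_num) (by omega)
  have hc : ∀ z ∈ pmul a b, z.natAbs < 2 ^ w := fun z hz => (pmul_le a b z hz).trans_lt (by
    rw [hw3]; exact Nat.mul_lt_mul'' (by omega) (by omega))
  rw [pack_sub _ a (fun z hz => by have := mem_le_asum hz; omega),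
    pack_sub _ b (fun z hz => by have := mem_le_asum hz; omega), ← eval_mul, ← ivp_pmul]
  have e1 : (a ++ b).map (fun _ => 2 ^ w) = (pmul a b).map (fun _ => 2 ^ w) := by
    rw [List.map_const', List.map_const']; simp [pmul]
  rw [e1, pack_off w _ hc, Int.toNat_natCast]
  have e2 : (pack (w + 1) ((pmul a b).map (fun _ => 2 ^ w))).length =
      (pack (w + 1) ((pmul a b).map (fun z : ℤ => (z + (2 ^ w : ℕ)).toNat))).length := by
    simp [pack_length]
  rw [e2, tb_ob, pack, chunks_flatten (by omega) _ (by simp), List.map_map, List.map_map]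
  conv_rhs => rw [← List.map_id (pmul a b)]
  refine List.map_congr_left (fun z hz => ?_)
  have := hc z hz
  have hp : 2 ^ (w + 1) = 2 * 2 ^ w := by ring
  simp only [Function.comp, ob_tb, id]
  rw [Nat.mod_eq_of_lt (by omega)]
  omega

end Crest.Agent.H4.IM
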