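import Crest.Agent.H9.IMI
import Crest.Agent.H3.IMArith

set_option autoImplicit false
set_option linter.unusedSectionVars false
set_option linter.unusedVariables false
set_option linter.unusedSimpArgs false

/-! Row 326: linear-time bit operations on numbers. -/

namespace Crest.Agent.H4.IM
open Crest.Agent.H3.Ptime Crest.Agent.H9.IM Function

variable {α β γ : Type} [Enc α] [Enc β] [Enc γ] {S : α → ℕ → Prop}

/-- bit list (least significant first) to number -/
def ob (l : List Bool) : ℕ := Nat.ofDigits 2 (l.map (fun b => b.toNat))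
/-- the `k` low bits -/
def tb (k x : ℕ) : List Bool := (List.range k).map (fun i => x.testBit i)

@[simp] theorem ob_nil : ob [] = 0 := rfl
theorem ob_cons (b : Bool) (l : List Bool) : ob (b :: l) = b.toNat + 2 * ob l := by
  simp [ob, Nat.ofDigits_cons]
theorem ob_append (l m : List Bool) : ob (l ++ m) = ob l + 2 ^ l.length * ob m := by
  simp [ob, Nat.ofDigits_append]
theorem ob_lt (l : List Bool) : ob l < 2 ^ l.length := by
  induction l with
  | nil => simp
  | cons b l ih => rw [ob_cons, List.length_cons, pow_succ]; cases b <;> simp <;> omega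
theorem ofB_reverse (l : List Bool) : ofB l.reverse = ob l := by
  induction l with
  | nil => rfl
  | cons b l ih =>
    rw [List.reverse_cons, ofB, List.foldl_append, ob_cons, ← ih]
    simp [ofB, Nat.bit_val]; cases b <;> simp; omega
theorem ob_bits (n : ℕ) : ob n.bits = n := by rw [← ofB_reverse, ofB_bits]
theorem ob_replicate (k : ℕ) : ob (List.replicate k false) = 0 := by
  induction k with
  | zero => rfl
  | succ k ih => rw [List.replicate_succ, ob_cons, ih]; rfl
theorem ob_take (l : List Bool) (k : ℕ) : ob (l.take k) = ob l % 2 ^ k := by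
  by_cases h : l.length ≤ k
  · rw [List.take_of_length_le h, Nat.mod_eq_of_lt]
    exact (ob_lt l).trans_le (Nat.pow_le_pow_right (by norm_num) h)
  · have h1 : (l.take k).length = k := by simp; omega
    have h2 := ob_lt (l.take k)
    conv_rhs => rw [← List.take_append_drop k l, ob_append, h1]
    rw [h1] at h2
    rw [Nat.add_mul_mod_self_left, Nat.mod_eq_of_lt h2]
theorem ob_drop (l : List Bool) (k : ℕ) : ob (l.drop k) = ob l / 2 ^ k := by
  by_cases h : l.length ≤ k
  · rw [List.drop_of_length_le h, Nat.div_eq_of_lt, ob_nil]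
    exact (ob_lt l).trans_le (Nat.pow_le_pow_right (by norm_num) h)
  · have h1 : (l.take k).length = k := by simp; omega
    have h2 := ob_lt (l.take k)
    conv_rhs => rw [← List.take_append_drop k l, ob_append, h1]
    rw [h1] at h2
    rw [Nat.add_mul_div_left _ _ (by positivity), Nat.div_eq_of_lt h2, zero_add]
@[simp] theorem tb_length (k x : ℕ) : (tb k x).length = k := by simp [tb]
theorem tb_succ (k x : ℕ) : tb (k + 1) x = x.bodd :: tb k (x / 2) := by
  simp only [tb, List.range_succ_eq_map, List.map_cons, List.map_map]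
  have e : x.testBit 0 = x.bodd := by
    rw [Nat.testBit_zero, Nat.mod_two_of_bodd]; cases x.bodd <;> simp
  rw [e]
  congr 1
  refine List.map_congr_left (fun i _ => ?_)
  simp [Nat.testBit_succ]
theorem tb_ob (l : List Bool) : tb l.length (ob l) = l := by
  induction l with
  | nil => rfl
  | cons b l ih =>
    rw [List.length_cons, tb_succ, ob_cons]
    congr 1
    · cases b <;> simp
    · have : (b.toNat + 2 * ob l) / 2 = ob l := by cases b <;> simp <;> omega
      rw [this, ih]
theorem tb_mod (k x : ℕ) : tb k (x % 2 ^ k) = tb k x := by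
  refine List.map_congr_left (fun i hi => ?_)
  simp at hi
  simp [Nat.testBit_mod_two_pow, hi]
theorem tb_eq (k x : ℕ) : tb k x = (x.bits ++ List.replicate k false).take k := by
  have h1 : ((x.bits ++ List.replicate k false).take k).length = k := by simp
  have h2 := tb_ob ((x.bits ++ List.replicate k false).take k)
  rw [h1, ob_take, ob_append, ob_replicate, ob_bits, mul_zero, add_zero, tb_mod] at h2
  exact h2
theorem ob_tb (k x : ℕ) : ob (tb k x) = x % 2 ^ k := by
  rw [tb_eq, ob_take, ob_append, ob_replicate, ob_bits, mul_zero, add_zero]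

section
variable [hC : Fact CoreStmt]

@[fun_prop] theorem cc_append {l m : α → List β} (hl : CC l S) (hm : CC m S) :
    CC (fun a => l a ++ m a) S := CC.comp hC.out.append (hl.pair hm)
@[fun_prop] theorem cc_reverse {l : α → List β} (hl : CC l S) :
    CC (fun a => (l a).reverse) S := CC.comp hC.out.reverse hl
@[fun_prop] theorem cc_flatten {l : α → List (List β)} (hl : CC l S) :
    CC (fun a => (l a).flatten) S := CC.comp hC.out.flatten hl
theorem cc_take {l : α → List β} {m : α → List γ} (hl : CC l S) (hm : CC m S) :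
    CC (fun a => (l a).take (m a).length) S := CC.comp hC.out.take (hl.pair hm)
theorem cc_drop {l : α → List β} {m : α → List γ} (hl : CC l S) (hm : CC m S) :
    CC (fun a => (l a).drop (m a).length) S := CC.comp hC.out.drop (hl.pair hm)
theorem cc_chunks {l : α → List β} {m : α → List Unit} (hm : CC m S) (hl : CC l S) :
    CC (fun a => chunks (m a).length (l a)) S := CC.comp hC.out.chunks' (hm.pair hl)

theorem lin_map {g : β → γ} (hg : Lin g) : Lin (fun l : List β => l.map g) := by
  have h1 : Lin (fun x : Unit × β => g x.2) := by fun_prop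
  have h2 := hC.out.map h1
  refine h2.comp3 (f := fun l : List β => ((), l)) (by fun_prop) 1 (fun l T _ => ?_)
  refine ⟨l.length, ⟨fun _ => 0, fun _ _ => trivial, by simp [sz_unit]⟩, ?_⟩
  have := length_le_sz l
  omega

theorem cc_map {g : β → γ} (hg : Lin g) {l : α → List β} (hl : CC l S) :
    CC (fun a => (l a).map g) S := CC.comp (lin_map hg) hl

theorem cc_repl (c : γ) {l : α → List β} (hl : CC l S) :
    CC (fun a => List.replicate (l a).length c) S :=
  (cc_map (g := fun _ : β => c) (by fun_prop) hl).of_eq (fun a => by simp)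

@[fun_prop] theorem cc_ob {l : α → List Bool} (hl : CC l S) : CC (fun a => ob (l a)) S :=
  (cc_reverse hl).ofB.of_eq (fun a => ofB_reverse _)

theorem cc_shl {f : α → ℕ} {l : α → List β} (hf : CC f S) (hl : CC l S) :
    CC (fun a => f a * 2 ^ (l a).length) S :=
  (cc_ob (cc_append (cc_repl false hl) hf.bits)).of_eq (fun a => by
    rw [ob_append, ob_replicate, ob_bits]; simp [mul_comm])
theorem cc_shr {f : α → ℕ} {l : α → List β} (hf : CC f S) (hl : CC l S) :
    CC (fun a => f a / 2 ^ (l a).length) S :=
  (cc_ob (cc_drop hf.bits hl)).of_eq (fun a => by rw [ob_drop, ob_bits])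
theorem cc_low {f : α → ℕ} {l : α → List β} (hf : CC f S) (hl : CC l S) :
    CC (fun a => f a % 2 ^ (l a).length) S :=
  (cc_ob (cc_take hf.bits hl)).of_eq (fun a => by rw [ob_take, ob_bits])
theorem cc_pow {l : α → List β} (hl : CC l S) : CC (fun a => 2 ^ (l a).length) S :=
  (cc_shl (CC.const 1) hl).of_eq (fun a => by simp)
theorem cc_tb {f : α → ℕ} {l : α → List β} (hf : CC f S) (hl : CC l S) :
    CC (fun a => tb (l a).length (f a)) S :=
  (cc_take (cc_append hf.bits (cc_repl false hl)) hl).of_eq (fun a => (tb_eq _ _).symm)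

theorem cc_ishr {f : α → ℤ} {l : α → List β} (hf : CC f S) (hl : CC l S) :
    CC (fun a => f a / 2 ^ (l a).length) S := by
  refine ((cc_shr hf.toNat hl).ofSub
    (cc_shr ((hf.neg.toNat.add (cc_pow hl)).sub (CC.const 1)) hl)).of_eq (fun a => ?_)
  generalize f a = z
  have hM : 0 < 2 ^ (l a).length := by positivity
  have e : (2 : ℤ) ^ (l a).length = ((2 ^ (l a).length : ℕ) : ℤ) := by simp
  rw [e]
  generalize 2 ^ (l a).length = M at hM
  rcases le_or_gt 0 z with h | h
  · obtain ⟨n, rfl⟩ := Int.eq_ofNat_of_zero_le h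
    have : (-(n : ℤ)).toNat = 0 := by omega
    rw [this, Nat.div_eq_of_lt (a := 0 + M - 1) (by omega)]
    simp
  · have h0 : z.toNat = 0 := by omega
    obtain ⟨n, rfl⟩ : ∃ n : ℕ, z = -((n : ℤ) + 1) := ⟨(-z - 1).toNat, by omega⟩
    have h1 : (- -((n : ℤ) + 1)).toNat + M - 1 = n + M := by omega
    rw [h0, h1, Nat.add_div_right _ hM]
    have h2 : -((n : ℤ) + 1) = Int.negSucc n := rfl
    rw [h2, Int.negSucc_ediv _ (by exact_mod_cast hM)]
    simp
    rfl

theorem cc_ishl {f : α → ℤ} {l : α → List β} (hf : CC f S) (hl : CC l S) :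
    CC (fun a => f a * 2 ^ (l a).length) S := by
  refine ((cc_shl hf.toNat hl).ofSub (cc_shl hf.neg.toNat hl)).of_eq (fun a => ?_)
  push_cast
  rw [← sub_mul]
  congr 1
  omega

theorem cc_modM : CC (fun x : ℕ × List Unit => x.1 % MM x.2.length)
    (fun x _ => x.1 < 2 ^ (6 * x.2.length)) := by
  have hl : Lin (fun x : ℕ × List Unit => x.2 ++ x.2) := by fun_prop
  have hx : Lin (fun x : ℕ × List Unit => x.1) := by fun_prop
  have hM := (cc_pow hl).add (CC.const 1)
  have hy := (((cc_low hx hl).add (cc_shr (cc_shr hx hl) hl)).add hM).sub (cc_low (cc_shr hx hl) hl)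
  have h := ((hy.lt hM).ite hy ((hy.lt (hM.add hM)).ite (hy.sub hM) (hy.sub (hM.add hM))))
  refine (Lin.cc h _).congr (fun x T hT => ?_)
  obtain ⟨x, l⟩ := x
  simp only [List.length_append, MM, ← two_mul] at hT ⊢
  have e6 : 2 ^ (6 * l.length) = 2 ^ (2 * l.length) * 2 ^ (2 * l.length) * 2 ^ (2 * l.length) := by
    rw [← pow_add, ← pow_add]; congr 1; ring
  rw [e6] at hT
  have hP : 0 < 2 ^ (2 * l.length) := by positivity
  generalize 2 ^ (2 * l.length) = P at hT hP
  have h0 := Nat.mod_lt x hP
  have h1 := Nat.mod_lt (x / P) hP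
  have h2 : x / P / P < P := by
    rw [Nat.div_div_eq_div_mul, Nat.div_lt_iff_lt_mul (by positivity)]; nlinarith
  have e0 := Nat.div_add_mod x P
  have e1 := Nat.div_add_mod (x / P) P
  generalize x % P = x0 at *
  generalize x / P % P = x1 at *
  generalize x / P / P = x2 at *
  generalize x / P = y at *
  subst e1
  subst e0
  have key : ∀ r q : ℕ, r < P + 1 → x0 + x2 + (P + 1) - x1 = r + q * (P + 1) →
      r = (P * (P * x2 + x1) + x0) % (P + 1) := by
    intro r q hr he
    have e : x0 + x2 + (P + 1) = r + q * (P + 1) + x1 := by omega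
    have : (P * (P * x2 + x1) + x0) + (P + 1) * (2 * x2 + 1) =
        r + (P + 1) * (q + x2 * (P + 1) + x1) := by nlinarith
    rw [← Nat.add_mul_mod_self_left _ (P + 1) (2 * x2 + 1), this, Nat.add_mul_mod_self_left,
      Nat.mod_eq_of_lt hr]
  split_ifs with c1 c2
  · exact key _ 0 c1 (by omega)
  · exact key _ 1 (by omega) (by omega)
  · exact key _ 2 (by omega) (by omega)

end

theorem xor_iter (k : ℕ) : ∀ (a b : ℕ) (c : Bool) (l : List Bool),
    ((tstep (fun _ _ c => c) (fun x y _ => xor x y))^[k] (a, b, c, l)).2.2.2 =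
      (tb k (a ^^^ b)).reverse ++ l := by
  induction k with
  | zero => intro a b c l; rfl
  | succ k ih =>
    intro a b c l
    rw [iterate_succ_apply, tstep, ih, tb_succ]
    simp only [Nat.div2_val, List.reverse_cons, List.append_assoc, List.singleton_append]
    rw [Nat.xor_div_two]
    congr 2
    have e : ∀ x : ℕ, x.bodd = x.testBit 0 := fun x => by
      rw [Nat.testBit_zero, Nat.mod_two_of_bodd]; cases x.bodd <;> simp
    rw [e, e, e, Nat.testBit_xor]

theorem cc_xor {f g : α → ℕ} (hf : CC f S) (hg : CC g S) : CC (fun a => f a ^^^ g a) S := by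
  refine (CC.comp (Lin.tr (fun _ _ c => c) (fun x y _ => xor x y))
    (hf.bits.pair hg.bits)).snd.ofB.of_eq (fun a => ?_)
  simp only [tr_tstep]
  rw [xor_iter, List.append_nil, ofB_reverse, ob_tb, Nat.mod_eq_of_lt]
  refine Nat.xor_lt_two_pow ?_ ?_
  · rw [← Nat.size_le, Nat.size_eq_bits_len]; omega
  · rw [← Nat.size_le, Nat.size_eq_bits_len, Nat.size_eq_bits_len]; omega

end Crest.Agent.H4.IM
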