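import Crest.Agent.H4.IMNum1

set_option autoImplicit false
set_option linter.unusedSectionVars false
set_option linter.unusedVariables false
set_option linter.unusedSimpArgs false

/-! Row 326: Toom-Cook multiplication in quasi-linear time. -/

namespace Crest.Agent.H4.IM
open Crest.Agent.H3.Ptime Crest.Agent.H9.IM Function Polynomial

variable {α β γ : Type} [Enc α] [Enc β] [Enc γ] {S : α → ℕ → Prop}

theorem cc_cmul (c : ℕ) {f : α → ℕ} (hf : CC f S) : CC (fun a => c * f a) S := by
  induction c with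
  | zero => exact (CC.const 0).of_eq (fun a => by simp)
  | succ c ih => exact (ih.add hf).of_eq (fun a => by ring)

theorem cc_icmul (c : ℤ) {f : α → ℤ} (hf : CC f S) : CC (fun a => c * f a) S := by
  induction c using Int.induction_on with
  | zero => exact (CC.const 0).of_eq (fun a => by simp)
  | succ c ih => exact (ih.iadd hf).of_eq (fun a => by ring)
  | pred c ih => exact (ih.isub hf).of_eq (fun a => by ring)

/-! ### division by a constant -/

def dstep (D : ℕ) (x : ℕ × Bool) : ℕ × Bool :=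
  if Nat.bit x.2 x.1 < D then (Nat.bit x.2 x.1, false) else (Nat.bit x.2 x.1 - D, true)

theorem dstep_lt {D r : ℕ} (h : r < D) (b : Bool) : (dstep D (r, b)).1 < D := by
  unfold dstep; split_ifs with c
  · exact c
  · simp only [Nat.bit_val] at c ⊢; cases b <;> simp at c ⊢ <;> omega

theorem dstep_eq (D r : ℕ) (b : Bool) :
    2 * r + b.toNat = (dstep D (r, b)).2.toNat * D + (dstep D (r, b)).1 := by
  unfold dstep; split_ifs with c
  · simp [Nat.bit_val]
  · simp only [Nat.bit_val] at c ⊢; simp; omega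

theorem scan_length {σ α β : Type} (f : σ × α → σ × β) : ∀ (l : List α) (s : σ),
    (scan f s l).2.length = l.length
  | [], _ => rfl
  | a :: l, s => by simp [scan, scan_length f l]

theorem visits_length {σ α β : Type} (f : σ × α → σ × β) : ∀ (l : List α) (s : σ),
    (visits f s l).length = l.length
  | [], _ => rfl
  | a :: l, s => by simp [visits, visits_length f l]

theorem scan_dstep (D : ℕ) : ∀ (l : List Bool) (r : ℕ), r < D →
    (scan (dstep D) r l).1 < D ∧
      r * 2 ^ l.length + ofB l = D * ofB (scan (dstep D) r l).2 + (scan (dstep D) r l).1 ∧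
      ∀ y ∈ visits (dstep D) r l, y.1 < D
  | [], r, h => by simp [scan, visits, h, ofB]
  | b :: l, r, h => by
    obtain ⟨h1, h2, h3⟩ := scan_dstep D l _ (dstep_lt h b)
    refine ⟨h1, ?_, ?_⟩
    · simp only [scan, ofB_cons, scan_length, List.length_cons, pow_succ]
      have := dstep_eq D r b
      have e : r * (2 ^ l.length * 2) + (b.toNat * 2 ^ l.length + ofB l) =
        (2 * r + b.toNat) * 2 ^ l.length + ofB l := by ring
      rw [e, this]
      nlinarith
    · intro y hy
      simp only [visits, List.mem_cons] at hy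
      rcases hy with rfl | hy
      · exact h
      · exact h3 y hy

theorem sz_nat_mono {a b : ℕ} (h : a ≤ b) : sz a ≤ 4 * b.size + 4 :=
  (sz_nat_le a).trans (by have := Nat.size_le_size h; omega)

section
variable [hC : Fact CoreStmt]

theorem lin_cdiv {D : ℕ} (hD : 0 < D) : Lin (fun x : ℕ => x / D) := by
  have h1 : Lin (dstep D) := by unfold dstep; fun_prop
  have h2 := (hC.out.scan' h1).comp3 (f := fun x : ℕ => ((0 : ℕ), x.bits.reverse))
    (S := fun _ _ => True) (by fun_prop) (4 * D.size + 4) (fun x T _ => by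
      refine ⟨x.size * (4 * D.size + 4), ⟨fun _ => 0, fun _ _ => trivial, ?_⟩, ?_⟩
      · have h3 := (scan_dstep D x.bits.reverse 0 hD).2.2
        have := List.sum_le_card_nsmul ((visits (dstep D) 0 x.bits.reverse).map
          (fun y => 0 + sz y.1)) (4 * D.size + 4) (by
            intro z hz
            obtain ⟨y, hy, rfl⟩ := List.mem_map.1 hz
            simpa using sz_nat_mono (h3 y hy).le)
        simpa [visits_length, Nat.size_eq_bits_len] using this
      · have := size_le_sz x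
        nlinarith)
  refine h2.snd.ofB.of_eq (fun x => ?_)
  obtain ⟨h3, h4, -⟩ := scan_dstep D x.bits.reverse 0 hD
  rw [ofB_bits, zero_mul, zero_add] at h4
  simp only
  conv_rhs => rw [h4]
  rw [Nat.mul_add_div hD, Nat.div_eq_of_lt h3, add_zero]

theorem cc_cdiv {D : ℕ} (hD : 0 < D) {f : α → ℕ} (hf : CC f S) : CC (fun a => f a / D) S :=
  CC.comp (lin_cdiv hD) hf

end

/-! ### evaluation and interpolation -/

def ev (j h : ℕ) : ℕ → ℕ → ℕ
  | 0, _ => 0
  | k + 1, a => a % 2 ^ h + j * ev j h k (a / 2 ^ h)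

noncomputable def pol (h : ℕ) : ℕ → ℕ → ℚ[X]
  | 0, _ => 0
  | k + 1, a => C ((a % 2 ^ h : ℕ) : ℚ) + X * pol h k (a / 2 ^ h)

theorem pol_eval (j h : ℕ) : ∀ k a, (pol h k a).eval (j : ℚ) = ev j h k a
  | 0, _ => by simp [pol, ev]
  | k + 1, a => by simp only [pol, ev, eval_add, eval_C, eval_mul, eval_X, pol_eval j h k]; push_cast; ring

theorem pol_deg (h : ℕ) : ∀ k a, (pol h k a).natDegree ≤ k
  | 0, _ => by simp [pol]
  | k + 1, a => by
    unfold pol
    refine (natDegree_add_le _ _).trans (max_le (by simp) (natDegree_mul_le.trans ?_))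
    have := pol_deg h k (a / 2 ^ h)
    have := natDegree_X_le (R := ℚ)
    omega

theorem ev_pow (h : ℕ) : ∀ k a, ev (2 ^ h) h k a = a % 2 ^ (h * k)
  | 0, a => by simp [ev, Nat.mod_one]
  | k + 1, a => by
    rw [ev, ev_pow h k, show h * (k + 1) = h + h * k by ring, pow_add, Nat.mod_mul]

theorem ev_le (j h : ℕ) : ∀ k a, ev j h k a ≤ 2 ^ h * (j + 1) ^ k
  | 0, _ => by simp [ev]
  | k + 1, a => by
    have h1 := ev_le j h k (a / 2 ^ h)
    have h2 := Nat.mod_lt a (show 0 < 2 ^ h by positivity)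
    have h3 : 1 ≤ (j + 1) ^ k := Nat.one_le_pow _ _ (by omega)
    rw [ev, pow_succ]
    nlinarith [Nat.mul_le_mul_left j h1, Nat.mul_le_mul_left (2 ^ h) h3]

theorem interp (n : ℕ) : ∃ (D : ℕ) (e : ℕ → ℤ), 0 < D ∧ ∀ P : ℚ[X], P.natDegree < n → ∀ x : ℚ,
    D * P.eval x = ∑ j ∈ Finset.range n,
      e j * (P.eval (j : ℚ) * ∏ m ∈ (Finset.range n).erase j, (x - m)) := by
  let d : ℕ → ℤ := fun j => ∏ m ∈ (Finset.range n).erase j, ((j : ℤ) - m)
  have hd : ∀ j, d j ≠ 0 := fun j => Finset.prod_ne_zero_iff.2 (fun m hm => by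
    have := Finset.ne_of_mem_erase hm
    omega)
  let D0 : ℤ := ∏ j ∈ Finset.range n, d j
  have hD0 : D0 ≠ 0 := Finset.prod_ne_zero_iff.2 (fun j _ => hd j)
  refine ⟨(D0 * D0).toNat, fun j => D0 * ∏ i ∈ (Finset.range n).erase j, d i, ?_, fun P hP x => ?_⟩
  · have := mul_self_pos.2 hD0
    omega
  · have hinj : Set.InjOn (fun j : ℕ => (j : ℚ)) (Finset.range n : Set ℕ) :=
      fun a _ b _ h => Nat.cast_injective (R := ℚ) h
    have h1 := Lagrange.eq_interpolate (f := P) hinj
      (by simpa using (degree_le_natDegree.trans_lt (by exact_mod_cast hP)))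
    have h2 : (((D0 * D0).toNat : ℕ) : ℚ) = (D0 : ℚ) * D0 := by
      have : (((D0 * D0).toNat : ℕ) : ℤ) = D0 * D0 := Int.toNat_of_nonneg (mul_self_nonneg _)
      exact_mod_cast this
    conv_lhs => rw [h1]
    rw [h2, Lagrange.interpolate_apply, eval_finset_sum, Finset.mul_sum]
    refine Finset.sum_congr rfl (fun j hj => ?_)
    have h3 : (D0 : ℚ) = d j * ∏ i ∈ (Finset.range n).erase j, (d i : ℚ) := by
      have := Finset.mul_prod_erase _ d hj
      simp only [D0]
      rw [← this]; push_cast; rfl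
    have h4 : (d j : ℚ) = ∏ m ∈ (Finset.range n).erase j, ((j : ℚ) - m) := by
      simp only [d]; push_cast; rfl
    have h5 : (d j : ℚ) ≠ 0 := by exact_mod_cast hd j
    rw [eval_mul, eval_C, Lagrange.basis, eval_prod]
    simp only [Lagrange.basisDivisor, eval_mul, eval_C, eval_sub, eval_X]
    rw [Finset.prod_mul_distrib, Finset.prod_inv_distrib, ← h4]
    push_cast
    conv_lhs => rw [h3]
    conv_rhs => rw [h3]
    field_simp

theorem toom (k : ℕ) : ∃ (D : ℕ) (e : ℕ → ℤ), 0 < D ∧ ∀ h a b : ℕ, a < 2 ^ (h * k) →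
    b < 2 ^ (h * k) → (D : ℤ) * (a * b) = ∑ j ∈ Finset.range (2 * k + 1),
      e j * (((ev j h k a * ev j h k b : ℕ) : ℤ) *
        ∏ m ∈ (Finset.range (2 * k + 1)).erase j, ((2 : ℤ) ^ h - m)) := by
  obtain ⟨D, e, hD, H⟩ := interp (2 * k + 1)
  refine ⟨D, e, hD, fun h a b ha hb => ?_⟩
  have h1 := H (pol h k a * pol h k b) (by
    have := natDegree_mul_le (p := pol h k a) (q := pol h k b)
    have := pol_deg h k a
    have := pol_deg h k b
    omega) ((2 ^ h : ℕ) : ℚ)
  simp only [eval_mul, pol_eval, ev_pow, Nat.mod_eq_of_lt ha, Nat.mod_eq_of_lt hb] at h1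
  exact_mod_cast h1

section
variable [hC : Fact CoreStmt]

theorem cc_ev (j k : ℕ) {l : α → List β} (hl : CC l S) : ∀ {f : α → ℕ}, CC f S →
    CC (fun a => ev j (l a).length k (f a)) S := by
  induction k with
  | zero => intro f hf; exact CC.const 0
  | succ k ih => intro f hf; exact (cc_low hf hl).add (cc_cmul j (ih (cc_shr hf hl)))

theorem cc_prod (s : Finset ℕ) {l : α → List β} (hl : CC l S) : ∀ {f : α → ℤ}, CC f S →
    CC (fun a => f a * ∏ m ∈ s, ((2 : ℤ) ^ (l a).length - m)) S := by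
  induction s using Finset.induction_on with
  | empty => intro f hf; exact hf.of_eq (fun a => by simp)
  | insert m s hm ih =>
    intro f hf
    exact (ih ((cc_ishl hf hl).isub (cc_icmul m hf))).of_eq (fun a => by
      rw [Finset.prod_insert hm]; ring)

end

/-- linear bounds -/
def LB (g : α → ℕ) : Prop := ∃ C, ∀ a, g a ≤ C * sz a

theorem LB.lin {f : β → γ} (hf : Lin f) {u : α → β} (hu : LB (fun a => sz (u a))) :
    LB (fun a => sz (f (u a))) := by
  obtain ⟨c, hc⟩ := hf.szb
  obtain ⟨C, hu⟩ := hu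
  refine ⟨c * (C + 1), fun a => (hc (u a) 0 trivial).trans ?_⟩
  have h1 := hu a
  have h2 := sz_pos a
  rw [mul_assoc]
  exact Nat.mul_le_mul_left _ (by simp only at h1; nlinarith)

theorem LB.pair {u : α → β} {v : α → γ} (hu : LB (fun a => sz (u a))) (hv : LB (fun a => sz (v a))) :
    LB (fun a => sz (u a, v a)) := by
  obtain ⟨C, hu⟩ := hu
  obtain ⟨D, hv⟩ := hv
  refine ⟨C + D + 1, fun a => ?_⟩
  have h1 := hu a
  have h2 := hv a
  have h3 := sz_pos a
  simp only [sz_pair] at *
  nlinarith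

theorem LB.unif (g : ℕ → α → ℕ) (n : ℕ) (h : ∀ i < n, LB (g i)) :
    ∃ C, ∀ i < n, ∀ a, g i a ≤ C * sz a := by
  choose! C hC using h
  refine ⟨∑ i ∈ Finset.range n, C i, fun i hi a => (hC i hi a).trans ?_⟩
  exact Nat.mul_le_mul_right _ (Finset.single_le_sum (f := C) (fun _ _ => Nat.zero_le _)
    (Finset.mem_range.2 hi))

theorem sz_mul_le (y : ℕ × ℕ) : sz (y.1 * y.2) ≤ 4 * sz y := by
  have h1 := sz_nat_le (y.1 * y.2)
  have h2 := size_mul_le y.1 y.2
  have h3 := size_le_sz y.1
  have h4 := size_le_sz y.2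
  have h5 : sz y = sz y.1 + sz y.2 + 1 := sz_pair _ _
  omega

/-! ### the recursion -/

def sm (a : ℕ × ℕ) : ℕ := a.1.size + a.2.size
def hl (k : ℕ) (a : ℕ × ℕ) : List Unit :=
  () :: List.replicate (chunks (List.replicate k ()).length (a.1.bits ++ a.2.bits)).length ()
theorem hl_length (k : ℕ) (a : ℕ × ℕ) : (hl k a).length = sm a / k + 1 := by
  simp [hl, chunks, sm, Nat.size_eq_bits_len]

def targ (k i : ℕ) (s : (ℕ × ℕ) × ℤ) : ℕ × ℕ :=
  (ev i (hl k s.1).length k s.1.1, ev i (hl k s.1).length k s.1.2)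
def tpost (k : ℕ) (e : ℕ → ℤ) (i : ℕ) (x : ((ℕ × ℕ) × ℤ) × ℕ) : (ℕ × ℕ) × ℤ :=
  (x.1.1, x.1.2 + e i * ((x.2 : ℤ) *
    ∏ m ∈ (Finset.range (2 * k + 1)).erase i, ((2 : ℤ) ^ (hl k x.1.1).length - m)))

theorem rst_toom (k : ℕ) (e : ℕ → ℤ) (a : ℕ × ℕ) (i : ℕ) :
    rst (fun a => (a, (0 : ℤ))) (targ k) (tpost k e) (fun y : ℕ × ℕ => y.1 * y.2) a i =
      (a, ∑ j ∈ Finset.range i, e j * (((ev j (hl k a).length k a.1 * ev j (hl k a).length k a.2 : ℕ) : ℤ) *
        ∏ m ∈ (Finset.range (2 * k + 1)).erase j, ((2 : ℤ) ^ (hl k a).length - m))) := by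
  induction i with
  | zero => simp [rst]
  | succ i ih => rw [rst, ih, Finset.sum_range_succ]; rfl

theorem sm_le_sz (a : ℕ × ℕ) : sm a + 1 ≤ sz a := by
  have h3 := size_le_sz a.1
  have h4 := size_le_sz a.2
  have h5 : sz a = sz a.1 + sz a.2 + 1 := sz_pair _ _
  unfold sm; omega
theorem sz_le_sm (a : ℕ × ℕ) : sz a ≤ 9 * (sm a + 1) := by
  have h3 := sz_nat_le a.1
  have h4 := sz_nat_le a.2
  have h5 : sz a = sz a.1 + sz a.2 + 1 := sz_pair _ _
  unfold sm; omega

theorem size_ev (k i h a : ℕ) (hi : i < 2 * k + 1) :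
    (ev i h k a).size ≤ h + ((2 * k + 1) ^ k).size := by
  rw [Nat.size_le, pow_add]
  refine (ev_le i h k a).trans_lt ?_
  have h1 : (i + 1) ^ k ≤ (2 * k + 1) ^ k := Nat.pow_le_pow_left (by omega) k
  exact Nat.mul_lt_mul_of_pos_left (h1.trans_lt (Nat.lt_size_self _)) (by positivity)

theorem exists_k {γ : ℝ} (hγ : 0 < γ) : ∃ k : ℕ, 4 ≤ k ∧
    (2 * k + 1 : ℝ) * (3 / k) ^ (1 + γ) ≤ 1 / 2 := by
  obtain ⟨k, hk⟩ := exists_nat_ge (max 4 (3 * (18 : ℝ) ^ (1 / γ)))
  have h4 : (4 : ℝ) ≤ k := (le_max_left _ _).trans hk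
  have h5 : 3 * (18 : ℝ) ^ (1 / γ) ≤ k := (le_max_right _ _).trans hk
  refine ⟨k, by exact_mod_cast h4, ?_⟩
  have hp : (0 : ℝ) < (18 : ℝ) ^ (1 / γ) := by positivity
  have h6 : (3 / k : ℝ) ≤ ((18 : ℝ) ^ (1 / γ))⁻¹ := by
    rw [div_le_iff₀ (by linarith), inv_mul_eq_div, le_div_iff₀ hp]; linarith
  have h7 : (3 / k : ℝ) ^ γ ≤ 1 / 18 := by
    refine (Real.rpow_le_rpow (by positivity) h6 hγ.le).trans_eq ?_
    rw [Real.inv_rpow hp.le, ← Real.rpow_mul (by norm_num), one_div_mul_cancel hγ.ne', Real.rpow_one]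
    norm_num
  rw [Real.rpow_add (by positivity), Real.rpow_one]
  have h8 : (2 * k + 1 : ℝ) * (3 / k) ≤ 9 := by
    rw [← mul_div_assoc, div_le_iff₀ (by linarith)]; linarith
  have h9 : (0 : ℝ) ≤ (3 / k : ℝ) ^ γ := by positivity
  calc _ = ((2 * k + 1 : ℝ) * (3 / k)) * (3 / k : ℝ) ^ γ := by ring
    _ ≤ 9 * (1 / 18) := by gcongr
    _ = 1 / 2 := by norm_num

section
variable [hC : Fact CoreStmt]

theorem lin_hl (k : ℕ) : Lin (hl k) := by
  unfold hl
  exact (CC.const ()).cons (cc_repl () (cc_chunks (CC.const _) (by fun_prop)))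

theorem lin_targ (k i : ℕ) : Lin (targ k i) := by
  have h : Lin (fun s : (ℕ × ℕ) × ℤ => hl k s.1) := CC.comp (lin_hl k) (by fun_prop)
  exact (cc_ev i k h (by fun_prop)).pair (cc_ev i k h (by fun_prop))

theorem lin_tpost (k : ℕ) (e : ℕ → ℤ) (i : ℕ) : Lin (tpost k e i) := by
  have h : Lin (fun x : ((ℕ × ℕ) × ℤ) × ℕ => hl k x.1.1) := CC.comp (lin_hl k) (by fun_prop)
  exact CC.pair (by fun_prop) (CC.iadd (by fun_prop) (cc_icmul _ (cc_prod _ h (by fun_prop))))

theorem ql_mul (hR : RecStmt) : QL (fun x : ℕ × ℕ => x.1 * x.2) := by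
  intro γ hγ
  obtain ⟨k, hk4, hk⟩ := exists_k hγ
  obtain ⟨D, e, hD, hT⟩ := toom k
  obtain ⟨kk, hkk⟩ := CC.ofPT (f := fun x : ℕ × ℕ => x.1 * x.2) (by fun_prop)
  set c0 := ((2 * k + 1) ^ k).size with hc0
  set s0 := k * (2 * c0 + 3) with hs0
  set n := 2 * k + 1 with hn
  set F : ℕ × ℕ → ℕ := fun y => y.1 * y.2 with hF
  set init : ℕ × ℕ → (ℕ × ℕ) × ℤ := fun a => (a, (0 : ℤ)) with hinit
  have hi : Lin init := by simp only [hinit]; fun_prop
  have hFl : ∀ u : ℕ × ℕ → ℕ × ℕ, LB (fun a => sz (u a)) → LB (fun a => sz (F (u a))) := by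
    rintro u ⟨C, h⟩
    exact ⟨4 * C, fun a => (sz_mul_le _).trans (by have := h a; simp only at this; nlinarith)⟩
  have hr : ∀ i, LB (fun a => sz (rst init (targ k) (tpost k e) F a i)) := by
    intro i
    induction i with
    | zero => exact LB.lin hi (u := fun a => a) ⟨1, fun a => by simp⟩
    | succ i ih => exact LB.lin (lin_tpost k e i) (ih.pair (hFl _ (LB.lin (lin_targ k i) ih)))
  obtain ⟨C1, hC1⟩ := LB.unif _ (n + 1) (fun i _ => hr i)
  obtain ⟨C2, hC2⟩ := LB.unif _ n (fun i _ => LB.lin (lin_targ k i) (hr i))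
  set C := (9 * (2 * s0 + 1)) ^ kk + 2 * (9 * (C1 + 4 * C2) + n * (9 * C2 + 2)) with hC
  have main : CC F (fun a T => (C : ℝ) * (sm a + 1 : ℝ) ^ (1 + γ) ≤ T) := by
    refine hR n (fun a => decide (a.1 < 2 ^ s0 ∧ a.2 < 2 ^ s0)) F init (fun s => s.2.toNat / D)
      (targ k) (tpost k e) F (fun _ _ => True) (fun a T => sz a ^ kk ≤ T) (fun _ _ => True)
      (fun _ _ => True) (fun _ _ _ => True) (fun _ _ _ => True) (by fun_prop) hkk hi
      (cc_cdiv hD (by fun_prop)) (fun i _ => lin_targ k i) (fun i _ => lin_tpost k e i) _ sm ?_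
    intro a T hS
    have hx1 : (1 : ℝ) ≤ sm a + 1 := by have : (0 : ℝ) ≤ sm a := by positivity
                                        linarith
    have hx : (sm a + 1 : ℝ) ≤ (sm a + 1 : ℝ) ^ (1 + γ) := by
      conv_lhs => rw [← Real.rpow_one (sm a + 1 : ℝ)]
      exact Real.rpow_le_rpow_of_exponent_le hx1 (by linarith)
    refine ⟨trivial, fun hb => ⟨?_, rfl⟩, fun hb => ⟨?_, ?_⟩⟩
    · simp only [decide_eq_true_eq, ← Nat.size_le] at hb
      have h1 : sz a ≤ 9 * (2 * s0 + 1) := (sz_le_sm a).trans (by unfold sm; omega)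
      have h2 : (C : ℝ) ≤ T := le_trans (le_mul_of_one_le_right (by positivity) (hx1.trans hx)) hS
      have h3 : C ≤ T := by exact_mod_cast h2
      have := Nat.pow_le_pow_left h1 kk
      omega
    · rw [rst_toom]
      have hk0 : 0 < k := by omega
      have h1 : sm a ≤ (hl k a).length * k := by
        rw [hl_length]; have := Nat.lt_div_mul_add (a := sm a) hk0; nlinarith
      rw [← hT _ a.1 a.2 (Nat.size_le.1 (by unfold sm at h1; omega))
        (Nat.size_le.1 (by unfold sm at h1; omega))]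
      have : ((D : ℤ) * (a.1 * a.2)).toNat = D * (a.1 * a.2) := by
        rw [← Nat.cast_mul, ← Nat.cast_mul, Int.toNat_natCast]
      simp only [this, Nat.mul_div_cancel_left _ hD, hF]
    · have hs : s0 ≤ sm a := by
        simp only [decide_eq_false_iff_not, ← Nat.size_le] at hb
        unfold sm; omega
      have hsm : ∀ i < n, k * (sm (targ k i (rst init (targ k) (tpost k e) F a i)) + 1) ≤
          3 * (sm a + 1) := by
        intro i hi
        rw [rst_toom]
        have h1 := size_ev k i (hl k a).length a.1 hi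
        have h2 := size_ev k i (hl k a).length a.2 hi
        have h3 : sm (targ k i (a, ∑ j ∈ Finset.range i, e j *
            (((ev j (hl k a).length k a.1 * ev j (hl k a).length k a.2 : ℕ) : ℤ) *
            ∏ m ∈ (Finset.range (2 * k + 1)).erase j, ((2 : ℤ) ^ (hl k a).length - m)))) + 1 ≤
            2 * (sm a / k) + (2 * c0 + 3) := by
          rw [hl_length] at h1 h2
          simp only [sm, targ, hl_length] at h1 h2 ⊢
          omega
        have h4 := Nat.mul_div_le (sm a) k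
        nlinarith [Nat.mul_le_mul_left k h3]
      refine ⟨(C1 + 4 * C2) * sz a, fun i => ⌈(C : ℝ) *
        (sm (targ k i (rst init (targ k) (tpost k e) F a i)) + 1 : ℝ) ^ (1 + γ)⌉₊, trivial, trivial,
        trivial, fun i hi => (hC1 i (by omega) a).trans (by nlinarith), fun i hi =>
        ⟨trivial, trivial, (sz_mul_le _).trans (by have := hC2 i hi a; nlinarith), Nat.le_ceil _, ?_⟩,
        ?_⟩
      · have h1 := hsm i hi
        have h2 : 12 ≤ s0 := by nlinarith
        nlinarith [Nat.mul_le_mul_right (sm (targ k i (rst init (targ k) (tpost k e) F a i)) + 1) hk4]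
      · have hk0 : (0 : ℝ) < k := by exact_mod_cast (by omega : 0 < k)
        have hsz : (sz a : ℝ) ≤ 9 * (sm a + 1) := by exact_mod_cast sz_le_sm a
        have h1 : ∀ i ∈ Finset.range n, ((⌈(C : ℝ) *
            (sm (targ k i (rst init (targ k) (tpost k e) F a i)) + 1 : ℝ) ^ (1 + γ)⌉₊ +
            sz (targ k i (rst init (targ k) (tpost k e) F a i)) + 1 : ℕ) : ℝ) ≤
            C * ((3 / k) ^ (1 + γ) * (sm a + 1 : ℝ) ^ (1 + γ)) + (9 * C2 + 2) * (sm a + 1) := by
          intro i hi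
          have hi' := Finset.mem_range.1 hi
          have h2 : (sm (targ k i (rst init (targ k) (tpost k e) F a i)) + 1 : ℝ) ≤
              3 / k * (sm a + 1) := by
            rw [div_mul_eq_mul_div, le_div_iff₀ hk0, mul_comm]
            exact_mod_cast hsm i hi'
          have h3 := Real.rpow_le_rpow (by positivity) h2 (show 0 ≤ 1 + γ by linarith)
          rw [Real.mul_rpow (by positivity) (by positivity)] at h3
          have h4 := Nat.ceil_lt_add_one (show 0 ≤ (C : ℝ) *
            (sm (targ k i (rst init (targ k) (tpost k e) F a i)) + 1 : ℝ) ^ (1 + γ) by positivity)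
          have h5 : (sz (targ k i (rst init (targ k) (tpost k e) F a i)) : ℝ) ≤ C2 * sz a := by
            exact_mod_cast hC2 i hi' a
          have h6 := mul_le_mul_of_nonneg_left h3 (show (0 : ℝ) ≤ C by positivity)
          have h7 := mul_le_mul_of_nonneg_left hsz (show (0 : ℝ) ≤ C2 by positivity)
          push_cast
          nlinarith
        have h2 := Finset.sum_le_card_nsmul _ _ _ h1
        rw [Finset.card_range, nsmul_eq_mul, ← Nat.cast_sum] at h2
        have h3 : (n : ℝ) * (3 / k) ^ (1 + γ) ≤ 1 / 2 := by simpa [hn] using hk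
        have h4 : 2 * (9 * (C1 + 4 * C2) + n * (9 * C2 + 2) : ℝ) ≤ C := by
          have : 2 * (9 * (C1 + 4 * C2) + n * (9 * C2 + 2)) ≤ C := by omega
          exact_mod_cast this
        have h5 := mul_le_mul_of_nonneg_left hsz (show (0 : ℝ) ≤ C1 + 4 * C2 by positivity)
        have h6 : (0 : ℝ) ≤ C * (sm a + 1 : ℝ) ^ (1 + γ) := by positivity
        have h7 := mul_le_mul_of_nonneg_left h3 h6
        have h8 := mul_le_mul h4 hx (by positivity) (by positivity)
        rw [← Nat.cast_le (α := ℝ), Nat.cast_add]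
        refine le_trans ?_ hS
        push_cast at h2 ⊢
        nlinarith
  refine main.mono' C (fun a T hT' => ⟨C * T, ?_, by nlinarith⟩)
  have h1 : (sm a + 1 : ℝ) ≤ sz a := by exact_mod_cast sm_le_sz a
  have h2 := Real.rpow_le_rpow (by positivity) h1 (show 0 ≤ 1 + γ by linarith)
  push_cast
  exact mul_le_mul_of_nonneg_left (h2.trans hT') (by positivity)

theorem ql_imul (hR : RecStmt) : QL (fun x : ℤ × ℤ => x.1 * x.2) := by
  intro γ hγ
  have h1 := (ql_mul hR γ hγ).comp3 (f := fun x : ℤ × ℤ => (x.1.natAbs, x.2.natAbs))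
    (S := fun a T => (sz a : ℝ) ^ (1 + γ) ≤ T) (by fun_prop) 1 (fun x T hT => ⟨T, by
      refine le_trans (Real.rpow_le_rpow (by positivity) ?_ (by linarith)) hT
      have key : ∀ z : ℤ, sz z.natAbs ≤ sz z := fun z => by
        have e : sz z = sz z.toNat + sz (-z).toNat + 1 := sz_pair z.toNat (-z).toNat
        rcases le_total 0 z with h | h
        · rw [show z.natAbs = z.toNat by omega]; omega
        · rw [show z.natAbs = (-z).toNat by omega]; omega
      have e1 : sz x = sz x.1 + sz x.2 + 1 := sz_pair _ _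
      have := key x.1
      have := key x.2
      rw [sz_pair]
      exact_mod_cast (by omega), by omega⟩)
  have h2 : CC (fun x : ℤ × ℤ => Bool.xor (decide (x.1 < 0)) (decide (x.2 < 0)))
      (fun a T => (sz a : ℝ) ^ (1 + γ) ≤ T) := by fun_prop
  refine (h2.cond h1.natCast.neg h1.natCast).of_eq (fun x => ?_)
  obtain ⟨a, b⟩ := x
  simp only [Nat.cast_mul, Int.natCast_natAbs]
  by_cases ha : a < 0 <;> by_cases hb : b < 0
  · simp [ha, hb, abs_of_neg]
  · simp [ha, hb, abs_of_neg, abs_of_nonneg (not_lt.1 hb)]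
  · simp [ha, hb, abs_of_neg, abs_of_nonneg (not_lt.1 ha)]
  · simp [ha, hb, abs_of_nonneg (not_lt.1 ha), abs_of_nonneg (not_lt.1 hb)]

end

theorem numStmt (hC : CoreStmt) (hR : RecStmt) : NumStmt := by
  haveI : Fact CoreStmt := ⟨hC⟩
  exact
  { add := by fun_prop
    sub := by fun_prop
    lt := by fun_prop
    xor := cc_xor (by fun_prop) (by fun_prop)
    bodd := by fun_prop
    shl := cc_shl (by fun_prop) (by fun_prop)
    shr := cc_shr (by fun_prop) (by fun_prop)
    low := cc_low (by fun_prop) (by fun_prop)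
    modM := cc_modM
    ofBits := cc_ob CC.id'
    toBits := cc_tb (by fun_prop) (by fun_prop)
    mul := ql_mul hR
    iadd := by fun_prop
    isub := by fun_prop
    ilt := by fun_prop
    cast := by fun_prop
    toNat := by fun_prop
    ishr := cc_ishr (by fun_prop) (by fun_prop)
    imul := ql_imul hR }

end Crest.Agent.H4.IM
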