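import Crest.Agent.Lead.IMCop

set_option autoImplicit false
set_option linter.unusedSectionVars false
set_option linter.unusedVariables false
set_option linter.unusedSimpArgs false

/-! Row 326: the choice of the parameters. -/

namespace Crest.Agent.H4.IM
open Crest.Agent.H9.IM

theorem cost_bound (E k l K B : ℕ) (hE : (E : ℝ) = 2 ^ 42) (h1 : B ^ E ≤ l) (h2 : l < (B + 1) ^ E)
    (h3 : K + 1 ≤ l) (h4 : K * (B + 1) ≤ 2 * l) (h5 : 2 ≤ l) (h6 : 1 ≤ B) :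
    ((l ^ (4 * k) : ℕ) : ℝ) * (((l ^ 3 : ℕ) : ℝ) + 1) ^ (1 + gam) *
      (((K : ℝ) + 1) ^ th * ((B : ℝ) + 1) ^ 2 + K * ((B : ℝ) + 1) ^ th + 1) +
      ((l ^ 4 : ℕ) : ℝ) ^ k + ((((l ^ (4 * k) : ℕ) : ℝ) + 1) * (((l ^ 3 : ℕ) : ℝ) + 1)) ^
        (1 + 1 / (2 * (4 * (k : ℝ) + 5))) ≤
      19 * ((l ^ 3 * l ^ (4 * k) : ℕ) : ℝ) * (l : ℝ) ^ (1 - 1 / (2 : ℝ) ^ 182) := by
  have hL : (2 : ℝ) ≤ l := by exact_mod_cast h5
  have hL1 : (1 : ℝ) ≤ l := by linarith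
  have hL0 : (0 : ℝ) < l := by linarith
  have hB1 : (1 : ℝ) ≤ B := by exact_mod_cast h6
  have hE0 : E ≠ 0 := by rintro rfl; norm_num at hE
  have hEi : ((E : ℝ))⁻¹ = 1 / 2 ^ 42 := by rw [hE]; norm_num
  have b1 : (B : ℝ) ≤ (l : ℝ) ^ (1 / 2 ^ 42 : ℝ) := by
    have : ((B : ℝ) ^ E) ^ ((E : ℝ))⁻¹ ≤ (l : ℝ) ^ ((E : ℝ))⁻¹ :=
      Real.rpow_le_rpow (by positivity) (by exact_mod_cast h1) (by positivity)
    rwa [Real.pow_rpow_inv_natCast (by positivity) hE0, hEi] at this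
  have b2 : (l : ℝ) ^ (1 / 2 ^ 42 : ℝ) ≤ (B : ℝ) + 1 := by
    have : (l : ℝ) ^ ((E : ℝ))⁻¹ ≤ (((B : ℝ) + 1) ^ E) ^ ((E : ℝ))⁻¹ :=
      Real.rpow_le_rpow (by positivity) (by exact_mod_cast h2.le) (by positivity)
    rwa [Real.pow_rpow_inv_natCast (by positivity) hE0, hEi] at this
  have mono : ∀ x y : ℝ, x ≤ y → (l : ℝ) ^ x ≤ (l : ℝ) ^ y := fun x y h =>
    Real.rpow_le_rpow_of_exponent_le hL1 h
  have x1 : ((K : ℝ) + 1) ^ th * ((B : ℝ) + 1) ^ 2 ≤ 4 * (l : ℝ) ^ (1 - 1 / 2 ^ 82 : ℝ) := by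
    have a1 : ((K : ℝ) + 1) ^ th ≤ (l : ℝ) ^ th :=
      Real.rpow_le_rpow (by positivity) (by exact_mod_cast h3) (by unfold th; norm_num)
    have a2 : ((B : ℝ) + 1) ^ 2 ≤ (2 * (l : ℝ) ^ (1 / 2 ^ 42 : ℝ)) ^ 2 :=
      pow_le_pow_left₀ (by positivity) (by linarith) 2
    calc _ ≤ (l : ℝ) ^ th * (2 * (l : ℝ) ^ (1 / 2 ^ 42 : ℝ)) ^ 2 := by gcongr
      _ = 4 * (l : ℝ) ^ (th + (1 / 2 ^ 42 + 1 / 2 ^ 42)) := by
        rw [Real.rpow_add hL0, Real.rpow_add hL0]; ring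
      _ ≤ _ := by
        have := mono (th + (1 / 2 ^ 42 + 1 / 2 ^ 42)) (1 - 1 / 2 ^ 82) (by unfold th; norm_num)
        linarith
  have x2 : (K : ℝ) * ((B : ℝ) + 1) ^ th ≤ 2 * (l : ℝ) ^ (1 - 1 / 2 ^ 82 : ℝ) := by
    have a1 : ((B : ℝ) + 1) ^ th = (B + 1) * ((B : ℝ) + 1) ^ (-(1 / 2 ^ 40) : ℝ) := by
      rw [th, sub_eq_add_neg, Real.rpow_add (by positivity), Real.rpow_one]
    have a2 : ((B : ℝ) + 1) ^ (-(1 / 2 ^ 40) : ℝ) ≤ (l : ℝ) ^ (-(1 / 2 ^ 82) : ℝ) := by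
      refine (Real.rpow_le_rpow_of_nonpos (by positivity) b2 (by norm_num)).trans_eq ?_
      rw [← Real.rpow_mul hL0.le]; norm_num
    have a3 : (K : ℝ) * (B + 1) ≤ 2 * l := by exact_mod_cast h4
    rw [a1, ← mul_assoc, sub_eq_add_neg, Real.rpow_add hL0, Real.rpow_one, ← mul_assoc]
    gcongr
  have x3 : (1 : ℝ) ≤ (l : ℝ) ^ (1 - 1 / 2 ^ 82 : ℝ) := Real.one_le_rpow hL1 (by norm_num)
  have hb1 : (1 : ℝ) ≤ (l : ℝ) ^ 3 := one_le_pow₀ hL1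
  have hV1 : (1 : ℝ) ≤ (l : ℝ) ^ (4 * k) := one_le_pow₀ hL1
  have hb4 : (l : ℝ) ^ 3 + 1 ≤ (l : ℝ) ^ 4 := by rw [pow_succ (l : ℝ) 3]; nlinarith
  have y1 : ((l : ℝ) ^ 3 + 1) ^ (1 + gam) ≤ 2 * (l : ℝ) ^ 3 * (l : ℝ) ^ (4 * gam) := by
    rw [Real.rpow_add (by positivity), Real.rpow_one]
    have a1 : ((l : ℝ) ^ 3 + 1) ^ gam ≤ ((l : ℝ) ^ 4) ^ gam :=
      Real.rpow_le_rpow (by positivity) hb4 (by unfold gam; positivity)
    rw [← Real.rpow_natCast (l : ℝ) 4, ← Real.rpow_mul hL0.le] at a1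
    exact mul_le_mul (by linarith) (by exact_mod_cast a1) (by positivity) (by positivity)
  set Z := (l : ℝ) ^ (1 - 1 / (2 : ℝ) ^ 182) with hZ
  have hZ1 : 1 ≤ Z := Real.one_le_rpow hL1 (by norm_num)
  have y2 : (l : ℝ) ^ (4 * gam) * (l : ℝ) ^ (1 - 1 / 2 ^ 82 : ℝ) ≤ Z := by
    rw [← Real.rpow_add hL0]
    exact mono _ _ (by unfold gam; norm_num)
  have t3 : (((l : ℝ) ^ (4 * k) + 1) * ((l : ℝ) ^ 3 + 1)) ^ (1 + 1 / (2 * (4 * (k : ℝ) + 5))) ≤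
      4 * ((l : ℝ) ^ 3 * (l : ℝ) ^ (4 * k)) * Z := by
    rw [Real.rpow_add (by positivity), Real.rpow_one]
    have a0 : (l : ℝ) ^ (4 * k) + 1 ≤ (l : ℝ) ^ (4 * k + 1) := by rw [pow_succ]; nlinarith
    have a1 : ((l : ℝ) ^ (4 * k) + 1) * ((l : ℝ) ^ 3 + 1) ≤ (l : ℝ) ^ (4 * k + 5) := by
      rw [show 4 * k + 5 = 4 * k + 1 + 4 by ring, pow_add]
      gcongr
    have a2 := Real.rpow_le_rpow (by positivity) a1
      (show (0 : ℝ) ≤ 1 / (2 * (4 * (k : ℝ) + 5)) by positivity)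
    rw [← Real.rpow_natCast (l : ℝ) (4 * k + 5), ← Real.rpow_mul hL0.le] at a2
    have a3 : ((4 * k + 5 : ℕ) : ℝ) * (1 / (2 * (4 * (k : ℝ) + 5))) = 1 / 2 := by
      push_cast; field_simp
    rw [a3] at a2
    exact mul_le_mul (by nlinarith) (a2.trans (mono _ _ (by norm_num))) (by positivity)
      (by positivity)
  push_cast
  have t1 : (l : ℝ) ^ (4 * k) * ((l : ℝ) ^ 3 + 1) ^ (1 + gam) *
      (((K : ℝ) + 1) ^ th * ((B : ℝ) + 1) ^ 2 + K * ((B : ℝ) + 1) ^ th + 1) ≤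
      14 * ((l : ℝ) ^ 3 * (l : ℝ) ^ (4 * k)) * Z := by
    calc _ ≤ (l : ℝ) ^ (4 * k) * (2 * (l : ℝ) ^ 3 * (l : ℝ) ^ (4 * gam)) *
          (7 * (l : ℝ) ^ (1 - 1 / 2 ^ 82 : ℝ)) := by gcongr; linarith
      _ = 14 * ((l : ℝ) ^ 3 * (l : ℝ) ^ (4 * k)) *
          ((l : ℝ) ^ (4 * gam) * (l : ℝ) ^ (1 - 1 / 2 ^ 82 : ℝ)) := by ring
      _ ≤ _ := by gcongr
  have t2 : ((l : ℝ) ^ 4) ^ k ≤ ((l : ℝ) ^ 3 * (l : ℝ) ^ (4 * k)) * Z := by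
    rw [← pow_mul]
    calc (l : ℝ) ^ (4 * k) = 1 * (l : ℝ) ^ (4 * k) * 1 := by ring
      _ ≤ _ := by gcongr
  linarith

theorem ev_quarter (a : ℕ) : ∃ l0 : ℕ, ∀ l ≥ l0, l ^ a ≤ 2 ^ (l / 4) := by
  obtain ⟨n0, h⟩ := Crest.Agent.Lead.IM.ev_pow (8 ^ a) a
  refine ⟨4 * n0 + 4, fun l hl => le_trans ?_ (h (l / 4) (by omega))⟩
  rw [← mul_pow]
  exact Nat.pow_le_pow_left (by omega) a

theorem par_facts (E k c j B0 : ℕ) (hE : 3 ≤ E) : ∃ l0 : ℕ, ∀ n l B W M ell K s : ℕ,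
    l = n.size → l0 ≤ l → B = Nat.nthRoot E l → W = l ^ 3 * l ^ (4 * k) → M = n / W + 1 →
    ell = (8 * M).size → K = ell / (B + 1) → s = ell - K * B →
    B0 ≤ B ∧ 1 ≤ B ∧ B ≤ K ∧ K ≤ s ∧ s ≤ K + B ∧ 2 ≤ K ∧ K ≤ (2 * B) ^ E ∧ s + B * K = ell ∧
    ell ≤ l + 3 ∧ K + 1 ≤ l ∧ K * (B + 1) ≤ 2 * l ∧ K * (ell + 1) * 8 ≤ 2 ^ ((B - 1) / 2) ∧
    c * (ell + 1) ^ 2 + (l ^ (4 * k)).size ≤ l ^ 3 ∧ (l ^ (4 * k)).size + 2 * ell + 1 ≤ l ^ 3 ∧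
    100 ≤ l ∧ W ≤ n ∧ ((2 ^ B + 1) * l ^ 4) ^ j ≤ n := by
  obtain ⟨l1, hl1⟩ := ev_quarter (3 + 4 * k)
  obtain ⟨l2, hl2⟩ := ev_quarter (4 * j)
  obtain ⟨n0, hn0⟩ := Crest.Agent.Lead.IM.ev_pow (16 * 8 ^ (2 * E)) (2 * E)
  refine ⟨(B0 + 2 * j + 2 * n0 + 3) ^ E + l1 + l2 + 100 + 4 * c + 4 * k, ?_⟩
  intro n l B W M ell K s hl hl0 hB hW hM hell hK hs
  have hE0 : E ≠ 0 := by omega
  have b0 : B0 + 2 * j + 2 * n0 + 3 ≤ B := by rw [hB, Nat.le_nthRoot_iff hE0]; omega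
  have b1 : B ^ E ≤ l := by rw [hB]; exact Nat.pow_nthRoot_le (Or.inl hE0)
  have b2 : l < (B + 1) ^ E := by rw [hB]; exact Nat.lt_pow_nthRoot_add_one hE0 l
  have b3 : l < (2 * B) ^ E := b2.trans_le (Nat.pow_le_pow_left (by omega) E)
  have b4 : B * B * B ≤ l := by
    calc B * B * B = B ^ 3 := by ring
      _ ≤ B ^ E := Nat.pow_le_pow_right (by omega) hE
      _ ≤ l := b1
  have b5 : B * B * 3 ≤ B * B * B := Nat.mul_le_mul_left _ (by omega)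
  have b6 : B * 3 ≤ B * B := Nat.mul_le_mul_left _ (by omega)
  have l100 : 100 + 4 * c + 4 * k ≤ l := by omega
  have n1 : n < 2 ^ l := hl ▸ Nat.lt_size_self n
  have n2 : 2 ^ (l - 1) ≤ n := Nat.lt_size.1 (by omega)
  have w1 : W ≤ 2 ^ (l / 4) := by rw [hW, ← pow_add]; exact hl1 l (by omega)
  have w2 : 2 ≤ W := by
    rw [hW, ← pow_add]
    calc 2 ≤ l ^ 1 := by simp; omega
      _ ≤ _ := Nat.pow_le_pow_right (by omega) (by omega)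
  have p1 : 2 ^ l = 2 * 2 ^ (l - 1) := by rw [← pow_succ']; congr 1; omega
  have p2 : 2 ≤ 2 ^ (l - 1) := by
    calc 2 = 2 ^ 1 := rfl
      _ ≤ _ := Nat.pow_le_pow_right (by omega) (by omega)
  have e1 : ell ≤ l + 3 := by
    rw [hell, Nat.size_le, pow_add]
    have := Nat.div_le_div_left (a := n) w2 (by norm_num)
    omega
  have e2 : l ≤ 2 * ell := by
    have a1 : 2 ^ (l - 1 - l / 4) ≤ n / W := by
      rw [Nat.le_div_iff_mul_le (by omega)]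
      calc _ ≤ 2 ^ (l - 1 - l / 4) * 2 ^ (l / 4) := Nat.mul_le_mul_left _ w1
        _ = 2 ^ (l - 1) := by rw [← pow_add]; congr 1; omega
        _ ≤ n := n2
    have a2 : l - 1 - l / 4 < ell := by rw [hell]; exact Nat.lt_size.2 (by omega)
    omega
  have k1 : K * (B + 1) ≤ ell := hK ▸ Nat.div_mul_le_self _ _
  have k2 : ell < K * (B + 1) + (B + 1) := hK ▸ Nat.lt_div_mul_add (by omega)
  have k3 : B ≤ K := by
    rw [hK, Nat.le_div_iff_mul_le (by omega)]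
    have c3 : B * (B + 1) = B * B + B := by ring
    omega
  have k4 : K * 2 ≤ K * (B + 1) := Nat.mul_le_mul_left _ (by omega)
  have k5 : K * (B + 1) = K * B + K := by ring
  have k6 : B * K = K * B := by ring
  have z1 : (l ^ (4 * k)).size ≤ 4 * k * l + 1 := by
    rw [Nat.size_le]
    calc l ^ (4 * k) ≤ (2 ^ l) ^ (4 * k) := Nat.pow_le_pow_left Nat.lt_two_pow_self.le _
      _ = 2 ^ (4 * k * l) := by rw [← pow_mul, mul_comm]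
      _ < _ := Nat.pow_lt_pow_right (by omega) (by omega)
  have z2 : 100 * (l * l) + 4 * (c * (l * l)) + 4 * (k * (l * l)) ≤ l ^ 3 := by
    calc _ = (100 + 4 * c + 4 * k) * (l * l) := by ring
      _ ≤ l * (l * l) := Nat.mul_le_mul_right _ l100
      _ = _ := by ring
  rw [mul_assoc 4 k l] at z1
  have z3 : l ≤ l * l := Nat.le_mul_self l
  have z4 : k * l ≤ k * (l * l) := Nat.mul_le_mul_left _ z3
  refine ⟨by omega, by omega, k3, by omega, by omega, by omega, by omega, by omega, e1, by omega,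
    by omega, ?_, ?_, by omega, by omega, w1.trans (le_trans (Nat.pow_le_pow_right (by omega)
      (by omega)) n2), ?_⟩
  · refine le_trans ?_ (hn0 ((B - 1) / 2) (by omega))
    have a1 : l ≤ (8 * ((B - 1) / 2)) ^ E := b3.le.trans (Nat.pow_le_pow_left (by omega) E)
    calc K * (ell + 1) * 8 ≤ l * (2 * l) * 8 :=
          Nat.mul_le_mul_right _ (Nat.mul_le_mul (by omega) (by omega))
      _ = 16 * (l * l) := by ring
      _ ≤ 16 * ((8 * ((B - 1) / 2)) ^ E * (8 * ((B - 1) / 2)) ^ E) :=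
          Nat.mul_le_mul_left _ (Nat.mul_le_mul a1 a1)
      _ = _ := by rw [← pow_add, ← two_mul, mul_pow, mul_assoc]
  · have a1 : (ell + 1) ^ 2 ≤ (2 * l) ^ 2 := Nat.pow_le_pow_left (by omega) 2
    have a2 := Nat.mul_le_mul_left c a1
    have a3 : c * (2 * l) ^ 2 = 4 * (c * (l * l)) := by ring
    omega
  · have a1 : 2 ^ B + 1 ≤ 2 ^ (B + 1) := by
      have : 0 < 2 ^ B := by positivity
      rw [pow_succ]; omega
    have a2 : (B + 1) * j * 2 ≤ l := by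
      have c1 : (B + 1) * (2 * j) ≤ (B + 1) * B := Nat.mul_le_mul_left _ (by omega)
      have c2 : (B + 1) * j * 2 = (B + 1) * (2 * j) := by ring
      have c3 : (B + 1) * B = B * B + B := by ring
      omega
    calc ((2 ^ B + 1) * l ^ 4) ^ j ≤ (2 ^ (B + 1) * l ^ 4) ^ j :=
          Nat.pow_le_pow_left (Nat.mul_le_mul_right _ a1) j
      _ = 2 ^ ((B + 1) * j) * l ^ (4 * j) := by rw [mul_pow, ← pow_mul, ← pow_mul]
      _ ≤ 2 ^ ((B + 1) * j) * 2 ^ (l / 4) := Nat.mul_le_mul_left _ (hl2 l (by omega))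
      _ ≤ 2 ^ (l - 1) := by
        rw [← pow_add]; exact Nat.pow_le_pow_right (by omega) (by omega)
      _ ≤ n := n2

end Crest.Agent.H4.IM
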