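import Crest.Agent.H5.IMDef

set_option autoImplicit false
set_option linter.unusedSectionVars false
set_option linter.unusedVariables false
set_option linter.unusedSimpArgs false

/-! Row 326: approximate implementation of the transform, generic passes. -/

namespace Crest.Agent.H4.IM
open Crest.Agent.H3.Ptime Crest.Agent.H9.IM Crest.Agent.H5.IM Function Finset

variable {α β γ : Type} [Enc α] [Enc β] [Enc γ]

@[fun_prop] theorem PT_getD {l : α → List β} {n : α → ℕ} {d : α → β} (hl : PT l) (hn : PT n)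
    (hd : PT d) : PT (fun a => (l a).getD (n a) (d a)) :=
  ((hl.drop hn).headD hd).of_eq (fun a => by
    rw [List.headD_eq_head?_getD, List.head?_drop, List.getD_eq_getElem?_getD])

theorem PT_nsum {e : α → ℕ} {f : α → ℕ → ℕ} (he : PT e) (hb : PB e)
    (hf : PT (fun p : α × ℕ => f p.1 (min p.2 (e p.1)))) :
    PT (fun a => ∑ i ∈ range (e a), f a i) :=
  (PT.finsum (f := fun a i => ((f a (min i (e a)) : ℕ) : ℤ)) he hb hf.natCast).toNat.of_eq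
    (fun a => by
      rw [← Nat.cast_sum, Int.toNat_natCast]
      exact sum_congr rfl (fun i hi => by rw [min_eq_left (mem_range.1 hi).le]))

theorem PB_fst {g : α → ℕ} (h : PB g) : PB (fun p : α × β => g p.1) := h.comp (by fun_prop)

theorem PT_rv {n x : α → ℕ} (hn : PT n) (hb : PB n) (hx : PT x) : PT (fun a => rv (n a) (x a)) := by
  unfold rv
  refine PT_nsum (f := fun a k => x a / 2 ^ k % 2 * 2 ^ (n a - 1 - k)) hn hb ?_
  have h1 : PT (fun p : α × ℕ => 2 ^ (min p.2 (n p.1))) :=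
    PT.pow (PT.const 2) (by fun_prop) (PB.min (PB_fst hb))
  have h2 : PT (fun p : α × ℕ => 2 ^ (n p.1 - 1 - min p.2 (n p.1))) :=
    PT.pow (PT.const 2) (by fun_prop) (PB.sub (PB.sub (PB_fst hb)))
  fun_prop

/-- truncated division -/
def idv (n : ℤ) (d : ℕ) : ℤ := ((n.toNat / d : ℕ) : ℤ) - (((-n).toNat / d : ℕ) : ℤ)

theorem nat_div_err (n d : ℕ) (hd : 0 < d) : |((n / d : ℕ) : ℝ) - (n : ℝ) / d| ≤ 1 := by
  have h1 : ((n / d : ℕ) : ℝ) ≤ (n : ℝ) / d := Nat.cast_div_le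
  have h2 : (n : ℝ) / d ≤ ((n / d : ℕ) : ℝ) + 1 := by
    rw [div_le_iff₀ (by positivity)]
    have := Nat.lt_div_mul_add (a := n) hd
    have h3 : (n : ℝ) ≤ ((n / d * d + d : ℕ) : ℝ) := by exact_mod_cast this.le
    push_cast at h3
    linarith
  rw [abs_le]; constructor <;> linarith

theorem idv_err (n : ℤ) (d : ℕ) (hd : 0 < d) : |((idv n d : ℤ) : ℝ) - (n : ℝ) / d| ≤ 1 := by
  unfold idv
  rcases le_total 0 n with h | h
  · obtain ⟨k, rfl⟩ := Int.eq_ofNat_of_zero_le h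
    have : (-(k : ℤ)).toNat = 0 := by omega
    rw [this, Int.toNat_natCast, Nat.zero_div]
    have := nat_div_err k d hd
    convert this using 2
    simp only [Nat.cast_zero, sub_zero, Int.cast_natCast]
  · obtain ⟨k, rfl⟩ : ∃ k : ℕ, n = -k := ⟨(-n).toNat, by omega⟩
    have : (-(k : ℤ)).toNat = 0 := by omega
    rw [this, neg_neg, Int.toNat_natCast, Nat.zero_div]
    have := nat_div_err k d hd
    rw [← abs_neg] at this
    convert this using 2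
    simp only [Nat.cast_zero, zero_sub, Int.cast_neg, Int.cast_natCast]
    ring

/-- coefficient data `(n, d, A, B)` -/
abbrev Cf := ℤ × ℕ × ℤ × ℕ

noncomputable def Cf.val (c : Cf) : ℂ := (c.1 : ℂ) / c.2.1 * ee ((c.2.2.1 : ℝ) / c.2.2.2)
def Cf.ok (g : ℕ) (c : Cf) : Prop := 0 < c.2.1 ∧ 0 < c.2.2.2 ∧ c.1.natAbs ≤ 2 ^ g * c.2.1

theorem norm_ee (x : ℝ) : ‖ee x‖ = 1 := by
  unfold ee
  have : (2 * Real.pi * x * Complex.I : ℂ) = ((2 * Real.pi * x : ℝ) : ℂ) * Complex.I := by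
    push_cast; ring
  rw [this, Complex.norm_exp_ofReal_mul_I]

theorem ee_zero : ee 0 = 1 := by simp [ee]

theorem Cf.coef_le {g : ℕ} {c : Cf} (h : c.ok g) : ‖(c.1 : ℂ) / c.2.1‖ ≤ 2 ^ g := by
  obtain ⟨h1, h2, h3⟩ := h
  rw [norm_div, Complex.norm_intCast, Complex.norm_natCast, div_le_iff₀ (by positivity)]
  have : ((c.1.natAbs : ℕ) : ℝ) ≤ ((2 ^ g * c.2.1 : ℕ) : ℝ) := by exact_mod_cast h3
  simpa [Nat.cast_natAbs] using this

def ap (rt : ℤ × ℕ × List Unit → ℤ × ℤ) (c : Cf) (p : List Unit) : ℤ × ℤ :=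
  (idv (c.1 * (rt (c.2.2.1, c.2.2.2, p)).1) c.2.1, idv (c.1 * (rt (c.2.2.1, c.2.2.2, p)).2) c.2.1)

theorem PT_ap {rt : ℤ × ℕ × List Unit → ℤ × ℤ} (h : PT rt) {c : α → Cf} {p : α → List Unit}
    (hc : PT c) (hp : PT p) : PT (fun a => ap rt (c a) (p a)) := by
  unfold ap idv
  fun_prop

theorem ap_err {rt : ℤ × ℕ × List Unit → ℤ × ℤ}
    (h : ∀ a b p, 0 < b → ‖toC p.length (rt (a, b, p)) - ee (a / b)‖ ≤ 2 / 2 ^ p.length)
    {g : ℕ} {c : Cf} (hc : c.ok g) (p : List Unit) :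
    ‖c.val‖ ≤ 2 ^ (g + 2) ∧ ‖toC p.length (ap rt c p) - c.val‖ ≤ 2 ^ (g + 2) / 2 ^ p.length := by
  have h0 := Cf.coef_le hc
  have hg : (1 : ℝ) ≤ 2 ^ g := one_le_pow₀ (by norm_num)
  refine ⟨?_, ?_⟩
  · rw [Cf.val, norm_mul, norm_ee, pow_add]; linarith
  · have h1 := h c.2.2.1 c.2.2.2 p hc.2.1
    generalize hr : rt (c.2.2.1, c.2.2.2, p) = r at h1
    have e1 := idv_err (c.1 * r.1) c.2.1 hc.1
    have e2 := idv_err (c.1 * r.2) c.2.1 hc.1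
    have hd : (c.2.1 : ℂ) ≠ 0 := by exact_mod_cast hc.1.ne'
    have e : toC p.length (ap rt c p) - c.val =
        ((((idv (c.1 * r.1) c.2.1 : ℤ) : ℝ) - ((c.1 * r.1 : ℤ) : ℝ) / c.2.1 : ℝ) +
          (((idv (c.1 * r.2) c.2.1 : ℤ) : ℝ) - ((c.1 * r.2 : ℤ) : ℝ) / c.2.1 : ℝ) * Complex.I) /
          2 ^ p.length + (c.1 : ℂ) / c.2.1 * (toC p.length r - ee ((c.2.2.1 : ℝ) / c.2.2.2)) := by
      simp only [ap, hr, toC, Cf.val]
      push_cast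
      field_simp
      ring
    rw [e]
    refine (norm_add_le _ _).trans ?_
    rw [norm_div, norm_mul]
    have e3 : ‖((((idv (c.1 * r.1) c.2.1 : ℤ) : ℝ) - ((c.1 * r.1 : ℤ) : ℝ) / c.2.1 : ℝ) : ℂ) +
          (((idv (c.1 * r.2) c.2.1 : ℤ) : ℝ) - ((c.1 * r.2 : ℤ) : ℝ) / c.2.1 : ℝ) * Complex.I‖ ≤ 2 := by
      refine (norm_add_le _ _).trans ?_
      rw [norm_mul, Complex.norm_I, Complex.norm_real, Complex.norm_real, Real.norm_eq_abs,
        Real.norm_eq_abs]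
      linarith
    have e4 : ‖(2 : ℂ) ^ p.length‖ = 2 ^ p.length := by simp
    rw [e4]
    have hp : (0 : ℝ) < 2 ^ p.length := by positivity
    calc _ ≤ (2 : ℝ) / 2 ^ p.length + 2 ^ g * (2 / 2 ^ p.length) := by gcongr
      _ = (2 + 2 * 2 ^ g) / 2 ^ p.length := by ring
      _ ≤ _ := by gcongr; rw [pow_add]; linarith

theorem xc_l2 (hE : ExecStmt) (hR : RootStmt) {Q : Type} [Enc Q] (m g : Q → ℕ) (c c' : Q × ℕ → Cf)
    (hm : PT m) (hc : PT c) (hc' : PT c') :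
    XC (fun q a i => (c (q, i)).val * a i + (c' (q, i)).val * a (i ^^^ m q))
      (fun q N => (∃ b, m q = 2 ^ b) ∧ 2 * m q ∣ N ∧ 0 < N ∧
        ∀ i < N, (c (q, i)).ok (g q) ∧ (c' (q, i)).ok (g q))
      (fun q => g q + 4) (fun _ => 0) (fun _ => 1) := by
  obtain ⟨rt, h1, h2⟩ := hR
  have h := hE.lin2 m (fun _ => 1) (fun _ => 1) (fun q => g q + 2) (fun _ => (0, 0))
    (fun x => (ap rt (c (x.1, x.2.2.1)) x.2.1, ap rt (c' (x.1, x.2.2.1)) x.2.1))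
    (fun q i => (c (q, i)).val) (fun q i => (c' (q, i)).val) hm (by fun_prop) (by fun_prop)
    (by fun_prop) ((PT_ap h1 (by fun_prop) (by fun_prop)).pair (PT_ap h1 (by fun_prop) (by fun_prop)))
  refine hE.mono h (fun q => q) _ _ _ _ _ 0 (by fun_prop) (fun q N ⟨a1, a2, a3, a4⟩ =>
    ⟨⟨a1, a2, one_pos, one_pos, by simp, a3, fun p y _ => by simp [toC], fun i hi => ?_⟩,
      fun _ _ _ => rfl, le_rfl, le_rfl, le_rfl, by simp⟩)
  exact ⟨(ap_err h2 (a4 i hi).1 []).1, (ap_err h2 (a4 i hi).2 []).1, fun p =>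
    ⟨(ap_err h2 (a4 i hi).1 p).2, (ap_err h2 (a4 i hi).2 p).2⟩⟩

/-! ### parameters -/

structure TF (q : TQ) : Prop where
  eD : q.1 = 2 ^ tB q
  eS : q.2.1 = 2 ^ ts q
  B1 : 1 ≤ tB q
  BK : tB q ≤ tK q
  Ks : tK q ≤ ts q
  sK : ts q ≤ tK q + tB q
  eN : tN q = 2 ^ (ts q + tB q * tK q)
  eL : Nat.log 2 (tN q) = ts q + tB q * tK q
  hQ : ∀ j < tK q, 0 < Qj q j ∧ Qj q j ≤ q.1
  big : tK q * (Nat.log 2 (tN q) + 1) * 8 ≤ 2 ^ ((tB q - 1) / 2)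

theorem TP.tf {q : TQ} (h : TP q) : TF q := by
  obtain ⟨B, s, h1, h2, h3, h4, h5, h6, h7, h8, h9, h10, h11⟩ := h
  have e1 : tB q = B := by simp [tB, h1, Nat.size_pow]
  have e2 : ts q = s := by simp [ts, h2, Nat.size_pow]
  have e3 : tN q = 2 ^ (s + B * tK q) := by rw [tN, h1, h2, pow_add, pow_mul]
  refine ⟨e1 ▸ h1, e2 ▸ h2, by omega, by omega, by omega, by omega, by rw [e1, e2, e3],
    by rw [e1, e2, e3, Nat.log_pow (by norm_num)], fun j hj => h8 _ ?_, e1 ▸ h11⟩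
  unfold Qj
  rw [List.getD_eq_getElem _ _ hj]
  exact List.getElem_mem _

theorem PT_tK : PT tK := by unfold tK; fun_prop
theorem PT_tB : PT tB := by unfold tB; fun_prop
theorem PT_ts : PT ts := by unfold ts; fun_prop
theorem PB_tK : PB tK := PB.length (l := fun q : TQ => q.2.2.1) (by fun_prop)
theorem PB_tB : PB tB := PB.sub (PB.natSize (f := fun q : TQ => q.1) (by fun_prop))
theorem PB_ts : PB ts := PB.sub (PB.natSize (f := fun q : TQ => q.2.1) (by fun_prop))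

theorem th_pos : 0 ≤ th := by unfold th; norm_num

theorem tX_ge (q : TQ) : (tK q : ℝ) + (tK q + 1 : ℝ) ^ th * (Nat.log 2 q.1 + 1) ^ 2 ≤ tX q := by
  unfold tX
  have h1 : (1 : ℝ) ≤ (Nat.log 2 q.1 + 1 : ℝ) ^ th :=
    Real.one_le_rpow (by have : (0 : ℝ) ≤ Nat.log 2 q.1 := by positivity
                         linarith) th_pos
  have h2 : (0 : ℝ) ≤ tK q := by positivity
  nlinarith

theorem tX_nonneg (q : TQ) : 0 ≤ tX q := le_trans (by positivity) (tX_ge q)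

theorem Std.mul (hE : ExecStmt) {E F : TQ → EE} (h1 : Std E) (h2 : Std F) :
    Std (fun q => E q * F q) := by
  obtain ⟨c, h1⟩ := h1
  obtain ⟨d, h2⟩ := h2
  refine ⟨d + c, hE.mono (hE.comp h1 h2) (fun q => q) _ _ _ _ _ 1 (by fun_prop) (fun q N h =>
    ⟨h, fun _ _ _ => rfl, by rw [add_mul], le_rfl, tX_nonneg q, by linarith⟩)⟩

/-- loop bodies -/
def Body (m : TQ → ℕ) (E : TQ → ℕ → EE) (Γ : TQ → ℕ) (X : TQ → ℝ) : Prop :=
  XC (fun (x : TQ × ℕ) a => E x.1 x.2 a) (fun x N => (TP x.1 ∧ N = tN x.1) ∧ x.2 < m x.1)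
    (fun x => Γ x.1) (fun x => X x.1) (fun x => x.1.1)

theorem Body.mul (hE : ExecStmt) {m : TQ → ℕ} {E F : TQ → ℕ → EE} {Γ Γ' : TQ → ℕ} {X : TQ → ℝ}
    (h1 : Body m E Γ X) (h2 : Body m F Γ' X) :
    Body m (fun q j => E q j * F q j) (fun q => Γ' q + Γ q) X :=
  hE.comp (E' := fun (x : TQ × ℕ) a => E x.1 x.2 a) (E := fun (x : TQ × ℕ) a => F x.1 x.2 a) h1 h2

theorem Body.rap (hE : ExecStmt) {m : TQ → ℕ} {E : TQ → ℕ → EE} {Γ : TQ → ℕ} {X : TQ → ℝ}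
    (h : Body m E Γ X) (hm : PT m) (hb : PB m) (c : ℕ)
    (hc : ∀ q, TF q → m q ≤ Nat.log 2 (tN q) + 1 ∧ Γ q ≤ c * (Nat.log 2 (tN q) + 1) ∧ 0 ≤ X q ∧
      m q * (X q + 1) ≤ 2 * (tX q + 1)) : Std (fun q => rap (m q) (E q)) := by
  have h1 := hE.loop (E := fun (x : TQ × ℕ) a => E x.1 x.2 a) (P := fun q N => TP q ∧ N = tN q)
    (Γ := Γ) (X := X) (Y := fun q => q.1) m hm hb h
  refine ⟨c, hE.mono h1 (fun q => q) _ _ _ _ _ 2 (by fun_prop) (fun q N hq => ?_)⟩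
  obtain ⟨a1, a2, a3, a4⟩ := hc q (TP.tf hq.1)
  refine ⟨⟨hq, a3⟩, fun a i _ => by rw [rap_apply], ?_, le_rfl, by positivity, a4⟩
  calc m q * Γ q ≤ (Nat.log 2 (tN q) + 1) * (c * (Nat.log 2 (tN q) + 1)) := Nat.mul_le_mul a1 a2
    _ = _ := by ring

theorem body_l2 (hE : ExecStmt) (hR : RootStmt) (m : TQ → ℕ) (E : TQ → ℕ → EE) (g : TQ → ℕ)
    (X : TQ → ℝ) (mm : TQ × ℕ → ℕ) (c c' : (TQ × ℕ) × ℕ → Cf) (hm : PT mm) (hc : PT c) (hc' : PT c')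
    (H : ∀ q j, TF q → j < m q → (∃ b, mm (q, j) = 2 ^ b ∧ b < ts q + tB q * tK q) ∧
      ∀ i, (c ((q, j), i)).ok (g q) ∧ (c' ((q, j), i)).ok (g q) ∧
        ∀ a, E q j a i = (c ((q, j), i)).val * a i + (c' ((q, j), i)).val * a (i ^^^ mm (q, j))) :
    Body m E (fun q => g q + 4) X := by
  refine hE.mono (xc_l2 hE hR mm (fun x => g x.1) c c' hm hc hc') (fun x => x) _ _ _ _ _ 0
    (by fun_prop) ?_
  rintro ⟨q, j⟩ N ⟨⟨hq, rfl⟩, hj⟩
  have hf : TF q := TP.tf hq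
  obtain ⟨⟨b, hb, hb'⟩, H2⟩ := H q j hf hj
  refine ⟨⟨⟨b, hb⟩, ?_, by rw [hf.eN]; positivity, fun i _ => ⟨(H2 i).1, (H2 i).2.1⟩⟩,
    fun a i _ => ((H2 i).2.2 a).symm, le_rfl, ?_, le_rfl, by simp⟩
  · rw [hb, hf.eN, ← pow_succ']
    exact pow_dvd_pow _ hb'
  · show 1 ≤ q.1
    rw [hf.eD]; exact Nat.one_le_two_pow

theorem body_dg (hE : ExecStmt) (hR : RootStmt) (m : TQ → ℕ) (φ : TQ → ℕ → ℕ → ℂ) (g : TQ → ℕ)
    (X : TQ → ℝ) (c : (TQ × ℕ) × ℕ → Cf) (hc : PT c)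
    (H : ∀ q j, TF q → j < m q → ∀ i, (c ((q, j), i)).ok (g q) ∧ φ q j i = (c ((q, j), i)).val) :
    Body m (fun q j => dgo (φ q j)) (fun q => g q + 4) X := by
  refine body_l2 hE hR m _ g X (fun _ => 1) c (fun _ => (0, 1, 0, 1)) (by fun_prop) hc (by fun_prop)
    (fun q j hf hj => ⟨⟨0, rfl, by have := hf.B1; have := hf.BK; have := hf.Ks; omega⟩, fun i =>
      ⟨(H q j hf hj i).1, by simp [Cf.ok], fun a => ?_⟩⟩)
  rw [dgo_apply, (H q j hf hj i).2]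
  simp [Cf.val]

theorem body_had (hE : ExecStmt) (m : TQ → ℕ) (pp : TQ × ℕ → ℕ) (hp : PT pp) (hb : PB pp)
    (P : TQ → ℕ → ℕ) (H : ∀ q j, TF q → j < m q → pp (q, j) = P q j ∧ P q j < tB q) :
    Body m (fun q j => HA q (P q j)) (fun q => tK q + 2)
      (fun q => (tK q + 1 : ℝ) ^ th * (Nat.log 2 q.1 + 1)) := by
  have h2 : PT (fun x : TQ × ℕ => 2 ^ pp x) := PT.pow (PT.const 2) hp hb
  refine hE.mono hE.had' (fun x : TQ × ℕ => (x.1.2.1 * 2 ^ pp x, x.1.1, x.1.2.2.1.map (fun _ => ())))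
    _ _ _ _ _ 1 (by fun_prop) ?_
  rintro ⟨q, j⟩ N ⟨⟨hq, rfl⟩, hj⟩
  have hf : TF q := TP.tf hq
  obtain ⟨e1, e2⟩ := H q j hf hj
  have hK : (q.2.2.1.map (fun _ => ())).length = tK q := by simp [tK]
  simp only [hK, e1]
  have k1 := hf.B1
  have k2 := hf.BK
  refine ⟨⟨ts q + P q j, tB q, by rw [hf.eS, pow_add], hf.B1, hf.eD, by omega, ?_,
    by rw [hf.eN]; positivity, hf.big⟩, fun a i _ => ?_, le_rfl, Nat.zero_le _, by positivity,
    by linarith⟩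
  · rw [hf.eN, hf.eS, hf.eD, ← pow_mul, ← pow_add, ← pow_add, ← pow_succ]
    refine pow_dvd_pow _ ?_
    obtain ⟨k, hk⟩ : ∃ k, tK q = k + 1 := ⟨tK q - 1, by omega⟩
    rw [hk, Nat.add_sub_cancel]
    nlinarith
  · rw [HA, par_apply]; rfl

end Crest.Agent.H4.IM
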