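import Crest.Agent.H4.IMXC1

set_option autoImplicit false
set_option linter.unusedSectionVars false
set_option linter.unusedVariables false
set_option linter.unusedSimpArgs false

/-! Row 326: approximate implementation of the transform, the concrete passes. -/

namespace Crest.Agent.H4.IM
open Crest.Agent.H3.Ptime Crest.Agent.H9.IM Crest.Agent.H5.IM Function Finset

variable {α β γ : Type} [Enc α] [Enc β] [Enc γ]

theorem xor_pow (p : ℕ) : ∀ i : ℕ, (i / 2 ^ p % 2 = 0 → i ^^^ 2 ^ p = i + 2 ^ p) ∧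
    (i / 2 ^ p % 2 ≠ 0 → i ^^^ 2 ^ p = i - 2 ^ p ∧ 2 ^ p ≤ i) := by
  induction p with
  | zero =>
    intro i
    have h1 := Nat.xor_div_two (a := i) (b := 1)
    have h2 := Nat.xor_mod_two_eq (m := i) (n := 1)
    simp only [pow_zero, Nat.div_one, Nat.reduceDiv, Nat.xor_zero] at h1 h2 ⊢
    omega
  | succ p ih =>
    intro i
    have h1 := Nat.xor_div_two (a := i) (b := 2 ^ (p + 1))
    have h2 := Nat.xor_mod_two_eq (m := i) (n := 2 ^ (p + 1))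
    have h3 : 2 ^ (p + 1) / 2 = 2 ^ p := by rw [pow_succ]; omega
    have h4 : i / 2 ^ (p + 1) = i / 2 / 2 ^ p := by rw [Nat.div_div_eq_div_mul, pow_succ']
    have h5 := ih (i / 2)
    have h6 : 2 ^ (p + 1) = 2 * 2 ^ p := by ring
    rw [h3] at h1
    rw [h4]
    omega

theorem PT_bb {q : α → TQ} {j : α → ℕ} (hq : PT q) (hj : PT j) (hb : PB j) :
    PT (fun a => bb (q a) (j a)) := by
  have : PT (fun a => (q a).1 ^ j a) := PT.pow (by fun_prop) hj hb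
  unfold bb; fun_prop

theorem PT_two {j : α → ℕ} (hj : PT j) (hb : PB j) : PT (fun a => 2 ^ j a) :=
  PT.pow (PT.const 2) hj hb

theorem PT_tw {lo p i : α → ℕ} (h1 : PT lo) (h2 : PT p) (hb : PB p) (h3 : PT i) :
    PT (fun a => tw (lo a) (p a) (i a)) := by
  have := PT_two h2 hb
  unfold tw; fun_prop

def jc (x : TQ × ℕ) : ℕ := min x.2 (tK x.1)
theorem PT_jc : PT jc := by have := PT_tK; unfold jc; fun_prop
theorem PB_jc : PB jc := PB.min (PB_fst PB_tK)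
theorem jc_eq {q : TQ} {j : ℕ} (h : j < tK q) : jc (q, j) = j := min_eq_left h.le

theorem K_bound {q : TQ} (hf : TF q) (c : ℕ) : tK q ≤ Nat.log 2 (tN q) + 1 ∧
    tB q + c ≤ (c + 1) * (Nat.log 2 (tN q) + 1) ∧ (0 : ℝ) ≤ 0 ∧
      tK q * ((0 : ℝ) + 1) ≤ 2 * (tX q + 1) := by
  have h1 := hf.B1
  have h2 := hf.BK
  have h3 := hf.Ks
  have h4 := tX_ge q
  have h5 : (0 : ℝ) ≤ (tK q + 1 : ℝ) ^ th * (Nat.log 2 q.1 + 1) ^ 2 := by positivity
  have h6 : (0 : ℝ) ≤ tK q := by positivity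
  rw [hf.eL]
  refine ⟨by omega, ?_, le_rfl, by linarith⟩
  generalize tB q * tK q = y
  have : c * 1 ≤ c * (ts q + y + 1) := Nat.mul_le_mul_left _ (by omega)
  rw [add_mul]
  omega

theorem std_sd (hE : ExecStmt) (hR : RootStmt) (d : ℕ → ℕ → ℕ → ℕ → ℂ) (cd : ℕ × ℕ × ℕ × ℕ → Cf)
    (hc : PT cd) (H : ∀ Q B t x, 0 < Q → Q ≤ 2 ^ B → (cd (Q, 2 ^ B, t, x)).ok (B + 1) ∧
      d Q (2 ^ B) t x = (cd (Q, 2 ^ B, t, x)).val) : Std (fun q => sd q d) := by
  have h1 : PT (fun y : (TQ × ℕ) × ℕ => bb y.1.1 (jc y.1)) :=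
    PT_bb (by fun_prop) (PT_jc.comp (by fun_prop)) (PB_fst PB_jc)
  have h2 : PT (fun y : (TQ × ℕ) × ℕ => 2 ^ (jc y.1)) :=
    PT_two (PT_jc.comp (by fun_prop)) (PB_fst PB_jc)
  have h := body_dg hE hR tK (fun q j i => d (Qj q j) q.1 (tf j i) (xf q j i)) (fun q => tB q + 1)
    (fun _ => 0) (fun y => cd (Qj y.1.1 y.1.2, y.1.1.1, tf (jc y.1) y.2, xf y.1.1 (jc y.1) y.2))
    (by unfold Qj tf xf; fun_prop) (fun q j hf hj i => by
      simp only [jc_eq hj]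
      have := H (Qj q j) (tB q) (tf j i) (xf q j i) (hf.hQ j hj).1 (hf.eD ▸ (hf.hQ j hj).2)
      rw [← hf.eD] at this
      exact this)
  exact h.rap hE PT_tK PB_tK 6 (fun q hf => K_bound hf 5)

theorem std_msk (hE : ExecStmt) (hR : RootStmt) : Std (fun q => sd q msk) :=
  std_sd hE hR _ (fun y => (if y.2.2.2 < y.1 then 1 else 0, 1, 0, 1)) (by fun_prop)
    (fun Q B t x h1 h2 => by
      have := Nat.one_le_two_pow (n := B + 1)
      by_cases h : x < Q <;> simp [Cf.ok, Cf.val, msk, h, ee_zero, this])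

theorem std_nrm (hE : ExecStmt) (hR : RootStmt) : Std (fun q => sd q nrm) :=
  std_sd hE hR _ (fun y => (if y.2.2.1 = 0 then -1 else (y.1 : ℤ), 1, 0, 1)) (by fun_prop)
    (fun Q B t x h1 h2 => by
      have := Nat.one_le_two_pow (n := B + 1)
      have h3 : Q ≤ 2 ^ (B + 1) := by rw [pow_succ]; omega
      by_cases h : t = 0 <;> simp [Cf.ok, Cf.val, nrm, h, ee_zero, this, h3])

theorem std_d1 (hE : ExecStmt) (hR : RootStmt) (dir ε : ℕ) : Std (fun q => sd q (d1 dir ε)) :=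
  std_sd hE hR _ (fun y => if y.2.2.1 = dir then
      (if dir = 0 then 1 else -1, if dir = 0 then 2 else 2 * y.1,
        H5.IM.sg dir * (y.2.2.2 * y.2.2.2 * y.2.1 : ℕ) - (ε * y.2.2.2 * y.1 : ℕ), 2 * y.1 * y.2.1)
      else (1, 1, -(H5.IM.sg dir * (y.2.2.2 * y.2.2.2 * y.2.1 : ℕ)) - (ε * y.2.2.2 * y.1 : ℕ),
        2 * y.1 * y.2.1)) (by fun_prop)
    (fun Q B t x h1 h2 => by
      have h3 := Nat.one_le_two_pow (n := B + 1)
      have h4 : (Q : ℝ) ≠ 0 := by positivity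
      by_cases h : t = dir
      · simp only [h, if_true, d1, Cf.ok, Cf.val]
        refine ⟨⟨by split_ifs <;> omega, by positivity, by split_ifs <;> simp <;> nlinarith⟩, ?_⟩
        congr 1
        · split_ifs <;> simp
        · congr 1; push_cast; field_simp
      · simp only [h, if_false, d1, Cf.ok, Cf.val]
        refine ⟨⟨by omega, by positivity, by simpa using h3⟩, ?_⟩
        simp only [Int.cast_one, Nat.cast_one, div_one, one_mul]
        congr 1; push_cast; field_simp)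

theorem std_d2 (hE : ExecStmt) (hR : RootStmt) (dir ε : ℕ) : Std (fun q => sd q (d2 dir ε)) :=
  std_sd hE hR _ (fun y => if y.2.2.1 = dir then
      (if dir = 0 then 2 else -((2 * y.1 : ℕ) : ℤ), 1,
        -(H5.IM.sg dir * (y.2.2.2 * y.2.2.2 * y.2.1 : ℕ)) + (ε * y.2.2.2 * y.1 : ℕ), 2 * y.1 * y.2.1)
      else (1, 1, H5.IM.sg dir * (y.2.2.2 * y.2.2.2 * y.2.1 : ℕ) + (ε * y.2.2.2 * y.1 : ℕ),
        2 * y.1 * y.2.1)) (by fun_prop)
    (fun Q B t x h1 h2 => by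
      have h3 := Nat.one_le_two_pow (n := B)
      have h5 : 2 ^ (B + 1) = 2 * 2 ^ B := by ring
      have h4 : (Q : ℝ) ≠ 0 := by positivity
      by_cases h : t = dir
      · simp only [h, if_true, d2, Cf.ok, Cf.val]
        refine ⟨⟨by omega, by positivity, by split_ifs <;> omega⟩, ?_⟩
        congr 1
        · split_ifs <;> simp
        · congr 1; push_cast; field_simp
      · simp only [h, if_false, d2, Cf.ok, Cf.val]
        refine ⟨⟨by omega, by positivity, by simp; omega⟩, ?_⟩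
        simp only [Int.cast_one, Nat.cast_one, div_one, one_mul]
        congr 1; push_cast; field_simp)

theorem B_bound {q : TQ} (hf : TF q) (Γ : ℕ) (hΓ : Γ ≤ tK q + 6) : tB q ≤ Nat.log 2 (tN q) + 1 ∧
    Γ ≤ 7 * (Nat.log 2 (tN q) + 1) ∧ (0 : ℝ) ≤ (tK q + 1 : ℝ) ^ th * (Nat.log 2 q.1 + 1) ∧
      tB q * ((tK q + 1 : ℝ) ^ th * (Nat.log 2 q.1 + 1) + 1) ≤ 2 * (tX q + 1) := by
  have h1 := hf.B1
  have h2 := hf.BK
  have h3 := hf.Ks
  have h4 := tX_ge q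
  have h7 : Nat.log 2 q.1 = tB q := by rw [hf.eD, Nat.log_pow (by norm_num)]
  have h8 : (tB q : ℝ) ≤ tK q := by exact_mod_cast h2
  have h5 : (0 : ℝ) ≤ (tK q + 1 : ℝ) ^ th := by positivity
  have h6 : (0 : ℝ) ≤ tB q := by positivity
  have h9 := tX_nonneg q
  rw [hf.eL]
  refine ⟨by omega, by omega, by positivity, ?_⟩
  rw [h7] at h4 ⊢
  nlinarith [mul_nonneg h5 h6]

theorem PT_twsum {pp : TQ × ℕ → ℕ} (hp : PT pp) (hb : PB pp) :
    PT (fun y : (TQ × ℕ) × ℕ => ∑ k ∈ range (tK y.1.1), tw (bb y.1.1 k) (pp y.1) y.2) := by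
  have h0 := PT_tK
  refine PT_nsum (f := fun (y : (TQ × ℕ) × ℕ) k => tw (bb y.1.1 k) (pp y.1) y.2) (by fun_prop)
    (PB_fst (PB_fst PB_tK)) ?_
  exact PT_tw (PT_bb (by fun_prop) (by fun_prop) (PB.min (PB_fst (PB_fst (PB_fst PB_tK)))))
    (by fun_prop) (PB_fst (PB_fst hb)) (by fun_prop)

theorem std_PHI (hE : ExecStmt) (hR : RootStmt) : Std PHI := by
  have h0 := PT_tB
  have hp : PT (fun x : TQ × ℕ => tB x.1 - 1 - x.2) := by fun_prop
  have hb : PB (fun x : TQ × ℕ => tB x.1 - 1 - x.2) := PB.sub (PB.sub (PB_fst PB_tB))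
  have h1 := PT_twsum hp hb
  have h2 : PT (fun y : (TQ × ℕ) × ℕ => 2 ^ (tB y.1.1 - 1 - y.1.2 + 1)) :=
    PT_two (by fun_prop) ((PB_fst hb).add (PB.const 1))
  have h3 := body_dg hE hR tB (fun q j i => ee (((∑ k ∈ range (tK q),
      tw (bb q k) (tB q - 1 - j) i : ℕ) : ℝ) / 2 ^ (tB q - 1 - j + 1))) (fun _ => 0)
    (fun q => (tK q + 1 : ℝ) ^ th * (Nat.log 2 q.1 + 1))
    (fun y => (1, 1, ((∑ k ∈ range (tK y.1.1), tw (bb y.1.1 k) (tB y.1.1 - 1 - y.1.2) y.2 : ℕ) : ℤ),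
      2 ^ (tB y.1.1 - 1 - y.1.2 + 1))) (by fun_prop) (fun q j hf hj i => by
        simp [Cf.ok, Cf.val])
  have h4 := body_had hE tB _ hp hb (fun q j => tB q - 1 - j) (fun q j hf hj => ⟨rfl, by omega⟩)
  have h5 := (h3.mul hE h4).rap hE PT_tB PB_tB 7 (fun q hf => B_bound hf _ (by omega))
  convert h5 using 2 with q
  rw [PHI, par_eq_rap_rev]

theorem std_PHIi (hE : ExecStmt) (hR : RootStmt) : Std PHIi := by
  have h0 := PT_tB
  have hp : PT (fun x : TQ × ℕ => min x.2 (tB x.1)) := by fun_prop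
  have hb : PB (fun x : TQ × ℕ => min x.2 (tB x.1)) := PB.min (PB_fst PB_tB)
  have h1 := PT_twsum hp hb
  have h2 : PT (fun y : (TQ × ℕ) × ℕ => 2 ^ (min y.1.2 (tB y.1.1) + 1)) :=
    PT_two (by fun_prop) ((PB_fst hb).add (PB.const 1))
  have h2' : PT (fun y : (TQ × ℕ) × ℕ => 2 ^ (tK y.1.1)) :=
    PT_two (PT_tK.comp (by fun_prop)) (PB_fst (PB_fst PB_tK))
  have h3 := body_dg hE hR tB (fun q j i => ee (-((∑ k ∈ range (tK q),
      tw (bb q k) j i : ℕ) : ℝ) / 2 ^ (j + 1)) / 2 ^ tK q) (fun _ => 0)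
    (fun q => (tK q + 1 : ℝ) ^ th * (Nat.log 2 q.1 + 1))
    (fun y => (1, 2 ^ tK y.1.1,
      -((∑ k ∈ range (tK y.1.1), tw (bb y.1.1 k) (min y.1.2 (tB y.1.1)) y.2 : ℕ) : ℤ),
      2 ^ (min y.1.2 (tB y.1.1) + 1))) (by fun_prop) (fun q j hf hj i => by
        simp only [min_eq_left hj.le]
        refine ⟨by simp [Cf.ok, Nat.one_le_two_pow], ?_⟩
        simp only [Cf.val]
        push_cast
        ring)
  have h4 := body_had hE tB _ hp hb (fun q j => j) (fun q j hf hj => ⟨min_eq_left hj.le, hj⟩)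
  exact (h4.mul hE h3).rap hE PT_tB PB_tB 7 (fun q hf => B_bound hf _ (by omega))

theorem s_bound {q : TQ} (hf : TF q) : ts q ≤ Nat.log 2 (tN q) + 1 ∧
    8 ≤ 8 * (Nat.log 2 (tN q) + 1) ∧ (0 : ℝ) ≤ 0 ∧ ts q * ((0 : ℝ) + 1) ≤ 2 * (tX q + 1) := by
  have h2 := hf.BK
  have h3 := hf.sK
  have h4 := tX_ge q
  have h5 : (0 : ℝ) ≤ (tK q + 1 : ℝ) ^ th * (Nat.log 2 q.1 + 1) ^ 2 := by positivity
  have h6 : (ts q : ℝ) ≤ 2 * tK q := by exact_mod_cast (by omega)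
  rw [hf.eL]
  exact ⟨by omega, by omega, le_rfl, by linarith⟩

theorem body_hd (hE : ExecStmt) (hR : RootStmt) (pp : TQ × ℕ → ℕ) (hp : PT pp) (hb : PB pp)
    (P : TQ → ℕ → ℕ) (H : ∀ q j, j < ts q → pp (q, j) = P q j ∧ P q j < ts q) :
    Body ts (fun q j => hd (1 * 2 ^ P q j)) (fun q => 0 + 4) (fun _ => 0) := by
  have h2 := PT_two hp hb
  refine body_l2 hE hR ts _ (fun _ => 0) _ (fun x => 2 ^ pp x)
    (fun y => (if y.2 / 2 ^ pp y.1 % 2 = 0 then 1 else -1, 1, 0, 1)) (fun _ => (1, 1, 0, 1)) h2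
    (by fun_prop) (by fun_prop) (fun q j hf hj => ?_)
  obtain ⟨e1, e2⟩ := H q j hj
  simp only [e1]
  refine ⟨⟨_, rfl, by omega⟩, fun i => ⟨by split_ifs <;> simp [Cf.ok], by simp [Cf.ok], fun a => ?_⟩⟩
  rw [hd_apply, one_mul, had]
  have := xor_pow (P q j) i
  split_ifs with h
  · rw [this.1 h]; simp [Cf.val, ee_zero]
  · rw [(this.2 h).1]; simp [Cf.val, ee_zero]; ring

theorem std_fft (hE : ExecStmt) (hR : RootStmt) : Std (fun q => fft 1 (ts q)) := by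
  have h0 := PT_ts
  have hp : PT (fun x : TQ × ℕ => ts x.1 - 1 - x.2) := by fun_prop
  have hb : PB (fun x : TQ × ℕ => ts x.1 - 1 - x.2) := PB.sub (PB.sub (PB_fst PB_ts))
  have h1 : PT (fun y : (TQ × ℕ) × ℕ => tw 1 (ts y.1.1 - 1 - y.1.2) y.2) :=
    PT_tw (by fun_prop) (by fun_prop) (PB_fst hb) (by fun_prop)
  have h2 : PT (fun y : (TQ × ℕ) × ℕ => 2 ^ (ts y.1.1 - 1 - y.1.2 + 1)) :=
    PT_two (by fun_prop) ((PB_fst hb).add (PB.const 1))
  have h3 := body_dg hE hR ts (fun q j i => ee ((tw 1 (ts q - 1 - j) i : ℝ) / 2 ^ (ts q - 1 - j + 1)))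
    (fun _ => 0) (fun _ => 0)
    (fun y => (1, 1, ((tw 1 (ts y.1.1 - 1 - y.1.2) y.2 : ℕ) : ℤ),
      2 ^ (ts y.1.1 - 1 - y.1.2 + 1))) (by fun_prop) (fun q j hf hj i => by
        simp [Cf.ok, Cf.val])
  have h4 := body_hd hE hR _ hp hb (fun q j => ts q - 1 - j) (fun q j hj => ⟨rfl, by omega⟩)
  have h5 := (h3.mul hE h4).rap hE PT_ts PB_ts 8 (fun q hf => s_bound hf)
  convert h5 using 2 with q
  rw [fft, par_eq_rap_rev]
  rfl

theorem std_ifft (hE : ExecStmt) (hR : RootStmt) : Std (fun q => ifft 1 (ts q)) := by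
  have h0 := PT_ts
  have hp : PT (fun x : TQ × ℕ => min x.2 (ts x.1)) := by fun_prop
  have hb : PB (fun x : TQ × ℕ => min x.2 (ts x.1)) := PB.min (PB_fst PB_ts)
  have h1 : PT (fun y : (TQ × ℕ) × ℕ => tw 1 (min y.1.2 (ts y.1.1)) y.2) :=
    PT_tw (by fun_prop) (by fun_prop) (PB_fst hb) (by fun_prop)
  have h2 : PT (fun y : (TQ × ℕ) × ℕ => 2 ^ (min y.1.2 (ts y.1.1) + 1)) :=
    PT_two (by fun_prop) ((PB_fst hb).add (PB.const 1))
  have h3 := body_dg hE hR ts (fun q j i => ee (-(tw 1 j i : ℝ) / 2 ^ (j + 1)) / 2)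
    (fun _ => 0) (fun _ => 0)
    (fun y => (1, 2, -((tw 1 (min y.1.2 (ts y.1.1)) y.2 : ℕ) : ℤ),
      2 ^ (min y.1.2 (ts y.1.1) + 1))) (by fun_prop) (fun q j hf hj i => by
        simp only [min_eq_left hj.le]
        refine ⟨by simp [Cf.ok], ?_⟩
        simp only [Cf.val]
        push_cast
        ring)
  have h4 := body_hd hE hR _ hp hb (fun q j => j) (fun q j hj => ⟨min_eq_left hj.le, hj⟩)
  exact (h4.mul hE h3).rap hE PT_ts PB_ts 8 (fun q hf => s_bound hf)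

/-! ### the shear with the table of eigenvalues -/

theorem toC_sum (p : ℕ) (s : Finset ℕ) (u v : ℕ → ℤ × ℤ) :
    toC p (∑ m ∈ s, ((u m).1 + (v m).1), ∑ m ∈ s, ((u m).2 + (v m).2)) =
      ∑ m ∈ s, (toC p (u m) + toC p (v m)) := by
  simp only [toC]
  push_cast
  rw [Finset.sum_mul, ← Finset.sum_add_distrib, Finset.sum_div]
  exact Finset.sum_congr rfl (fun m _ => by ring)

def A1 (dir ε Q D r m : ℕ) : ℤ := (((2 * r + ε) * m * Q : ℕ) : ℤ) - H5.IM.sg dir * ((m * m * D : ℕ) : ℤ)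
def A2 (dir ε Q D r m : ℕ) : ℤ := (((2 * r + ε) * m * Q + ε * D * Q : ℕ) : ℤ) -
  H5.IM.sg dir * (((D : ℤ) - m) * ((D : ℤ) - m) * D)

def tab (rt : ℤ × ℕ × List Unit → ℤ × ℤ) (dir ε Q D r : ℕ) (p : List Unit) (n : ℕ) : ℤ × ℤ :=
  (∑ m ∈ range n, ((rt (A1 dir ε Q D r m, 2 * D * Q, p)).1 + (rt (A2 dir ε Q D r m, 2 * D * Q, p)).1),
   ∑ m ∈ range n, ((rt (A1 dir ε Q D r m, 2 * D * Q, p)).2 + (rt (A2 dir ε Q D r m, 2 * D * Q, p)).2))

theorem PT_A1 (dir ε : ℕ) : PT (fun y : (ℕ × ℕ × ℕ) × ℕ => A1 dir ε y.1.1 y.1.2.1 y.1.2.2 y.2) := by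
  unfold A1; fun_prop
theorem PT_A2 (dir ε : ℕ) : PT (fun y : (ℕ × ℕ × ℕ) × ℕ => A2 dir ε y.1.1 y.1.2.1 y.1.2.2 y.2) := by
  unfold A2; fun_prop

theorem PT_tab {rt : ℤ × ℕ × List Unit → ℤ × ℤ} (h : PT rt) (dir ε : ℕ) :
    PT (fun y : (ℕ × ℕ × ℕ) × List Unit × List Unit =>
      tab rt dir ε y.1.1 y.1.2.1 y.1.2.2 y.2.1 y.2.2.length) := by
  have b1 : PT (fun z : ((ℕ × ℕ × ℕ) × List Unit × List Unit) × ℕ =>
      rt (A1 dir ε z.1.1.1 z.1.1.2.1 z.1.1.2.2 z.2, 2 * z.1.1.2.1 * z.1.1.1, z.1.2.1)) :=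
    h.comp (PT.pair ((PT_A1 dir ε).comp (f := fun z : ((ℕ × ℕ × ℕ) × List Unit × List Unit) × ℕ =>
      (z.1.1, z.2)) (by fun_prop)) (by fun_prop))
  have b2 : PT (fun z : ((ℕ × ℕ × ℕ) × List Unit × List Unit) × ℕ =>
      rt (A2 dir ε z.1.1.1 z.1.1.2.1 z.1.1.2.2 z.2, 2 * z.1.1.2.1 * z.1.1.1, z.1.2.1)) :=
    h.comp (PT.pair ((PT_A2 dir ε).comp (f := fun z : ((ℕ × ℕ × ℕ) × List Unit × List Unit) × ℕ =>
      (z.1.1, z.2)) (by fun_prop)) (by fun_prop))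
  have b3 : PT (fun y : (ℕ × ℕ × ℕ) × List Unit × List Unit => y.2.2) := by fun_prop
  exact PT.pair (PT.finsum b3.length (PB.length b3) (b1.fst.iadd b2.fst))
    (PT.finsum b3.length (PB.length b3) (b1.snd.iadd b2.snd))

theorem eig_le (dir ε Q D r : ℕ) : ‖eig dir ε Q D r‖ ≤ 2 * D := by
  unfold eig
  refine (norm_sum_le _ _).trans ((Finset.sum_le_card_nsmul _ _ 2 (fun m _ => ?_)).trans (by simp [mul_comm]))
  refine (norm_add_le _ _).trans ?_
  rw [norm_ee, norm_ee]; norm_num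

theorem tab_err {rt : ℤ × ℕ × List Unit → ℤ × ℤ}
    (h : ∀ a b p, 0 < b → ‖toC p.length (rt (a, b, p)) - ee (a / b)‖ ≤ 2 / 2 ^ p.length)
    (dir ε Q D r : ℕ) (hQ : 0 < Q) (hD : 0 < D) (p : List Unit) :
    ‖toC p.length (tab rt dir ε Q D r p D) - eig dir ε Q D r‖ ≤ 4 * D / 2 ^ p.length := by
  unfold tab eig
  rw [toC_sum, ← Finset.sum_sub_distrib]
  refine (norm_sum_le _ _).trans ((Finset.sum_le_card_nsmul _ _ (4 / 2 ^ p.length)
    (fun m _ => ?_)).trans (by simp; ring_nf; rfl))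
  have h1 := h (A1 dir ε Q D r m) (2 * D * Q) p (by positivity)
  have h2 := h (A2 dir ε Q D r m) (2 * D * Q) p (by positivity)
  have hQ' : (Q : ℝ) ≠ 0 := by positivity
  have hD' : (D : ℝ) ≠ 0 := by positivity
  have e1 : ((A1 dir ε Q D r m : ℤ) : ℝ) / ((2 * D * Q : ℕ) : ℝ) =
      (2 * r + ε) * m / (2 * D) - H5.IM.sg dir * m ^ 2 / (2 * Q) := by
    unfold A1; push_cast; field_simp
  have e2 : ((A2 dir ε Q D r m : ℤ) : ℝ) / ((2 * D * Q : ℕ) : ℝ) =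
      (2 * r + ε) * m / (2 * D) + ε / 2 - H5.IM.sg dir * (D - m) ^ 2 / (2 * Q) := by
    unfold A2; push_cast; field_simp
  rw [e1] at h1
  rw [e2] at h2
  rw [add_sub_add_comm]
  refine (norm_add_le _ _).trans ((add_le_add h1 h2).trans_eq (by ring))

theorem std_SH (hE : ExecStmt) (hR : RootStmt) (dir ε : ℕ) : Std (fun q => SH q dir ε) := by
  obtain ⟨rt, h1, h2⟩ := hR
  have a1 : PT (fun x : TQ × ℕ => 2 ^ jc x) := PT_two PT_jc PB_jc
  have a2 : PT (fun x : TQ × ℕ => bb x.1 (jc x)) := PT_bb (by fun_prop) PT_jc PB_jc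
  have a3 : PT (fun y : (TQ × ℕ) × List Unit × List Unit × ℕ => rv (tB y.1.1) y.2.2.2) :=
    PT_rv (PT_tB.comp (by fun_prop)) (PB_fst (PB_fst PB_tB)) (by fun_prop)
  have a4 : PT (fun y : (TQ × ℕ) × List Unit × List Unit × ℕ =>
      tab rt dir ε (Qj y.1.1 y.1.2) y.1.1.1 (rv (tB y.1.1) y.2.2.2) y.2.1 y.2.2.1.length) := by
    refine (PT_tab h1 dir ε).comp (f := fun y : (TQ × ℕ) × List Unit × List Unit × ℕ =>
      ((Qj y.1.1 y.1.2, y.1.1.1, rv (tB y.1.1) y.2.2.2), y.2.1, y.2.2.1)) ?_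
    unfold Qj; fun_prop
  have a6 : PT (fun y : (TQ × ℕ) × List Unit × ℕ × (ℤ × ℤ) => 2 ^ jc y.1) := a1.comp (by fun_prop)
  have a5 : PT (fun y : (TQ × ℕ) × List Unit × ℕ × (ℤ × ℤ) => 2 ^ y.2.1.length) :=
    PT_two (by fun_prop) (by fun_prop)
  have h := hE.lin2 (fun x : TQ × ℕ => 2 ^ jc x) (fun x => bb x.1 (jc x)) (fun x => x.1.1)
    (fun x => tB x.1 + 3) _
    (fun y => ((((2 ^ y.2.1.length : ℕ) : ℤ), 0), if tf (jc y.1) y.2.2.1 = dir then y.2.2.2 else (0, 0)))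
    (fun _ _ => 1) (fun x i => if tf x.2 i = dir then
      eig dir ε (Qj x.1 x.2) x.1.1 (rv (tB x.1) (xf x.1 x.2 i)) else 0) a1 a2 (by fun_prop) a4
    (by unfold tf; fun_prop)
  have hb : Body tK (fun q j => l2 (2 ^ j) (fun _ => 1)
      (fun i => if tf j i = dir then eig dir ε (Qj q j) q.1 (rv (tB q) (xf q j i)) else 0))
      (fun q => tB q + 5) (fun _ => 0) := by
    refine hE.mono h (fun x => x) _ _ _ _ _ 0 (by fun_prop) ?_
    rintro ⟨q, j⟩ N ⟨⟨hq, rfl⟩, hj⟩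
    have hf : TF q := TP.tf hq
    have hj' : j < tK q := hj
    have k1 := hf.Ks
    have hD : 0 < q.1 := by rw [hf.eD]; positivity
    have hS : 0 < q.2.1 := by rw [hf.eS]; positivity
    have hQ := (hf.hQ j hj').1
    have e8 : (2 : ℝ) ^ (tB q + 3) = 8 * q.1 := by rw [hf.eD]; push_cast; ring
    have hD1 : (1 : ℝ) ≤ q.1 := by exact_mod_cast hD
    simp only [jc_eq hj', List.length_replicate]
    refine ⟨⟨⟨j, rfl⟩, ?_, by unfold bb; positivity, hD, ?_, by rw [hf.eN]; positivity,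
      fun p y _ => ?_, fun i _ => ⟨?_, ?_, fun p => ⟨?_, ?_⟩⟩⟩, fun a i _ => rfl, le_rfl, le_rfl,
      le_rfl, by simp⟩
    · rw [hf.eN, ← pow_succ']
      exact pow_dvd_pow _ (by omega)
    · unfold bb tN
      rw [mul_assoc, ← pow_succ]
      exact Nat.mul_dvd_mul_left _ (pow_dvd_pow _ hj')
    · have b1 := tab_err h2 dir ε (Qj q j) q.1 (rv (tB q) y) hQ hD p
      have b2 := eig_le dir ε (Qj q j) q.1 (rv (tB q) y)
      have b3 := norm_le_insert' (toC p.length (tab rt dir ε (Qj q j) q.1 (rv (tB q) y) p q.1))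
        (eig dir ε (Qj q j) q.1 (rv (tB q) y))
      have b4 : (4 * q.1 : ℝ) / 2 ^ p.length ≤ 4 * q.1 :=
        div_le_self (by positivity) (one_le_pow₀ (by norm_num))
      rw [pow_succ, e8]
      linarith
    · rw [e8, norm_one]; linarith
    · rw [e8]
      split_ifs
      · have := eig_le dir ε (Qj q j) q.1 (rv (tB q) (xf q j i))
        linarith
      · simp
    · have : toC p.length (((2 ^ p.length : ℕ) : ℤ), 0) = 1 := by simp [toC]
      rw [this, sub_self, norm_zero]; positivity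
    · rw [e8]
      split_ifs
      · refine (tab_err h2 dir ε (Qj q j) q.1 _ hQ hD p).trans ?_
        gcongr; norm_num
      · simp only [toC]; simp; positivity
  exact hb.rap hE PT_tK PB_tK 6 (fun q hf => K_bound hf 5)

theorem std_BL (hE : ExecStmt) (hR : RootStmt) (dir ε : ℕ) : Std (fun q => BL q dir ε) :=
  Std.mul hE (Std.mul hE (Std.mul hE (Std.mul hE (std_d1 hE hR dir ε) (std_PHIi hE hR))
    (std_SH hE hR dir ε)) (std_PHI hE hR)) (std_d2 hE hR dir ε)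

theorem std_MMo (hE : ExecStmt) (hR : RootStmt) : Std MMo :=
  Std.mul hE (Std.mul hE (Std.mul hE (Std.mul hE (Std.mul hE (Std.mul hE (Std.mul hE (Std.mul hE
    (Std.mul hE (std_msk hE hR) (std_BL hE hR 0 0)) (std_BL hE hR 0 1)) (std_msk hE hR))
    (std_BL hE hR 1 0)) (std_BL hE hR 1 1)) (std_msk hE hR)) (std_BL hE hR 0 0)) (std_BL hE hR 0 1))
    (std_msk hE hR)

theorem std_FWo (hE : ExecStmt) (hR : RootStmt) : Std FWo :=
  Std.mul hE (std_MMo hE hR) (std_fft hE hR)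

theorem std_IVo (hE : ExecStmt) (hR : RootStmt) : Std IVo :=
  Std.mul hE (Std.mul hE (std_ifft hE hR) (std_MMo hE hR)) (std_nrm hE hR)

theorem Std.up (hE : ExecStmt) {E : TQ → EE} {c d : ℕ} (hcd : c ≤ d)
    (h : XC (fun q a => E q a) (fun q N => TP q ∧ N = tN q)
      (fun q => c * (Nat.log 2 (tN q) + 1) ^ 2) tX (fun q => q.1)) :
    XC (fun q a => E q a) (fun q N => TP q ∧ N = tN q)
      (fun q => d * (Nat.log 2 (tN q) + 1) ^ 2) tX (fun q => q.1) :=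
  hE.mono h (fun q => q) _ _ _ _ _ 1 (by fun_prop) (fun q N h =>
    ⟨h, fun _ _ _ => rfl, Nat.mul_le_mul_right _ hcd, le_rfl, tX_nonneg q, by linarith⟩)

theorem transStmt (hE : ExecStmt) (hR : RootStmt) (hX : ExactStmt) : TransStmt := by
  obtain ⟨c, h1⟩ := std_FWo hE hR
  obtain ⟨d, h2⟩ := std_IVo hE hR
  exact ⟨fun q a => FWo q a, fun q a => IVo q a, c + d, Std.up hE (by omega) h1,
    Std.up hE (by omega) h2, fun q hq => ⟨fun a b i _ => by simp [map_add], hX q hq⟩⟩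

end Crest.Agent.H4.IM
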