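import Mathlib

/-!
Injective holomorphic maps: openness, holomorphic inverse, non-vanishing derivative.
-/

set_option autoImplicit false

open Filter Metric Set Function
open scoped Topology

namespace Crest.Agent.H4

/-- An injective holomorphic map is not locally constant. -/
theorem not_eventually_const_of_injOn {f : ℂ → ℂ} {U : Set ℂ} (hU : IsOpen U) (hi : InjOn f U)
    {z : ℂ} (hz : z ∈ U) : ¬ ∀ᶠ w in 𝓝 z, f w = f z := by
  intro h
  have h1 : ∀ᶠ w in 𝓝[≠] z, False := by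
    filter_upwards [nhdsWithin_le_nhds h, nhdsWithin_le_nhds (hU.mem_nhds hz),
      self_mem_nhdsWithin] with w hw hwU hne
    exact hne (hi hwU hz hw)
  exact (h1.exists).elim fun _ h => h

theorem nhds_le_map_of_injOn {f : ℂ → ℂ} {U : Set ℂ} (hU : IsOpen U)
    (hf : DifferentiableOn ℂ f U) (hi : InjOn f U) {z : ℂ} (hz : z ∈ U) :
    𝓝 (f z) ≤ map f (𝓝 z) := by
  have ha : AnalyticAt ℂ f z := hf.analyticAt (hU.mem_nhds hz)
  rcases ha.eventually_constant_or_nhds_le_map_nhds with h | h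
  · exact absurd h (not_eventually_const_of_injOn hU hi hz)
  · exact h

theorem isOpen_image_of_injOn {f : ℂ → ℂ} {U : Set ℂ} (hU : IsOpen U)
    (hf : DifferentiableOn ℂ f U) (hi : InjOn f U) {V : Set ℂ} (hV : IsOpen V) (hVU : V ⊆ U) :
    IsOpen (f '' V) := by
  rw [isOpen_iff_mem_nhds]
  rintro _ ⟨z, hz, rfl⟩
  exact nhds_le_map_of_injOn hU hf hi (hVU hz) (image_mem_map (hV.mem_nhds hz))

/-- A left inverse of an injective holomorphic map is continuous at image points. -/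
theorem continuousAt_leftInv {f φ : ℂ → ℂ} {U : Set ℂ} (hU : IsOpen U)
    (hf : DifferentiableOn ℂ f U) (hi : InjOn f U) (hφ : ∀ z ∈ U, φ (f z) = z)
    {z : ℂ} (hz : z ∈ U) : ContinuousAt φ (f z) := by
  rw [ContinuousAt, hφ z hz]
  refine (map_mono (nhds_le_map_of_injOn hU hf hi hz)).trans ?_
  rw [Filter.map_map]
  have : (φ ∘ f) =ᶠ[𝓝 z] id := by
    filter_upwards [hU.mem_nhds hz] with w hw using hφ w hw
  rw [map_congr this, map_id]

theorem eventually_rightInv {f φ : ℂ → ℂ} {U : Set ℂ} (hU : IsOpen U)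
    (hf : DifferentiableOn ℂ f U) (hi : InjOn f U) (hφ : ∀ z ∈ U, φ (f z) = z)
    {z : ℂ} (hz : z ∈ U) : ∀ᶠ y in 𝓝 (f z), f (φ y) = y ∧ φ y ∈ U := by
  have h1 : f '' U ∈ 𝓝 (f z) :=
    nhds_le_map_of_injOn hU hf hi hz (image_mem_map (hU.mem_nhds hz))
  filter_upwards [h1]
  rintro _ ⟨w, hw, rfl⟩
  rw [hφ w hw]
  exact ⟨rfl, hw⟩

theorem eventually_deriv_ne_zero_of_injOn {f : ℂ → ℂ} {U : Set ℂ} (hU : IsOpen U)
    (hf : DifferentiableOn ℂ f U) (hi : InjOn f U) {z : ℂ} (hz : z ∈ U) :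
    ∀ᶠ w in 𝓝[≠] z, deriv f w ≠ 0 := by
  have ha : AnalyticAt ℂ f z := hf.analyticAt (hU.mem_nhds hz)
  rcases ha.deriv.eventually_eq_zero_or_eventually_ne_zero with h | h
  · exfalso
    apply not_eventually_const_of_injOn hU hi hz
    obtain ⟨r, hr, hball⟩ := Metric.eventually_nhds_iff_ball.1 (h.and (hU.mem_nhds hz))
    filter_upwards [ball_mem_nhds z hr] with w hw
    refine isOpen_ball.is_const_of_deriv_eq_zero (convex_ball z r).isPreconnected
      (hf.mono fun y hy => (hball y hy).2) (fun y hy => (hball y hy).1) hw (mem_ball_self hr)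
  · exact h

/-- A left inverse of an injective holomorphic map is analytic at image points. -/
theorem analyticAt_leftInv {f φ : ℂ → ℂ} {U : Set ℂ} (hU : IsOpen U)
    (hf : DifferentiableOn ℂ f U) (hi : InjOn f U) (hφ : ∀ z ∈ U, φ (f z) = z)
    {z : ℂ} (hz : z ∈ U) : AnalyticAt ℂ φ (f z) := by
  have hc := continuousAt_leftInv hU hf hi hφ hz
  refine Complex.analyticAt_of_differentiable_on_punctured_nhds_of_continuousAt ?_ hc
  have h1 := eventually_deriv_ne_zero_of_injOn hU hf hi hz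
  rw [eventually_nhdsWithin_iff] at h1
  have h2 : ∀ᶠ y in 𝓝 (f z), φ y ∈ ({z}ᶜ : Set ℂ) → deriv f (φ y) ≠ 0 := by
    have h3 := hc.tendsto
    rw [hφ z hz] at h3
    exact h3.eventually h1
  filter_upwards [nhdsWithin_le_nhds h2,
    nhdsWithin_le_nhds (eventually_rightInv hU hf hi hφ hz), self_mem_nhdsWithin]
    with y hy hy2 hne
  have hne' : φ y ∈ ({z}ᶜ : Set ℂ) := by
    intro h
    apply hne
    rw [mem_singleton_iff] at h ⊢
    rw [← hy2.1, h]
  have hd : HasDerivAt f (deriv f (φ y)) (φ y) :=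
    (hf.differentiableAt (hU.mem_nhds hy2.2)).hasDerivAt
  have hcy : ContinuousAt φ y := by
    have := continuousAt_leftInv hU hf hi hφ hy2.2
    rwa [hy2.1] at this
  have hev : ∀ᶠ x in 𝓝 y, f (φ x) = x := by
    have := eventually_rightInv hU hf hi hφ hy2.2
    rw [hy2.1] at this
    exact this.mono fun _ h => h.1
  exact (HasDerivAt.of_local_left_inverse hcy hd (hy hne') hev).differentiableAt

theorem leftInv_deriv_mul {f φ : ℂ → ℂ} {U : Set ℂ} (hU : IsOpen U)
    (hf : DifferentiableOn ℂ f U) (hi : InjOn f U) (hφ : ∀ z ∈ U, φ (f z) = z)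
    {z : ℂ} (hz : z ∈ U) : deriv φ (f z) * deriv f z = 1 := by
  have h1 := (analyticAt_leftInv hU hf hi hφ hz).differentiableAt.hasDerivAt
  have h2 := (hf.differentiableAt (hU.mem_nhds hz)).hasDerivAt
  have h3 := h1.comp z h2
  have h4 : (φ ∘ f) =ᶠ[𝓝 z] id := by
    filter_upwards [hU.mem_nhds hz] with w hw using hφ w hw
  have h5 : HasDerivAt (φ ∘ f) 1 z := (hasDerivAt_id z).congr_of_eventuallyEq h4
  exact h3.unique h5

/-- An injective holomorphic map has non-vanishing derivative. -/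
theorem deriv_ne_zero_of_injOn {f : ℂ → ℂ} {U : Set ℂ} (hU : IsOpen U)
    (hf : DifferentiableOn ℂ f U) (hi : InjOn f U) {z : ℂ} (hz : z ∈ U) : deriv f z ≠ 0 := by
  have h := leftInv_deriv_mul (φ := invFunOn f U) hU hf hi
    (fun w hw => hi.leftInvOn_invFunOn hw) hz
  intro h0
  rw [h0, mul_zero] at h
  exact zero_ne_one h

theorem dslope_ne_zero_of_injOn {f : ℂ → ℂ} {U : Set ℂ} (hU : IsOpen U)
    (hf : DifferentiableOn ℂ f U) (hi : InjOn f U) {a z : ℂ} (ha : a ∈ U) (hz : z ∈ U) :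
    dslope f a z ≠ 0 := by
  rcases eq_or_ne z a with rfl | hne
  · rw [dslope_same]; exact deriv_ne_zero_of_injOn hU hf hi hz
  · rw [dslope_of_ne _ hne, slope_def_field]
    exact div_ne_zero (sub_ne_zero.2 fun h => hne (hi hz ha h)) (sub_ne_zero.2 hne)

end Crest.Agent.H4
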