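import Mathlib

set_option autoImplicit false

namespace Crest.Agent.H4.MC

open Finset

/-- The cubic cut-off. -/
def phi (u : ℝ) : ℝ := 3 * u ^ 2 - 2 * u ^ 3

lemma phi_sub (a b : ℝ) :
    phi a - phi b = (a - b) * (3 * (a + b) - 2 * (a ^ 2 + a * b + b ^ 2)) := by
  unfold phi; ring

lemma mult_sq_le {a b : ℝ} (ha0 : 0 ≤ a) (ha1 : a ≤ 1) (hb0 : 0 ≤ b) (hb1 : b ≤ 1) :
    (3 * (a + b) - 2 * (a ^ 2 + a * b + b ^ 2)) ^ 2 ≤ 9 * (a + b) := by
  have h1 : 0 ≤ 3 * (a + b) - 2 * (a ^ 2 + a * b + b ^ 2) := by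
    nlinarith [mul_nonneg ha0 (sub_nonneg.2 ha1), mul_nonneg hb0 (sub_nonneg.2 hb1), sq_nonneg (a - b)]
  have h2 : 3 * (a + b) - 2 * (a ^ 2 + a * b + b ^ 2) ≤ 3 * (a + b) := by
    nlinarith [mul_nonneg ha0 hb0, sq_nonneg a, sq_nonneg b]
  have h3 : 3 * (a + b) - 2 * (a ^ 2 + a * b + b ^ 2) ≤ 3 := by
    nlinarith [mul_nonneg ha0 hb0, sq_nonneg (a + b - 1), sq_nonneg (a - b)]
  nlinarith

lemma abs_phi_sub_le {u c : ℝ} (hu0 : 0 ≤ u) (hu1 : u ≤ 1) (hc : c = 0 ∨ c = 1) :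
    |phi u - c| ≤ 2 * |u - c| := by
  rcases hc with rfl | rfl
  · rw [sub_zero, sub_zero, abs_of_nonneg hu0, abs_le]
    unfold phi
    constructor
    · nlinarith [mul_nonneg hu0 hu0, mul_nonneg (mul_nonneg hu0 hu0) (sub_nonneg.2 hu1)]
    · nlinarith [mul_nonneg hu0 (sq_nonneg (u - 3 / 4))]
  · have h1 : 0 ≤ 1 - u := sub_nonneg.2 hu1
    rw [abs_sub_comm u 1, abs_of_nonneg h1, abs_le]
    unfold phi
    constructor
    · nlinarith [mul_nonneg h1 (sq_nonneg (u - 1 / 4))]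
    · nlinarith [mul_nonneg h1 h1, mul_nonneg (mul_nonneg h1 h1) hu0]

section bellman

variable {Ω : Type*} [Fintype Ω] (l : Ω → ℝ)

/-- weighted `ℓ¹` norm -/
def L1 (f : Ω → ℝ) : ℝ := ∑ ω, l ω * |f ω|

def NN (a : Ω → ℝ) : ℝ := ∑ ω, l ω * a ω

def PP (a b : Ω → ℝ) : ℝ := ∑ ω, l ω * (a ω * b ω)

def BB (a : Ω → ℝ) : ℝ := NN l a * PP l a a + 2 * NN l a ^ 2

variable {l}

lemma PP_cs (hl : ∀ ω, 0 ≤ l ω) (a b : Ω → ℝ) : PP l a b ^ 2 ≤ PP l a a * PP l b b := by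
  unfold PP
  refine Finset.sum_sq_le_sum_mul_sum_of_sq_le_mul Finset.univ
    (fun ω _ => mul_nonneg (hl ω) (mul_self_nonneg _))
    (fun ω _ => mul_nonneg (hl ω) (mul_self_nonneg _)) (fun ω _ => le_of_eq (by ring))

lemma real_bellman {Na Nb qa qb P : ℝ} (ha : qa ≤ Na) (hb : qb ≤ Nb)
    (hD : 0 ≤ qa + qb - 2 * P)
    (h1 : (P - qa) ^ 2 ≤ qa * (qa + qb - 2 * P)) (h2 : (qb - P) ^ 2 ≤ qb * (qa + qb - 2 * P)) :
    (Na + Nb) * (qa + qb - 2 * P) / 4 ≤
      Nb * qb + 2 * Nb ^ 2 - (Na * qa + 2 * Na ^ 2)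
        - (2 * Na * (P - qa) + (Nb - Na) * qa + 4 * Na * (Nb - Na)) := by
  set D := qa + qb - 2 * P with hDdef
  have h1' : (P - qa) ^ 2 ≤ Na * D := h1.trans (mul_le_mul_of_nonneg_right ha hD)
  have h2' : (qb - P) ^ 2 ≤ Nb * D := h2.trans (mul_le_mul_of_nonneg_right hb hD)
  rcases le_total Na Nb with h | h
  · have e : Nb * qb + 2 * Nb ^ 2 - (Na * qa + 2 * Na ^ 2)
        - (2 * Na * (P - qa) + (Nb - Na) * qa + 4 * Na * (Nb - Na))
        = Nb * D + 2 * (Nb - Na) * (P - qa) + 2 * (Nb - Na) ^ 2 := by rw [hDdef]; ring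
    rw [e]
    nlinarith [sq_nonneg (2 * (Nb - Na) + (P - qa)), mul_nonneg (sub_nonneg.2 h) hD]
  · have e : Nb * qb + 2 * Nb ^ 2 - (Na * qa + 2 * Na ^ 2)
        - (2 * Na * (P - qa) + (Nb - Na) * qa + 4 * Na * (Nb - Na))
        = Na * D + 2 * (Nb - Na) * (qb - P) + (Na - Nb) * D + 2 * (Nb - Na) ^ 2 := by
      rw [hDdef]; ring
    rw [e]
    nlinarith [sq_nonneg (2 * (Nb - Na) + (qb - P)), mul_nonneg (sub_nonneg.2 h) hD]

lemma PP_sub_sub (a b : Ω → ℝ) :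
    PP l (a - b) (a - b) = PP l a a + PP l b b - 2 * PP l a b := by
  unfold PP
  rw [Finset.mul_sum, ← Finset.sum_add_distrib, ← Finset.sum_sub_distrib]
  refine Finset.sum_congr rfl fun ω _ => ?_
  simp only [Pi.sub_apply]; ring

lemma PP_sub_left (a b : Ω → ℝ) : PP l a (a - b) = PP l a a - PP l a b := by
  unfold PP
  rw [← Finset.sum_sub_distrib]
  refine Finset.sum_congr rfl fun ω _ => ?_
  simp only [Pi.sub_apply]; ring

lemma PP_sub_right (a b : Ω → ℝ) : PP l b (a - b) = PP l a b - PP l b b := by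
  unfold PP
  rw [← Finset.sum_sub_distrib]
  refine Finset.sum_congr rfl fun ω _ => ?_
  simp only [Pi.sub_apply]; ring

lemma PP_self_nonneg (hl : ∀ ω, 0 ≤ l ω) (a : Ω → ℝ) : 0 ≤ PP l a a :=
  Finset.sum_nonneg fun ω _ => mul_nonneg (hl ω) (mul_self_nonneg _)

lemma PP_le_NN (hl : ∀ ω, 0 ≤ l ω) {a : Ω → ℝ} (h0 : ∀ ω, 0 ≤ a ω) (h1 : ∀ ω, a ω ≤ 1) :
    PP l a a ≤ NN l a :=
  Finset.sum_le_sum fun ω _ => mul_le_mul_of_nonneg_left (by nlinarith [h0 ω, h1 ω]) (hl ω)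

lemma cost_le (hl : ∀ ω, 0 ≤ l ω) {a b : Ω → ℝ} (ha0 : ∀ ω, 0 ≤ a ω) (ha1 : ∀ ω, a ω ≤ 1)
    (hb0 : ∀ ω, 0 ≤ b ω) (hb1 : ∀ ω, b ω ≤ 1) :
    L1 l (fun ω => phi (a ω) - phi (b ω)) ^ 2 ≤ 9 * (NN l a + NN l b) * PP l (a - b) (a - b) := by
  have h : L1 l (fun ω => phi (a ω) - phi (b ω)) ^ 2 ≤
      (∑ ω, l ω * (3 * (a ω + b ω) - 2 * (a ω ^ 2 + a ω * b ω + b ω ^ 2)) ^ 2) *
        PP l (a - b) (a - b) := by
    unfold L1 PP
    refine Finset.sum_sq_le_sum_mul_sum_of_sq_le_mul Finset.univ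
      (fun ω _ => mul_nonneg (hl ω) (sq_nonneg _))
      (fun ω _ => mul_nonneg (hl ω) (mul_self_nonneg _)) (fun ω _ => ?_)
    beta_reduce
    rw [mul_pow, sq_abs, phi_sub]
    simp only [Pi.sub_apply]
    exact le_of_eq (by ring)
  refine h.trans (mul_le_mul_of_nonneg_right ?_ (PP_self_nonneg hl _))
  unfold NN
  rw [← Finset.sum_add_distrib, Finset.mul_sum]
  refine Finset.sum_le_sum fun ω _ => ?_
  have := mul_le_mul_of_nonneg_left (mult_sq_le (ha0 ω) (ha1 ω) (hb0 ω) (hb1 ω)) (hl ω)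
  linarith

lemma bellman_step (hl : ∀ ω, 0 ≤ l ω) {a b : Ω → ℝ} (ha0 : ∀ ω, 0 ≤ a ω) (ha1 : ∀ ω, a ω ≤ 1)
    (hb0 : ∀ ω, 0 ≤ b ω) (hb1 : ∀ ω, b ω ≤ 1) :
    L1 l (fun ω => phi (a ω) - phi (b ω)) ^ 2 / 36 ≤
      BB l b - BB l a - (2 * NN l a * (PP l a b - PP l a a) + (NN l b - NN l a) * PP l a a
        + 4 * NN l a * (NN l b - NN l a)) := by
  have hc := cost_le hl ha0 ha1 hb0 hb1
  have hD := PP_self_nonneg hl (a - b)
  have h1 := PP_cs hl a (a - b)
  have h2 := PP_cs hl b (a - b)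
  rw [PP_sub_left] at h1
  rw [PP_sub_right] at h2
  rw [PP_sub_sub] at hc hD h1 h2
  have := real_bellman (Na := NN l a) (Nb := NN l b) (P := PP l a b) (PP_le_NN hl ha0 ha1)
    (PP_le_NN hl hb0 hb1) hD (by nlinarith) (by nlinarith)
  unfold BB
  linarith

/-- averaged version -/
lemma bellman_avg (hl : ∀ ω, 0 ≤ l ω) {ι : Type*} [Fintype ι] (p : ι → ℝ) (hp : ∀ j, 0 ≤ p j)
    (hp1 : ∑ j, p j = 1) {a : Ω → ℝ} {b : ι → Ω → ℝ} (ha0 : ∀ ω, 0 ≤ a ω) (ha1 : ∀ ω, a ω ≤ 1)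
    (hb0 : ∀ j ω, 0 ≤ b j ω) (hb1 : ∀ j ω, b j ω ≤ 1) (hab : ∀ ω, a ω = ∑ j, p j * b j ω) :
    ∑ j, p j * (L1 l (fun ω => phi (a ω) - phi (b j ω)) ^ 2 / 36) ≤
      ∑ j, p j * BB l (b j) - BB l a := by
  have hN : ∑ j, p j * NN l (b j) = NN l a := by
    unfold NN
    simp_rw [Finset.mul_sum]
    rw [Finset.sum_comm]
    refine Finset.sum_congr rfl fun ω _ => ?_
    rw [hab, Finset.mul_sum]
    exact Finset.sum_congr rfl fun j _ => by ring
  have hP : ∑ j, p j * PP l a (b j) = PP l a a := by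
    unfold PP
    simp_rw [Finset.mul_sum]
    rw [Finset.sum_comm]
    refine Finset.sum_congr rfl fun ω _ => ?_
    conv_rhs => rw [show l ω * (a ω * a ω) = l ω * a ω * a ω by ring]; rw [hab ω]
    rw [← hab ω, hab ω, Finset.mul_sum, ← hab ω]
    exact Finset.sum_congr rfl fun j _ => by ring
  have h := Finset.sum_le_sum (s := Finset.univ) fun j _ =>
    mul_le_mul_of_nonneg_left (bellman_step hl ha0 ha1 (hb0 j) (hb1 j)) (hp j)
  refine h.trans (le_of_eq ?_)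
  have e : ∀ j, p j * (BB l (b j) - BB l a - (2 * NN l a * (PP l a (b j) - PP l a a)
      + (NN l (b j) - NN l a) * PP l a a + 4 * NN l a * (NN l (b j) - NN l a)))
      = p j * BB l (b j) - 2 * NN l a * (p j * PP l a (b j))
        - (PP l a a + 4 * NN l a) * (p j * NN l (b j))
        + p j * (- BB l a + 2 * NN l a * PP l a a + NN l a * PP l a a + 4 * NN l a * NN l a) := by
    intro j; ring
  simp_rw [e]
  rw [Finset.sum_add_distrib, Finset.sum_sub_distrib, Finset.sum_sub_distrib, ← Finset.mul_sum,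
    ← Finset.mul_sum, ← Finset.sum_mul, hN, hP, hp1]
  ring

lemma L1_nonneg (hl : ∀ ω, 0 ≤ l ω) (f : Ω → ℝ) : 0 ≤ L1 l f :=
  Finset.sum_nonneg fun ω _ => mul_nonneg (hl ω) (abs_nonneg _)

lemma L1_add_le (hl : ∀ ω, 0 ≤ l ω) (f g : Ω → ℝ) :
    L1 l (fun ω => f ω + g ω) ≤ L1 l f + L1 l g := by
  unfold L1
  rw [← Finset.sum_add_distrib]
  refine Finset.sum_le_sum fun ω _ => ?_
  have := mul_le_mul_of_nonneg_left (abs_add_le (f ω) (g ω)) (hl ω)
  linarith

lemma L1_sum_le (hl : ∀ ω, 0 ≤ l ω) {ι : Type*} (s : Finset ι) (f : ι → Ω → ℝ) :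
    L1 l (fun ω => ∑ i ∈ s, f i ω) ≤ ∑ i ∈ s, L1 l (f i) := by
  unfold L1
  rw [Finset.sum_comm]
  refine Finset.sum_le_sum fun ω _ => ?_
  rw [← Finset.mul_sum]
  exact mul_le_mul_of_nonneg_left (Finset.abs_sum_le_sum_abs _ _) (hl ω)

lemma L1_const_mul {c : ℝ} (hc : 0 ≤ c) (f : Ω → ℝ) :
    L1 l (fun ω => c * f ω) = c * L1 l f := by
  unfold L1
  rw [Finset.mul_sum]
  refine Finset.sum_congr rfl fun ω _ => ?_
  rw [abs_mul, abs_of_nonneg hc]; ring

lemma BB_nonneg (hl : ∀ ω, 0 ≤ l ω) {a : Ω → ℝ} (h0 : ∀ ω, 0 ≤ a ω) : 0 ≤ BB l a := by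
  have h1 : 0 ≤ NN l a := Finset.sum_nonneg fun ω _ => mul_nonneg (hl ω) (h0 ω)
  have h2 := PP_self_nonneg hl a
  unfold BB; positivity

end bellman

lemma jensen_sq {ι : Type*} [Fintype ι] (p x : ι → ℝ) (hp : ∀ j, 0 ≤ p j) (hp1 : ∑ j, p j = 1) :
    (∑ j, p j * x j) ^ 2 ≤ ∑ j, p j * x j ^ 2 := by
  have := Finset.sum_sq_le_sum_mul_sum_of_sq_le_mul Finset.univ (r := fun j => p j * x j)
    (f := p) (g := fun j => p j * x j ^ 2) (fun j _ => hp j)
    (fun j _ => mul_nonneg (hp j) (sq_nonneg _)) (fun j _ => le_of_eq (by ring))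
  rwa [hp1, one_mul] at this

section chain

variable {ι : Type*} [Fintype ι] [DecidableEq ι] {Ω : Type*} [Fintype Ω]

/-- the hypotheses on the chain -/
structure Chain (w : ι → ℝ) (A : Matrix ι ι ℝ) : Prop where
  w0 : ∀ i, 0 ≤ w i
  A0 : ∀ i j, 0 ≤ A i j
  A1 : ∀ i, ∑ j, A i j = 1
  stat : ∀ j, ∑ i, w i * A i j = w j

variable {w : ι → ℝ} {A : Matrix ι ι ℝ}

lemma Chain.pow0 (h : Chain w A) (s : ℕ) : ∀ i j, 0 ≤ (A ^ s) i j := by
  induction s with
  | zero => intro i j; rw [pow_zero, Matrix.one_apply]; split_ifs <;> norm_num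
  | succ s ih =>
    intro i j
    rw [pow_succ, Matrix.mul_apply]
    exact Finset.sum_nonneg fun k _ => mul_nonneg (ih i k) (h.A0 k j)

lemma Chain.pow1 (h : Chain w A) (s : ℕ) : ∀ i, ∑ j, (A ^ s) i j = 1 := by
  induction s with
  | zero => intro i; simp [Matrix.one_apply]
  | succ s ih =>
    intro i
    simp_rw [pow_succ, Matrix.mul_apply]
    rw [Finset.sum_comm]
    simp_rw [← Finset.mul_sum, h.A1, mul_one, ih]

lemma Chain.powstat (h : Chain w A) (s : ℕ) : ∀ j, ∑ i, w i * (A ^ s) i j = w j := by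
  induction s with
  | zero => intro j; simp [Matrix.one_apply]
  | succ s ih =>
    intro j
    simp_rw [pow_succ, Matrix.mul_apply, Finset.mul_sum]
    rw [Finset.sum_comm]
    simp_rw [← mul_assoc, ← Finset.sum_mul, ih, h.stat]

variable (A) in
/-- smoothed indicator -/
def uu (χ : ι → Ω → ℝ) (s : ℕ) (i : ι) (ω : Ω) : ℝ := ∑ j, (A ^ s) i j * χ j ω

variable (w A) in
/-- mean square displacement -/
def ee (d : ι → ι → ℝ) (s : ℕ) : ℝ := ∑ i, ∑ j, w i * (A ^ s) i j * d i j ^ 2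

lemma uu_zero (χ : ι → Ω → ℝ) (i : ι) (ω : Ω) : uu A χ 0 i ω = χ i ω := by
  simp [uu, Matrix.one_apply]

lemma uu_succ (χ : ι → Ω → ℝ) (s : ℕ) (i : ι) (ω : Ω) :
    uu A χ (s + 1) i ω = ∑ j, A i j * uu A χ s j ω := by
  unfold uu
  simp_rw [pow_succ', Matrix.mul_apply, Finset.sum_mul, Finset.mul_sum]
  rw [Finset.sum_comm]
  simp_rw [mul_assoc]

lemma uu_nonneg (h : Chain w A) {χ : ι → Ω → ℝ} (hχ : ∀ i ω, χ i ω = 0 ∨ χ i ω = 1)
    (s : ℕ) (i : ι) (ω : Ω) : 0 ≤ uu A χ s i ω :=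
  Finset.sum_nonneg fun j _ => mul_nonneg (h.pow0 s i j) (by rcases hχ j ω with e | e <;> simp [e])

lemma uu_le_one (h : Chain w A) {χ : ι → Ω → ℝ} (hχ : ∀ i ω, χ i ω = 0 ∨ χ i ω = 1)
    (s : ℕ) (i : ι) (ω : Ω) : uu A χ s i ω ≤ 1 := by
  rw [← h.pow1 s i]
  refine Finset.sum_le_sum fun j _ => ?_
  rcases hχ j ω with e | e
  · simp [e, h.pow0 s i j]
  · simp [e]

lemma ee_nonneg (h : Chain w A) (d : ι → ι → ℝ) (s : ℕ) : 0 ≤ ee w A d s :=
  Finset.sum_nonneg fun i _ => Finset.sum_nonneg fun j _ =>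
    mul_nonneg (mul_nonneg (h.w0 i) (h.pow0 s i j)) (sq_nonneg _)

lemma ee_add_le (h : Chain w A) {d : ι → ι → ℝ} (hd0 : ∀ i j, 0 ≤ d i j)
    (hd : ∀ i j k, d i j ≤ d i k + d k j) (a b : ℕ) :
    ee w A d (a + b) ≤ 2 * ee w A d a + 2 * ee w A d b := by
  have e1 : ee w A d a = ∑ i, ∑ j, ∑ k, w i * (A ^ a) i k * (A ^ b) k j * d i k ^ 2 := by
    unfold ee
    refine Finset.sum_congr rfl fun i _ => ?_
    rw [Finset.sum_comm]
    refine Finset.sum_congr rfl fun k _ => ?_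
    rw [← Finset.sum_mul, ← Finset.mul_sum, h.pow1, mul_one]
  have e2 : ee w A d b = ∑ i, ∑ j, ∑ k, w i * (A ^ a) i k * (A ^ b) k j * d k j ^ 2 := by
    unfold ee
    rw [Finset.sum_comm]
    conv_rhs => rw [Finset.sum_comm]
    refine Finset.sum_congr rfl fun j _ => ?_
    rw [Finset.sum_comm]
    refine Finset.sum_congr rfl fun k _ => ?_
    rw [← Finset.sum_mul, ← Finset.sum_mul, h.powstat]
  rw [e1, e2]
  unfold ee
  simp_rw [pow_add, Matrix.mul_apply, Finset.mul_sum, Finset.sum_mul, ← Finset.sum_add_distrib]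
  refine Finset.sum_le_sum fun i _ => Finset.sum_le_sum fun j _ => Finset.sum_le_sum fun k _ => ?_
  have h0 : 0 ≤ w i * (A ^ a) i k * (A ^ b) k j :=
    mul_nonneg (mul_nonneg (h.w0 i) (h.pow0 a i k)) (h.pow0 b k j)
  have h1 : d i j ^ 2 ≤ 2 * d i k ^ 2 + 2 * d k j ^ 2 := by
    have := pow_le_pow_left₀ (hd0 i j) (hd i j k) 2
    nlinarith [sq_nonneg (d i k - d k j)]
  have := mul_le_mul_of_nonneg_left h1 h0
  linarith

lemma ee_le_avg (h : Chain w A) {d : ι → ι → ℝ} (hd0 : ∀ i j, 0 ≤ d i j) (hdd : ∀ i, d i i = 0)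
    (hd : ∀ i j k, d i j ≤ d i k + d k j) (t : ℕ) :
    t * ee w A d t ≤ 4 * ∑ s ∈ Finset.Icc 1 t, ee w A d s := by
  have h0 : ee w A d 0 = 0 := by
    unfold ee
    refine Finset.sum_eq_zero fun i _ => Finset.sum_eq_zero fun j _ => ?_
    rw [pow_zero, Matrix.one_apply]
    split_ifs with hij
    · subst hij; simp [hdd]
    · simp
  have h1 : ∑ s ∈ Finset.range (t + 1), ee w A d s = ∑ s ∈ Finset.Icc 1 t, ee w A d s := by
    rw [Finset.range_eq_Ico, Finset.sum_eq_sum_Ico_succ_bot (Nat.succ_pos t), h0, zero_add]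
    rfl
  have h2 : ∑ s ∈ Finset.range (t + 1), ee w A d t ≤
      ∑ s ∈ Finset.range (t + 1), (2 * ee w A d s + 2 * ee w A d (t + 1 - 1 - s)) := by
    refine Finset.sum_le_sum fun s hs => ?_
    have hs' : s ≤ t := Nat.lt_succ_iff.1 (Finset.mem_range.1 hs)
    have := ee_add_le h hd0 hd s (t + 1 - 1 - s)
    rwa [show s + (t + 1 - 1 - s) = t by omega] at this
  rw [Finset.sum_add_distrib, ← Finset.mul_sum, ← Finset.mul_sum, Finset.sum_range_reflect, h1,
    Finset.sum_const, Finset.card_range, nsmul_eq_mul] at h2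
  push_cast at h2
  have := ee_nonneg h d t
  linarith

variable {l : Ω → ℝ} {χ : ι → Ω → ℝ}

lemma near_le (h : Chain w A) (hl : ∀ ω, 0 ≤ l ω) (hχ : ∀ i ω, χ i ω = 0 ∨ χ i ω = 1) (s : ℕ) :
    ∑ i, w i * L1 l (fun ω => phi (uu A χ s i ω) - χ i ω) ^ 2 ≤
      4 * ee w A (fun i j => L1 l (fun ω => χ i ω - χ j ω)) s := by
  unfold ee
  rw [Finset.mul_sum]
  refine Finset.sum_le_sum fun i _ => ?_
  have h1 : L1 l (fun ω => phi (uu A χ s i ω) - χ i ω) ≤
      2 * ∑ j, (A ^ s) i j * L1 l (fun ω => χ i ω - χ j ω) := by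
    simp_rw [← L1_const_mul (h.pow0 s i _)]
    refine le_trans ?_ (mul_le_mul_of_nonneg_left (L1_sum_le hl _ _) (by norm_num))
    unfold L1
    rw [Finset.mul_sum]
    refine Finset.sum_le_sum fun ω _ => ?_
    have h2 := abs_phi_sub_le (uu_nonneg h hχ s i ω) (uu_le_one h hχ s i ω) (hχ i ω)
    have h3 : ∑ j, (A ^ s) i j * (χ i ω - χ j ω) = χ i ω - uu A χ s i ω := by
      simp_rw [mul_sub]
      rw [Finset.sum_sub_distrib, ← Finset.sum_mul, h.pow1, one_mul]; rfl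
    beta_reduce
    rw [h3, abs_sub_comm (χ i ω)]
    have := mul_le_mul_of_nonneg_left h2 (hl ω)
    linarith
  have h2 := pow_le_pow_left₀ (L1_nonneg hl _) h1 2
  have h3 := jensen_sq (fun j => (A ^ s) i j) (fun j => L1 l (fun ω => χ i ω - χ j ω))
    (h.pow0 s i) (h.pow1 s i)
  have h4 : ∑ j, w i * (A ^ s) i j * L1 l (fun ω => χ i ω - χ j ω) ^ 2 =
      w i * ∑ j, (A ^ s) i j * L1 l (fun ω => χ i ω - χ j ω) ^ 2 := by
    rw [Finset.mul_sum]; exact Finset.sum_congr rfl fun j _ => by ring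
  rw [h4, mul_pow] at *
  have := mul_le_mul_of_nonneg_left (h2.trans (mul_le_mul_of_nonneg_left h3 (by norm_num))) (h.w0 i)
  linarith

variable (A) in
/-- flipped smoothed indicator -/
def mm (χ : ι → Ω → ℝ) (z : ι) (s : ℕ) (i : ι) (ω : Ω) : ℝ :=
  χ z ω + (1 - 2 * χ z ω) * uu A χ s i ω

variable (w A l χ) in
def GG (k s : ℕ) : ℝ := ∑ z, ∑ i, w z * (A ^ k) z i * BB l (mm A χ z s i)

variable (w A l χ) in
def cost (s : ℕ) : ℝ :=
  ∑ i, ∑ j, w i * A i j * L1 l (fun ω => phi (uu A χ (s + 1) i ω) - phi (uu A χ s j ω)) ^ 2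

lemma mm_nonneg (h : Chain w A) (hχ : ∀ i ω, χ i ω = 0 ∨ χ i ω = 1) (z : ι) (s : ℕ) (i : ι)
    (ω : Ω) : 0 ≤ mm A χ z s i ω := by
  have h0 := uu_nonneg h hχ s i ω
  have h1 := uu_le_one h hχ s i ω
  unfold mm
  rcases hχ z ω with e | e <;> rw [e] <;> linarith

lemma mm_le_one (h : Chain w A) (hχ : ∀ i ω, χ i ω = 0 ∨ χ i ω = 1) (z : ι) (s : ℕ) (i : ι)
    (ω : Ω) : mm A χ z s i ω ≤ 1 := by
  have h0 := uu_nonneg h hχ s i ω
  have h1 := uu_le_one h hχ s i ω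
  unfold mm
  rcases hχ z ω with e | e <;> rw [e] <;> linarith

lemma GG_step (h : Chain w A) (hl : ∀ ω, 0 ≤ l ω) (hχ : ∀ i ω, χ i ω = 0 ∨ χ i ω = 1) (k s : ℕ) :
    cost w A l χ s / 36 ≤ GG w A l χ (k + 1) s - GG w A l χ k (s + 1) := by
  have key : ∀ z i, ∑ j, A i j *
      (L1 l (fun ω => phi (uu A χ (s + 1) i ω) - phi (uu A χ s j ω)) ^ 2 / 36) ≤
      ∑ j, A i j * BB l (mm A χ z s j) - BB l (mm A χ z (s + 1) i) := by
    intro z i
    have := bellman_avg hl (fun j => A i j) (h.A0 i) (h.A1 i) (a := mm A χ z (s + 1) i)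
      (b := fun j => mm A χ z s j) (mm_nonneg h hχ z _ _) (mm_le_one h hχ z _ _)
      (fun j => mm_nonneg h hχ z _ _) (fun j => mm_le_one h hχ z _ _) (fun ω => by
        unfold mm
        rw [uu_succ]
        simp_rw [mul_add]
        rw [Finset.sum_add_distrib, ← Finset.sum_mul, h.A1, one_mul, Finset.mul_sum]
        congr 1
        exact Finset.sum_congr rfl fun j _ => by ring)
    refine le_trans (le_of_eq ?_) this
    refine Finset.sum_congr rfl fun j _ => ?_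
    congr 3
    unfold L1
    refine Finset.sum_congr rfl fun ω _ => ?_
    congr 1
    unfold mm
    rcases hχ z ω with e | e
    · simp [e]
    · beta_reduce
      rw [e, abs_sub_comm]
      congr 1
      unfold phi; ring
  have e1 : cost w A l χ s / 36 = ∑ z, ∑ i, w z * (A ^ k) z i * ∑ j, A i j *
      (L1 l (fun ω => phi (uu A χ (s + 1) i ω) - phi (uu A χ s j ω)) ^ 2 / 36) := by
    rw [Finset.sum_comm]
    simp_rw [← Finset.sum_mul, h.powstat]
    unfold cost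
    rw [Finset.sum_div]
    refine Finset.sum_congr rfl fun i _ => ?_
    rw [Finset.sum_div, Finset.mul_sum]
    exact Finset.sum_congr rfl fun j _ => by ring
  have e2 : GG w A l χ (k + 1) s = ∑ z, ∑ i, w z * (A ^ k) z i *
      ∑ j, A i j * BB l (mm A χ z s j) := by
    unfold GG
    refine Finset.sum_congr rfl fun z _ => ?_
    simp_rw [pow_succ, Matrix.mul_apply, Finset.mul_sum, Finset.sum_mul]
    rw [Finset.sum_comm]
    refine Finset.sum_congr rfl fun i _ => Finset.sum_congr rfl fun j _ => by ring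
  rw [e1, e2]
  unfold GG
  rw [← Finset.sum_sub_distrib]
  refine Finset.sum_le_sum fun z _ => ?_
  rw [← Finset.sum_sub_distrib]
  refine Finset.sum_le_sum fun i _ => ?_
  rw [← mul_sub]
  exact mul_le_mul_of_nonneg_left (key z i) (mul_nonneg (h.w0 z) (h.pow0 k z i))

lemma GG_tele (h : Chain w A) (hl : ∀ ω, 0 ≤ l ω) (hχ : ∀ i ω, χ i ω = 0 ∨ χ i ω = 1) (s : ℕ) :
    ∀ k, (∑ r ∈ Finset.range s, cost w A l χ r) / 36 ≤ GG w A l χ (k + s) 0 - GG w A l χ k s := by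
  induction s with
  | zero => intro k; simp
  | succ s ih =>
    intro k
    have h1 := ih (k + 1)
    have h2 := GG_step h hl hχ k s
    rw [Finset.sum_range_succ, show k + (s + 1) = k + 1 + s by ring]
    linarith

lemma GG_nonneg (h : Chain w A) (hl : ∀ ω, 0 ≤ l ω) (hχ : ∀ i ω, χ i ω = 0 ∨ χ i ω = 1) (k s : ℕ) :
    0 ≤ GG w A l χ k s :=
  Finset.sum_nonneg fun z _ => Finset.sum_nonneg fun i _ =>
    mul_nonneg (mul_nonneg (h.w0 z) (h.pow0 k z i)) (BB_nonneg hl (mm_nonneg h hχ z s i))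

lemma GG_zero (hχ : ∀ i ω, χ i ω = 0 ∨ χ i ω = 1) (k : ℕ) :
    GG w A l χ k 0 = 3 * ee w A (fun i j => L1 l (fun ω => χ i ω - χ j ω)) k := by
  unfold GG ee
  rw [Finset.mul_sum]
  refine Finset.sum_congr rfl fun z _ => ?_
  rw [Finset.mul_sum]
  refine Finset.sum_congr rfl fun i _ => ?_
  have h1 : NN l (mm A χ z 0 i) = L1 l (fun ω => χ z ω - χ i ω) := by
    unfold NN L1 mm
    refine Finset.sum_congr rfl fun ω _ => ?_
    rw [uu_zero]
    rcases hχ z ω with e | e <;> rcases hχ i ω with e' | e' <;> simp [e, e'] <;> norm_num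
  have h2 : PP l (mm A χ z 0 i) (mm A χ z 0 i) = L1 l (fun ω => χ z ω - χ i ω) := by
    unfold PP L1 mm
    refine Finset.sum_congr rfl fun ω _ => ?_
    rw [uu_zero]
    rcases hχ z ω with e | e <;> rcases hχ i ω with e' | e' <;> simp [e, e'] <;> norm_num
  unfold BB
  rw [h1, h2]; ring

lemma cost_sum_le (h : Chain w A) (hl : ∀ ω, 0 ≤ l ω) (hχ : ∀ i ω, χ i ω = 0 ∨ χ i ω = 1)
    (t : ℕ) : ∑ r ∈ Finset.range t, cost w A l χ r ≤
      108 * ee w A (fun i j => L1 l (fun ω => χ i ω - χ j ω)) t := by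
  have h1 := GG_tele h hl hχ t 0
  have h2 := GG_nonneg h hl hχ 0 t
  rw [zero_add, GG_zero hχ] at h1
  linarith

variable (A χ) in
/-- the averaged cut functions -/
noncomputable def eta (t : ℕ) (i : ι) (ω : Ω) : ℝ :=
  (1 / (t : ℝ)) * ∑ s ∈ Finset.range t, phi (uu A χ (s + 1) i ω)

theorem main (h : Chain w A) (hl : ∀ ω, 0 ≤ l ω) (hχ : ∀ i ω, χ i ω = 0 ∨ χ i ω = 1)
    (t : ℕ) (ht : 1 ≤ t) :
    ∑ i, w i * L1 l (fun ω => eta A χ t i ω - χ i ω) ^ 2 +
      t * ∑ i, ∑ j, w i * A i j * L1 l (fun ω => eta A χ t i ω - eta A χ t j ω) ^ 2 ≤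
      900 * ((1 / (t : ℝ)) * ∑ s ∈ Finset.Icc 1 t,
        ee w A (fun i j => L1 l (fun ω => χ i ω - χ j ω)) s) := by
  set d : ι → ι → ℝ := fun i j => L1 l (fun ω => χ i ω - χ j ω) with hd
  have htpos : (0 : ℝ) < t := by exact_mod_cast ht
  have ht1 : (1 : ℝ) ≤ t := by exact_mod_cast ht
  have hinv : 0 ≤ 1 / (t : ℝ) := by positivity
  have havg := ee_le_avg h (d := d) (fun i j => L1_nonneg hl _) (fun i => by simp [hd, L1])
    (fun i j k => by
      have := L1_add_le hl (fun ω => χ i ω - χ k ω) (fun ω => χ k ω - χ j ω)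
      simpa [hd] using this) t
  have hIcc : ∑ s ∈ Finset.Icc 1 t, ee w A d s = ∑ s ∈ Finset.range t, ee w A d (s + 1) := by
    rw [Finset.range_eq_Ico, Finset.sum_Ico_add' (fun s => ee w A d s) 0 t 1, zero_add]
    rfl
  set E := ∑ s ∈ Finset.Icc 1 t, ee w A d s with hE
  have het : ee w A d t ≤ 4 * (1 / (t : ℝ) * E) := by
    rw [one_div, ← mul_assoc, mul_comm 4, mul_assoc, le_inv_mul_iff₀ htpos]
    exact havg
  have first : ∑ i, w i * L1 l (fun ω => eta A χ t i ω - χ i ω) ^ 2 ≤ 4 * (1 / (t : ℝ) * E) := by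
    have h1 : ∀ i, L1 l (fun ω => eta A χ t i ω - χ i ω) ^ 2 ≤
        1 / (t : ℝ) * ∑ s ∈ Finset.range t, L1 l (fun ω => phi (uu A χ (s + 1) i ω) - χ i ω) ^ 2 := by
      intro i
      have e : (fun ω => eta A χ t i ω - χ i ω) = fun ω => 1 / (t : ℝ) *
          ∑ s ∈ Finset.range t, (phi (uu A χ (s + 1) i ω) - χ i ω) := by
        funext ω
        rw [Finset.sum_sub_distrib, Finset.sum_const, Finset.card_range, nsmul_eq_mul, mul_sub]
        unfold eta
        field_simp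
      rw [e, L1_const_mul hinv]
      have h2 := L1_sum_le hl (Finset.range t) (fun s ω => phi (uu A χ (s + 1) i ω) - χ i ω)
      have h3 := pow_le_pow_left₀ (L1_nonneg hl _) h2 2
      have h4 := sq_sum_le_card_mul_sum_sq (s := Finset.range t)
        (f := fun s => L1 l (fun ω => phi (uu A χ (s + 1) i ω) - χ i ω))
      rw [Finset.card_range] at h4
      have h5 := mul_le_mul_of_nonneg_left (h3.trans h4) (sq_nonneg (1 / (t : ℝ)))
      rw [mul_pow]
      refine h5.trans (le_of_eq ?_)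
      field_simp
    calc _ ≤ ∑ i, w i * (1 / (t : ℝ) * ∑ s ∈ Finset.range t,
            L1 l (fun ω => phi (uu A χ (s + 1) i ω) - χ i ω) ^ 2) :=
          Finset.sum_le_sum fun i _ => mul_le_mul_of_nonneg_left (h1 i) (h.w0 i)
      _ = 1 / (t : ℝ) * ∑ s ∈ Finset.range t, ∑ i, w i *
            L1 l (fun ω => phi (uu A χ (s + 1) i ω) - χ i ω) ^ 2 := by
          rw [Finset.sum_comm, Finset.mul_sum]
          refine Finset.sum_congr rfl fun i _ => ?_
          rw [← Finset.mul_sum]; ring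
      _ ≤ 1 / (t : ℝ) * ∑ s ∈ Finset.range t, 4 * ee w A d (s + 1) :=
          mul_le_mul_of_nonneg_left (Finset.sum_le_sum fun s _ => near_le h hl hχ (s + 1)) hinv
      _ = _ := by rw [← Finset.mul_sum, ← hIcc]; ring
  have second : t * ∑ i, ∑ j, w i * A i j * L1 l (fun ω => eta A χ t i ω - eta A χ t j ω) ^ 2 ≤
      224 * ee w A d t := by
    have h1 : ∀ i j, t * L1 l (fun ω => eta A χ t i ω - eta A χ t j ω) ^ 2 ≤
        2 * ∑ s ∈ Finset.range t,
          L1 l (fun ω => phi (uu A χ (s + 1) i ω) - phi (uu A χ s j ω)) ^ 2 +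
        2 * L1 l (fun ω => phi (uu A χ t j ω) - χ j ω) ^ 2 := by
      intro i j
      have e : (fun ω => eta A χ t i ω - eta A χ t j ω) = fun ω => 1 / (t : ℝ) *
          (∑ s ∈ Finset.range t, (phi (uu A χ (s + 1) i ω) - phi (uu A χ s j ω)) +
            -(phi (uu A χ t j ω) - χ j ω)) := by
        funext ω
        have h1 := Finset.sum_range_succ (fun s => phi (uu A χ s j ω)) t
        have h2 := Finset.sum_range_succ' (fun s => phi (uu A χ s j ω)) t
        have h3 : phi (uu A χ 0 j ω) = χ j ω := by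
          rw [uu_zero]; unfold phi
          rcases hχ j ω with e | e <;> rw [e] <;> norm_num
        rw [Finset.sum_sub_distrib]
        unfold eta
        rw [← mul_sub]
        congr 1
        linarith
      rw [e, L1_const_mul hinv]
      have h2 := L1_add_le hl
        (fun ω => ∑ s ∈ Finset.range t, (phi (uu A χ (s + 1) i ω) - phi (uu A χ s j ω)))
        (fun ω => -(phi (uu A χ t j ω) - χ j ω))
      have h2' : L1 l (fun ω => -(phi (uu A χ t j ω) - χ j ω)) =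
          L1 l (fun ω => phi (uu A χ t j ω) - χ j ω) := by
        unfold L1; simp_rw [abs_neg]
      have h3 := L1_sum_le hl (Finset.range t)
        (fun s ω => phi (uu A χ (s + 1) i ω) - phi (uu A χ s j ω))
      have h4 := sq_sum_le_card_mul_sum_sq (s := Finset.range t)
        (f := fun s => L1 l (fun ω => phi (uu A χ (s + 1) i ω) - phi (uu A χ s j ω)))
      rw [Finset.card_range] at h4
      rw [h2'] at h2
      set X := L1 l (fun ω => ∑ s ∈ Finset.range t,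
        (phi (uu A χ (s + 1) i ω) - phi (uu A χ s j ω)) + -(phi (uu A χ t j ω) - χ j ω)) with hX
      set S := ∑ s ∈ Finset.range t,
        L1 l (fun ω => phi (uu A χ (s + 1) i ω) - phi (uu A χ s j ω)) with hS
      set Q := ∑ s ∈ Finset.range t,
        L1 l (fun ω => phi (uu A χ (s + 1) i ω) - phi (uu A χ s j ω)) ^ 2 with hQ
      set b := L1 l (fun ω => phi (uu A χ t j ω) - χ j ω) with hb
      have hX0 : 0 ≤ X := L1_nonneg hl _
      have h5 : X ^ 2 ≤ (S + b) ^ 2 := pow_le_pow_left₀ hX0 (by linarith) 2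
      have h6 : X ^ 2 ≤ t * (2 * Q + 2 * b ^ 2) := by
        nlinarith [sq_nonneg (S - b), sq_nonneg b]
      have h7 : (t : ℝ) * (1 / (t : ℝ) * X) ^ 2 = 1 / (t : ℝ) * X ^ 2 := by field_simp
      rw [h7, one_div, inv_mul_le_iff₀ htpos]
      exact h6
    calc _ = ∑ i, ∑ j, w i * A i j *
            (t * L1 l (fun ω => eta A χ t i ω - eta A χ t j ω) ^ 2) := by
          rw [Finset.mul_sum]
          refine Finset.sum_congr rfl fun i _ => ?_
          rw [Finset.mul_sum]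
          exact Finset.sum_congr rfl fun j _ => by ring
      _ ≤ ∑ i, ∑ j, w i * A i j * (2 * ∑ s ∈ Finset.range t,
          L1 l (fun ω => phi (uu A χ (s + 1) i ω) - phi (uu A χ s j ω)) ^ 2 +
          2 * L1 l (fun ω => phi (uu A χ t j ω) - χ j ω) ^ 2) :=
          Finset.sum_le_sum fun i _ => Finset.sum_le_sum fun j _ =>
            mul_le_mul_of_nonneg_left (h1 i j) (mul_nonneg (h.w0 i) (h.A0 i j))
      _ = 2 * ∑ s ∈ Finset.range t, cost w A l χ s +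
          2 * ∑ j, w j * L1 l (fun ω => phi (uu A χ t j ω) - χ j ω) ^ 2 := by
          simp_rw [mul_add, Finset.sum_add_distrib]
          congr 1
          · unfold cost
            rw [Finset.sum_comm (s := Finset.range t), Finset.mul_sum]
            refine Finset.sum_congr rfl fun i _ => ?_
            rw [Finset.sum_comm (s := Finset.range t), Finset.mul_sum]
            refine Finset.sum_congr rfl fun j _ => ?_
            rw [← Finset.mul_sum]; ring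
          · rw [Finset.sum_comm, Finset.mul_sum]
            refine Finset.sum_congr rfl fun j _ => ?_
            rw [← Finset.sum_mul, h.stat]; ring
      _ ≤ _ := by
          have h2 := cost_sum_le h hl hχ t
          have h3 := near_le h hl hχ t
          linarith
  linarith

end chain

end Crest.Agent.H4.MC
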