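import Mathlib

set_option autoImplicit false

namespace Crest.Agent.H4.Pfx
open Finset

/-- finite support -/
def FS {X : Type*} (g : X → ℝ) : Prop := (Function.support g).Finite

noncomputable def nrm {X : Type*} (g : X → ℝ) : ℝ := ∑' x, g x ^ 2

noncomputable def en {X : Type*} [Add X] (g : X → ℝ) (h : X) : ℝ := ∑' x, (g (x + h) - g x) ^ 2

section basic
variable {X : Type*}

lemma FS.summable {g : X → ℝ} (hg : FS g) : Summable g :=
  summable_of_hasFiniteSupport hg

lemma FS.mono {g F : X → ℝ} (hg : FS g) (h : ∀ x, g x = 0 → F x = 0) : FS F := by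
  refine Set.Finite.subset hg ?_
  intro x hx
  simp only [Function.mem_support] at hx ⊢
  exact fun h0 => hx (h x h0)

lemma FS.of_or {g g' F : X → ℝ} (hg : FS g) (hg' : FS g')
    (h : ∀ x, g x = 0 → g' x = 0 → F x = 0) : FS F := by
  refine Set.Finite.subset (Set.Finite.union hg hg') ?_
  intro x hx
  simp only [Function.mem_support, Set.mem_union] at hx ⊢
  by_contra hc
  push Not at hc
  exact hx (h x hc.1 hc.2)

lemma FS.comp {Y : Type*} {g : X → ℝ} (hg : FS g) {e : Y → X} (he : Function.Injective e) :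
    FS (fun y => g (e y)) := by
  have : Function.support (fun y => g (e y)) = e ⁻¹' Function.support g := rfl
  unfold FS
  rw [this]
  exact Set.Finite.preimage he.injOn hg

lemma FS.shift [AddCommGroup X] {g : X → ℝ} (hg : FS g) (h : X) : FS (fun x => g (x + h)) :=
  hg.comp (add_left_injective h)

lemma FS.sq {g : X → ℝ} (hg : FS g) : FS (fun x => g x ^ 2) :=
  hg.mono (fun x hx => by simp [hx])

lemma nrm_nonneg (g : X → ℝ) : 0 ≤ nrm g := tsum_nonneg (fun _ => sq_nonneg _)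

lemma en_nonneg [Add X] (g : X → ℝ) (h : X) : 0 ≤ en g h := tsum_nonneg (fun _ => sq_nonneg _)

lemma nrm_shift [AddCommGroup X] (g : X → ℝ) (h : X) : nrm (fun x => g (x + h)) = nrm g :=
  (Equiv.addRight h).tsum_eq (fun x => g x ^ 2)

lemma en_shift [AddCommGroup X] (g : X → ℝ) (h a : X) :
    en (fun x => g (x + a)) h = en g h := by
  unfold en
  rw [← (Equiv.addRight a).tsum_eq (fun x => (g (x + h) - g x) ^ 2)]
  refine tsum_congr fun x => ?_
  simp only [Equiv.coe_addRight]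
  rw [add_right_comm]

lemma FS.en_summable [AddCommGroup X] {g : X → ℝ} (hg : FS g) (h : X) :
    Summable (fun x => (g (x + h) - g x) ^ 2) :=
  (FS.of_or (hg.shift h) hg (fun x h1 h2 => by simp [h1, h2])).summable

lemma exists_ne_zero_of_nrm {g : X → ℝ} (h : nrm g ≠ 0) : ∃ x, g x ≠ 0 := by
  by_contra hc
  push Not at hc
  apply h
  simp [nrm, hc]

lemma sq_sqrt_sub_le {u w : X → ℝ} (hu : FS u) (hw : FS w) :
    (√(∑' y, u y ^ 2) - √(∑' y, w y ^ 2)) ^ 2 ≤ ∑' y, (u y - w y) ^ 2 := by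
  classical
  set s : Finset X := (Set.Finite.union hu hw).toFinset with hs
  have hsu : ∀ y ∉ s, u y = 0 := by
    intro y hy
    simp only [hs, Set.Finite.mem_toFinset, Set.mem_union, Function.mem_support, not_or,
      not_not] at hy
    exact hy.1
  have hsw : ∀ y ∉ s, w y = 0 := by
    intro y hy
    simp only [hs, Set.Finite.mem_toFinset, Set.mem_union, Function.mem_support, not_or,
      not_not] at hy
    exact hy.2
  rw [tsum_eq_sum (s := s) (fun y hy => by simp [hsu y hy]),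
    tsum_eq_sum (s := s) (f := fun y => w y ^ 2) (fun y hy => by simp [hsw y hy]),
    tsum_eq_sum (s := s) (f := fun y => (u y - w y) ^ 2)
      (fun y hy => by simp [hsu y hy, hsw y hy])]
  have hcs := Real.sum_mul_le_sqrt_mul_sqrt s u w
  have h1 : 0 ≤ ∑ y ∈ s, u y ^ 2 := sum_nonneg fun _ _ => sq_nonneg _
  have h2 : 0 ≤ ∑ y ∈ s, w y ^ 2 := sum_nonneg fun _ _ => sq_nonneg _
  have h3 : ∑ y ∈ s, (u y - w y) ^ 2
      = ∑ y ∈ s, u y ^ 2 + ∑ y ∈ s, w y ^ 2 - 2 * ∑ y ∈ s, u y * w y := by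
    rw [mul_sum, ← sum_add_distrib, ← sum_sub_distrib]
    exact sum_congr rfl fun y _ => by ring
  rw [h3]
  nlinarith [Real.sq_sqrt h1, Real.sq_sqrt h2]

end basic

section marg
variable {X Y : Type*}

lemma FS.fiber {G : X × Y → ℝ} (hG : FS G) (x : X) : FS (fun y => G (x, y)) :=
  hG.comp (e := fun y => (x, y)) (fun _ _ h => (Prod.ext_iff.1 h).2)

/-- marginal amplitude -/
noncomputable def marg (G : X × Y → ℝ) (x : X) : ℝ := √(∑' y, G (x, y) ^ 2)

lemma marg_nonneg (G : X × Y → ℝ) (x : X) : 0 ≤ marg G x := Real.sqrt_nonneg _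

lemma marg_ne_zero {G : X × Y → ℝ} {x : X} (h : marg G x ≠ 0) : ∃ y, G (x, y) ≠ 0 := by
  by_contra hc
  push Not at hc
  apply h
  simp [marg, hc]

lemma FS.marg {G : X × Y → ℝ} (hG : FS G) : FS (marg G) := by
  refine Set.Finite.subset (Set.Finite.image Prod.fst hG) ?_
  intro x hx
  obtain ⟨y, hy⟩ := marg_ne_zero hx
  exact ⟨(x, y), hy, rfl⟩

lemma nrm_marg {G : X × Y → ℝ} (hG : FS G) : nrm (marg G) = nrm G := by
  unfold nrm
  rw [hG.sq.summable.tsum_prod]
  refine tsum_congr fun x => ?_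
  unfold marg
  rw [Real.sq_sqrt (tsum_nonneg fun _ => sq_nonneg _)]

lemma en_marg [AddCommGroup X] [AddCommGroup Y] {G : X × Y → ℝ} (hG : FS G) (h : X) (j : Y) :
    en (marg G) h ≤ en G (h, j) := by
  unfold en
  rw [(hG.en_summable (h, j)).tsum_prod]
  refine Summable.tsum_le_tsum (fun x => ?_) (hG.marg.en_summable h)
    (hG.en_summable (h, j)).prod
  have e1 : marg G (x + h) = √(∑' y, G (x + h, y + j) ^ 2) := by
    unfold marg
    rw [← (Equiv.addRight j).tsum_eq (fun y => G (x + h, y) ^ 2)]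
    rfl
  rw [e1]
  exact sq_sqrt_sub_le ((hG.fiber (x + h)).shift j) (hG.fiber x)

lemma FS.tensor {g : X → ℝ} {ψ : Y → ℝ} (hg : FS g) (hψ : FS ψ) :
    FS (fun p : X × Y => g p.1 * ψ p.2) := by
  refine Set.Finite.subset (Set.Finite.prod hg hψ) ?_
  intro p hp
  simp only [Function.mem_support, ne_eq, mul_eq_zero, not_or] at hp
  exact ⟨hp.1, hp.2⟩

lemma nrm_tensor {g : X → ℝ} {ψ : Y → ℝ} (hg : FS g) (hψ : FS ψ) :
    nrm (fun p : X × Y => g p.1 * ψ p.2) = nrm g * nrm ψ := by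
  unfold nrm
  rw [(hg.tensor hψ).sq.summable.tsum_prod, ← tsum_mul_right]
  refine tsum_congr fun x => ?_
  rw [← tsum_mul_left]
  exact tsum_congr fun y => by ring

lemma en_tensor [AddCommGroup X] [AddCommGroup Y] {g : X → ℝ} {ψ : Y → ℝ} (hg : FS g)
    (hψ : FS ψ) (h1 : nrm ψ = 1) (h : X) (j : Y) :
    en (fun p : X × Y => g p.1 * ψ p.2) (h, j) ≤ en g h + en ψ j * nrm g := by
  have hE : 0 ≤ en ψ j := en_nonneg _ _
  have hin : ∀ a b : ℝ, ∑' y, (a * ψ (y + j) - b * ψ y) ^ 2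
      ≤ (a - b) ^ 2 + en ψ j * ((a ^ 2 + b ^ 2) / 2) := by
    intro a b
    have s1 := (hψ.shift j).sq.summable
    have s2 := hψ.sq.summable
    have s3 := hψ.en_summable j
    have e : ∀ y, (a * ψ (y + j) - b * ψ y) ^ 2
        = (a ^ 2 - a * b) * ψ (y + j) ^ 2 + (b ^ 2 - a * b) * ψ y ^ 2
          + a * b * (ψ (y + j) - ψ y) ^ 2 := fun y => by ring
    rw [tsum_congr e, ((s1.mul_left _).add (s2.mul_left _)).tsum_add (s3.mul_left _),
      (s1.mul_left _).tsum_add (s2.mul_left _), tsum_mul_left, tsum_mul_left, tsum_mul_left]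
    have n1 : ∑' y, ψ (y + j) ^ 2 = 1 := by rw [← h1]; exact nrm_shift ψ j
    have n2 : ∑' y, ψ y ^ 2 = 1 := h1
    rw [n1, n2]
    change _ + _ + a * b * en ψ j ≤ _
    nlinarith [mul_nonneg hE (sq_nonneg (a - b))]
  unfold en
  rw [((hg.tensor hψ).en_summable (h, j)).tsum_prod]
  have s1 := (hg.shift h).sq.summable
  have s2 := hg.sq.summable
  have s3 := hg.en_summable h
  calc ∑' x, ∑' y, (g ((x, y) + (h, j)).1 * ψ ((x, y) + (h, j)).2 - g (x, y).1 * ψ (x, y).2) ^ 2
      ≤ ∑' x, ((g (x + h) - g x) ^ 2 + en ψ j * ((g (x + h) ^ 2 + g x ^ 2) / 2)) := by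
        refine Summable.tsum_le_tsum (fun x => hin (g (x + h)) (g x))
          ((hg.tensor hψ).en_summable (h, j)).prod ?_
        exact s3.add (((s1.add s2).div_const 2).mul_left _)
    _ = ∑' x, (g (x + h) - g x) ^ 2 + en ψ j * nrm g := by
        rw [s3.tsum_add (((s1.add s2).div_const 2).mul_left _), tsum_mul_left, tsum_div_const,
          s1.tsum_add s2]
        have n1 : ∑' x, g (x + h) ^ 2 = nrm g := nrm_shift g h
        rw [n1]
        change _ + _ * ((nrm g + nrm g) / 2) = _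
        ring

end marg

/-- the discrete tent -/
lemma exists_tent (N : ℕ) (hN : 1 ≤ N) : ∃ ψ : ℤ → ℝ, FS ψ ∧ (∀ k, ψ k ≠ 0 → |k| ≤ 2 * N) ∧
    nrm ψ = 1 ∧ ∀ j : ℤ, en ψ j ≤ 64 * ((j : ℝ) * (1 / (4 * N))) ^ 2 := by
  set φ : ℤ → ℝ := fun k => max 0 (2 * N - |(k : ℝ)|) with hφ
  have hsupp : ∀ k, φ k ≠ 0 → |k| < 2 * N := by
    intro k hk
    by_contra hc
    push Not at hc
    apply hk
    have : (2 * N : ℝ) ≤ |(k : ℝ)| := by exact_mod_cast hc
    simp only [hφ]
    exact max_eq_left (by linarith)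
  have hFS : FS φ := by
    refine Set.Finite.subset (Set.finite_Icc (-(2 * N : ℤ)) (2 * N)) ?_
    intro k hk
    have := hsupp k hk
    rw [abs_lt] at this
    exact ⟨this.1.le, this.2.le⟩
  have hNr : (1 : ℝ) ≤ N := by exact_mod_cast hN
  have hlow : 2 * (N : ℝ) ^ 3 ≤ nrm φ := by
    have h1 : ∑ k ∈ Finset.Icc (-(N : ℤ)) N, φ k ^ 2 ≤ nrm φ :=
      hFS.sq.summable.sum_le_tsum _ (fun _ _ => sq_nonneg _)
    have h2 : ∑ k ∈ Finset.Icc (-(N : ℤ)) N, (N : ℝ) ^ 2
        ≤ ∑ k ∈ Finset.Icc (-(N : ℤ)) N, φ k ^ 2 := by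
      refine sum_le_sum fun k hk => ?_
      rw [Finset.mem_Icc] at hk
      have : |(k : ℝ)| ≤ N := by
        have : |k| ≤ N := abs_le.2 hk
        exact_mod_cast this
      have h3 : (N : ℝ) ≤ φ k := le_max_of_le_right (by linarith)
      exact pow_le_pow_left₀ (by positivity) h3 2
    rw [sum_const, Int.card_Icc, nsmul_eq_mul] at h2
    have h4 : (((N : ℤ) + 1 - -(N : ℤ)).toNat : ℝ) = 2 * N + 1 := by
      have : ((N : ℤ) + 1 - -(N : ℤ)).toNat = 2 * N + 1 := by omega
      rw [this]; push_cast; ring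
    rw [h4] at h2
    nlinarith [sq_nonneg (N : ℝ)]
  have hpos : 0 < nrm φ := lt_of_lt_of_le (by positivity) hlow
  have hlip : ∀ k j : ℤ, (φ (k + j) - φ k) ^ 2 ≤ (j : ℝ) ^ 2 := by
    intro k j
    rw [sq_le_sq]
    simp only [hφ]
    refine (abs_max_sub_max_le_max _ _ _ _).trans ?_
    simp only [sub_self, abs_zero]
    refine max_le (abs_nonneg _) ?_
    have : (2 * N - |((k + j : ℤ) : ℝ)|) - (2 * N - |(k : ℝ)|)
        = -(|((k + j : ℤ) : ℝ)| - |(k : ℝ)|) := by ring
    rw [this, abs_neg]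
    refine (abs_abs_sub_abs_le_abs_sub _ _).trans ?_
    push_cast
    simp
  have hen : ∀ j : ℤ, en φ j ≤ 8 * N * (j : ℝ) ^ 2 := by
    intro j
    set s : Finset ℤ := Finset.Ioo (-(2 * N : ℤ)) (2 * N) ∪
      Finset.Ioo (-(2 * N : ℤ) - j) (2 * N - j) with hs
    unfold en
    rw [tsum_eq_sum (s := s)]
    · calc ∑ k ∈ s, (φ (k + j) - φ k) ^ 2 ≤ ∑ k ∈ s, (j : ℝ) ^ 2 :=
            sum_le_sum fun k _ => hlip k j
        _ = s.card * (j : ℝ) ^ 2 := by rw [sum_const, nsmul_eq_mul]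
        _ ≤ 8 * N * (j : ℝ) ^ 2 := by
            refine mul_le_mul_of_nonneg_right ?_ (sq_nonneg _)
            have h1 : s.card ≤ 8 * N := by
              refine (card_union_le _ _).trans ?_
              rw [Int.card_Ioo, Int.card_Ioo]
              omega
            exact_mod_cast h1
    · intro k hk
      simp only [hs, mem_union, Finset.mem_Ioo, not_or] at hk
      have h1 : φ k = 0 := by
        by_contra hc
        have := hsupp k hc
        rw [abs_lt] at this
        exact hk.1 this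
      have h2 : φ (k + j) = 0 := by
        by_contra hc
        have := hsupp _ hc
        rw [abs_lt] at this
        apply hk.2
        constructor <;> omega
      simp [h1, h2]
  set c : ℝ := 1 / √(nrm φ) with hc
  have hc2 : c ^ 2 = 1 / nrm φ := by
    rw [hc, div_pow, Real.sq_sqrt hpos.le]; simp
  refine ⟨fun k => c * φ k, hFS.mono (fun k hk => by simp [hk]), ?_, ?_, ?_⟩
  · intro k hk
    exact (hsupp k (fun h0 => hk (by simp [h0]))).le
  · unfold nrm
    simp only [mul_pow]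
    rw [tsum_mul_left, hc2]
    change 1 / nrm φ * nrm φ = 1
    field_simp
  · intro j
    have : en (fun k => c * φ k) j = c ^ 2 * en φ j := by
      unfold en
      rw [← tsum_mul_left]
      exact tsum_congr fun k => by ring
    rw [this, hc2]
    calc 1 / nrm φ * en φ j ≤ 1 / (2 * (N : ℝ) ^ 3) * (8 * N * (j : ℝ) ^ 2) := by
          refine mul_le_mul ?_ (hen j) (en_nonneg _ _) (by positivity)
          exact one_div_le_one_div_of_le (by positivity) hlow
      _ = 64 * ((j : ℝ) * (1 / (4 * N))) ^ 2 := by field_simp; ring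

end Crest.Agent.H4.Pfx
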