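import Crest.Agent.H4.PfxEnergy

set_option autoImplicit false

namespace Crest.Agent.H4.Pfx
open Finset

/-- soft partition of unity -/
lemma exists_chi (L : ℕ) : ∃ χ : Fin (L + 1) → ℝ → ℝ, (∀ l s, 0 ≤ χ l s) ∧
    (∀ s : ℝ, 0 ≤ s → s ≤ L → ∑ l, χ l s ^ 2 = 1) ∧
    (∀ l s, χ l s ≠ 0 → |s - (l : ℕ)| ≤ 1) ∧
    ∀ s s' : ℝ, ∑ l, (χ l s - χ l s') ^ 2 ≤ 10 * (s - s') ^ 2 := by
  set φ : ℝ → ℝ := fun x => Real.cos (Real.pi / 2 * min 1 |x|) with hφ
  have hzero : ∀ x, 1 ≤ |x| → φ x = 0 := by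
    intro x hx
    simp only [hφ, min_eq_left hx, mul_one, Real.cos_pi_div_two]
  set u : ℝ → ℝ := fun x => Real.sin (Real.pi / 2 * max 0 (min 1 x)) ^ 2 with hu
  have hu1 : ∀ x, 1 ≤ x → u x = 1 := by
    intro x hx
    simp [hu, min_eq_left hx]
  have hu0 : ∀ x, x ≤ 0 → u x = 0 := by
    intro x hx
    have : max 0 (min 1 x) = 0 := max_eq_left ((min_le_right _ _).trans hx)
    simp [hu, this]
  have hid : ∀ x, φ x ^ 2 = u (x + 1) - u x := by
    intro x
    rcases le_total 1 |x| with h | h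
    · rw [hzero x h]
      rcases le_abs.1 h with h | h
      · rw [hu1 _ h, hu1 _ (by linarith)]; simp
      · rw [hu0 _ (by linarith), hu0 _ (by linarith)]; simp
    · have h' := abs_le.1 h
      rcases le_total 0 x with hx | hx
      · rw [hu1 _ (by linarith)]
        simp only [hφ, hu, min_eq_right h, abs_of_nonneg hx, min_eq_right h'.2, max_eq_right hx]
        rw [Real.cos_sq']
      · rw [hu0 _ hx]
        have e1 : min 1 (x + 1) = x + 1 := min_eq_right (by linarith)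
        have e2 : max 0 (x + 1) = x + 1 := max_eq_right (by linarith)
        simp only [hφ, hu, min_eq_right h, e1, e2, sub_zero]
        rw [abs_of_nonpos hx, show Real.pi / 2 * (x + 1) = Real.pi / 2 - Real.pi / 2 * -x by ring,
          Real.sin_pi_div_two_sub]
  have hlip : ∀ x y, |φ x - φ y| ≤ Real.pi / 2 * |x - y| := by
    intro x y
    refine (Real.abs_cos_sub_cos_le _ _).trans ?_
    rw [← mul_sub, abs_mul, abs_of_pos (by positivity : 0 < Real.pi / 2)]
    refine mul_le_mul_of_nonneg_left ?_ (by positivity)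
    refine (abs_min_sub_min_le_max _ _ _ _).trans ?_
    simp only [sub_self, abs_zero]
    exact max_le (abs_nonneg _) (abs_abs_sub_abs_le_abs_sub _ _)
  refine ⟨fun l s => φ (s - (l : ℕ)), ?_, ?_, ?_, ?_⟩
  · intro l s
    apply Real.cos_nonneg_of_neg_pi_div_two_le_of_le
    · have : 0 ≤ min 1 |s - (l : ℕ)| := le_min zero_le_one (abs_nonneg _)
      have := Real.pi_pos
      nlinarith
    · have : min 1 |s - (l : ℕ)| ≤ 1 := min_le_left _ _
      have := Real.pi_pos
      nlinarith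
  · intro s hs0 hsL
    rw [Fin.sum_univ_eq_sum_range (fun l : ℕ => φ (s - l) ^ 2)]
    have : ∀ l : ℕ, φ (s - l) ^ 2 = u (s - l + 1) - u (s - ((l + 1 : ℕ) : ℝ) + 1) := by
      intro l
      rw [hid]
      congr 2
      push_cast; ring
    rw [sum_congr rfl fun l _ => this l, sum_range_sub' (fun l : ℕ => u (s - l + 1))]
    rw [hu1 _ (by simp; linarith), hu0 _ (by push_cast; linarith)]
    simp
  · intro l s h
    by_contra hc
    exact h (hzero _ (not_le.1 hc).le)
  · intro s s'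
    classical
    set T : Finset ℤ := {⌊s⌋, ⌊s⌋ + 1, ⌊s'⌋, ⌊s'⌋ + 1} with hT
    have hmem : ∀ (l : ℕ) (x : ℝ), φ (x - l) ≠ 0 → (l : ℤ) = ⌊x⌋ ∨ (l : ℤ) = ⌊x⌋ + 1 := by
      intro l x h
      have h1 : |x - l| < 1 := by
        by_contra hc
        exact h (hzero _ (not_lt.1 hc))
      rw [abs_lt] at h1
      have h2 := Int.floor_le x
      have h3 := Int.lt_floor_add_one x
      have h4 : ((⌊x⌋ : ℤ) : ℝ) < (l : ℤ) + 1 := by push_cast; linarith
      have h5 : ((l : ℤ) : ℝ) < ((⌊x⌋ + 2 : ℤ) : ℝ) := by push_cast; linarith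
      have h4' : ⌊x⌋ < (l : ℤ) + 1 := by exact_mod_cast h4
      have h5' : (l : ℤ) < ⌊x⌋ + 2 := by exact_mod_cast h5
      omega
    set S : Finset (Fin (L + 1)) := univ.filter (fun l => ((l : ℕ) : ℤ) ∈ T) with hS
    have hScard : S.card ≤ 4 := by
      have h1 : S.card ≤ T.card := by
        refine card_le_card_of_injOn (fun l => ((l : ℕ) : ℤ)) ?_ ?_
        · intro l hl
          simpa [hS] using hl
        · intro a _ b _ h
          have h' : ((a : ℕ) : ℤ) = ((b : ℕ) : ℤ) := h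
          exact Fin.ext (by exact_mod_cast h')
      exact h1.trans card_le_four
    rw [← sum_subset (subset_univ S)]
    · calc ∑ l ∈ S, (φ (s - (l : ℕ)) - φ (s' - (l : ℕ))) ^ 2
          ≤ ∑ l ∈ S, (Real.pi / 2) ^ 2 * (s - s') ^ 2 := by
            refine sum_le_sum fun l _ => ?_
            have := hlip (s - (l : ℕ)) (s' - (l : ℕ))
            rw [show s - (l : ℕ) - (s' - (l : ℕ)) = s - s' by ring] at this
            rw [← sq_abs, ← sq_abs (s - s'), ← mul_pow]
            exact pow_le_pow_left₀ (abs_nonneg _) this 2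
        _ = S.card * ((Real.pi / 2) ^ 2 * (s - s') ^ 2) := by rw [sum_const, nsmul_eq_mul]
        _ ≤ 4 * ((Real.pi / 2) ^ 2 * (s - s') ^ 2) := by
            refine mul_le_mul_of_nonneg_right (by exact_mod_cast hScard) (by positivity)
        _ ≤ 10 * (s - s') ^ 2 := by
            have h1 := Real.pi_lt_d2
            have h2 := Real.pi_pos
            have : 4 * (Real.pi / 2) ^ 2 ≤ 10 := by nlinarith
            nlinarith [sq_nonneg (s - s')]
    · intro l _ hl
      have hl' : ((l : ℕ) : ℤ) ∉ T := by simpa [hS] using hl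
      have h1 : φ (s - (l : ℕ)) = 0 := by
        by_contra hc
        rcases hmem l s hc with h | h <;> simp [hT, h] at hl'
      have h2 : φ (s' - (l : ℕ)) = 0 := by
        by_contra hc
        rcases hmem l s' hc with h | h <;> simp [hT, h] at hl'
      simp [h1, h2]

lemma one_sub_prod_le {ι : Type*} (s : Finset ι) (ρ : ι → ℝ) (h0 : ∀ i, 0 ≤ ρ i)
    (h1 : ∀ i, ρ i ≤ 1) : 1 - ∏ i ∈ s, ρ i ≤ ∑ i ∈ s, (1 - ρ i) := by
  classical
  induction s using Finset.induction_on with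
  | empty => simp
  | insert a s ha ih =>
    rw [prod_insert ha, sum_insert ha]
    have hp : ∏ i ∈ s, ρ i ≤ 1 := prod_le_one (fun i _ => h0 i) (fun i _ => h1 i)
    nlinarith [h0 a, h1 a]

/-- the one-dimensional grid -/
noncomputable def grid1 (N : ℕ) : Finset ℝ :=
  (Finset.Icc (-(N : ℤ)) N).image (fun k : ℤ => 6 * (k : ℝ))

noncomputable def grid (N n : ℕ) : Finset (Fin n → ℝ) := Fintype.piFinset (fun _ => grid1 N)

lemma mem_grid1 {N : ℕ} {y : ℝ} : y ∈ grid1 N ↔ ∃ k : ℤ, -(N : ℤ) ≤ k ∧ k ≤ N ∧ 6 * (k : ℝ) = y := by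
  simp [grid1, and_assoc]

lemma card_grid1 (N : ℕ) : (grid1 N).card = 2 * N + 1 := by
  unfold grid1
  rw [card_image_of_injective _ (fun a b h => by
    have : (a : ℝ) = b := by linarith
    exact_mod_cast this), Int.card_Icc]
  omega

lemma card_grid (N n : ℕ) : (grid N n).card = (2 * N + 1) ^ n := by
  simp [grid, Fintype.card_piFinset, card_grid1]

lemma grid1_neg {N : ℕ} {y : ℝ} (h : y ∈ grid1 N) : -y ∈ grid1 N := by
  obtain ⟨k, h1, h2, rfl⟩ := mem_grid1.1 h
  exact mem_grid1.2 ⟨-k, by omega, by omega, by push_cast; ring⟩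

lemma grid1_abs {N : ℕ} {y : ℝ} (h : y ∈ grid1 N) : |y| ≤ 6 * N := by
  obtain ⟨k, h1, h2, rfl⟩ := mem_grid1.1 h
  have h1' : -(N : ℝ) ≤ k := by exact_mod_cast h1
  have h2' : (k : ℝ) ≤ N := by exact_mod_cast h2
  rw [abs_le]; constructor <;> linarith

lemma grid_abs {N n : ℕ} {y : Fin n → ℝ} (h : y ∈ grid N n) (i : Fin n) : |y i| ≤ 6 * N :=
  grid1_abs (Fintype.mem_piFinset.1 h i)

lemma sum_odd {N n : ℕ} (j : Fin n) (F : (Fin n → ℝ) → ℝ)
    (hF : ∀ y, F (Function.update y j (-y j)) = -F y) : ∑ y ∈ grid N n, F y = 0 := by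
  refine sum_involution (fun y _ => Function.update y j (-y j)) ?_ ?_ ?_ ?_
  · intro y _
    rw [hF]; ring
  · intro y _ h0 h
    have := hF y
    rw [h] at this
    exact h0 (by linarith)
  · intro y hy
    rw [grid, Fintype.mem_piFinset] at hy ⊢
    intro i
    rcases eq_or_ne i j with rfl | h
    · simpa using grid1_neg (hy i)
    · simpa [Function.update_of_ne h] using hy i
  · intro y _
    simp

lemma moments {N n : ℕ} (a : Fin n → ℝ) (s : Finset (Fin n)) :
    ∑ y ∈ grid N n, (∑ i ∈ s, a i * y i) ^ 2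
        ≤ (grid N n).card * ((6 * N) ^ 2 * ∑ i ∈ s, a i ^ 2) ∧
      ∑ y ∈ grid N n, (∑ i ∈ s, a i * y i) ^ 4
        ≤ (grid N n).card * (3 * (6 * N) ^ 4 * (∑ i ∈ s, a i ^ 2) ^ 2) := by
  classical
  induction s using Finset.induction_on with
  | empty => simp
  | insert j s hj ih =>
    obtain ⟨ih2, ih4⟩ := ih
    simp only [sum_insert hj]
    set σ : ℝ := 6 * N with hσ
    set S := ∑ i ∈ s, a i ^ 2 with hS
    have hS0 : 0 ≤ S := sum_nonneg fun _ _ => sq_nonneg _
    set Xf : (Fin n → ℝ) → ℝ := fun y => ∑ i ∈ s, a i * y i with hX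
    have hXu : ∀ y, Xf (Function.update y j (-y j)) = Xf y := by
      intro y
      refine sum_congr rfl fun i hi => ?_
      have hij : i ≠ j := fun h => hj (h ▸ hi)
      rw [Function.update_of_ne hij]
    have hy2 : ∀ y ∈ grid N n, (a j * y j) ^ 2 ≤ σ ^ 2 * a j ^ 2 := by
      intro y hy
      have := grid_abs hy j
      have h2 : y j ^ 2 ≤ σ ^ 2 := by
        rw [← sq_abs]; exact pow_le_pow_left₀ (abs_nonneg _) this 2
      rw [mul_pow, mul_comm]
      exact mul_le_mul_of_nonneg_right h2 (sq_nonneg _)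
    have o1 : ∑ y ∈ grid N n, (a j * y j) * Xf y = 0 :=
      sum_odd j _ (fun y => by rw [hXu]; simp)
    have o2 : ∑ y ∈ grid N n, (a j * y j) * Xf y ^ 3 = 0 :=
      sum_odd j _ (fun y => by rw [hXu]; simp)
    have o3 : ∑ y ∈ grid N n, (a j * y j) ^ 3 * Xf y = 0 :=
      sum_odd j _ (fun y => by rw [hXu]; simp; ring)
    have hc : (0 : ℝ) ≤ (grid N n).card := by positivity
    constructor
    · calc ∑ y ∈ grid N n, (a j * y j + Xf y) ^ 2
          ≤ ∑ y ∈ grid N n, (σ ^ 2 * a j ^ 2 + 2 * ((a j * y j) * Xf y) + Xf y ^ 2) :=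
            sum_le_sum fun y hy => by nlinarith [hy2 y hy]
        _ = (grid N n).card * (σ ^ 2 * a j ^ 2) + ∑ y ∈ grid N n, Xf y ^ 2 := by
            rw [sum_add_distrib, sum_add_distrib, sum_const, ← mul_sum, o1, nsmul_eq_mul]; ring
        _ ≤ _ := by nlinarith
    · calc ∑ y ∈ grid N n, (a j * y j + Xf y) ^ 4
          ≤ ∑ y ∈ grid N n, ((σ ^ 2 * a j ^ 2) ^ 2 + 4 * ((a j * y j) ^ 3 * Xf y)
              + 6 * (σ ^ 2 * a j ^ 2) * Xf y ^ 2 + 4 * ((a j * y j) * Xf y ^ 3) + Xf y ^ 4) :=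
            sum_le_sum fun y hy => by
              have h1 := hy2 y hy
              have h2 : ((a j * y j) ^ 2) ^ 2 ≤ (σ ^ 2 * a j ^ 2) ^ 2 :=
                pow_le_pow_left₀ (sq_nonneg _) h1 2
              have h3 := mul_le_mul_of_nonneg_right h1 (sq_nonneg (Xf y))
              nlinarith
        _ = (grid N n).card * (σ ^ 2 * a j ^ 2) ^ 2
              + 6 * (σ ^ 2 * a j ^ 2) * ∑ y ∈ grid N n, Xf y ^ 2 + ∑ y ∈ grid N n, Xf y ^ 4 := by
            rw [sum_add_distrib, sum_add_distrib, sum_add_distrib, sum_add_distrib, sum_const,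
              ← mul_sum, ← mul_sum, ← mul_sum, o2, o3, nsmul_eq_mul]; ring
        _ ≤ (grid N n).card * (σ ^ 2 * a j ^ 2) ^ 2
              + 6 * (σ ^ 2 * a j ^ 2) * ((grid N n).card * (σ ^ 2 * S))
              + (grid N n).card * (3 * σ ^ 4 * S ^ 2) := by
            gcongr
        _ ≤ _ := by
            have : 0 ≤ (grid N n).card * (σ ^ 2 * a j ^ 2) ^ 2 := by positivity
            nlinarith

/-- squared norm of `A y` -/
def qf {R : Type*} [Fintype R] {n : ℕ} (A : R → Fin n → ℝ) (y : Fin n → ℝ) : ℝ :=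
  ∑ u, (∑ i, A u i * y i) ^ 2

def mass {R : Type*} [Fintype R] {n : ℕ} (A : R → Fin n → ℝ) : ℝ := ∑ u, ∑ i, A u i ^ 2

lemma qf_nonneg {R : Type*} [Fintype R] {n : ℕ} (A : R → Fin n → ℝ) (y : Fin n → ℝ) :
    0 ≤ qf A y := sum_nonneg fun _ _ => sq_nonneg _

lemma mass_nonneg {R : Type*} [Fintype R] {n : ℕ} (A : R → Fin n → ℝ) : 0 ≤ mass A :=
  sum_nonneg fun _ _ => sum_nonneg fun _ _ => sq_nonneg _

lemma sum_qf_le {R : Type*} [Fintype R] {N n : ℕ} (A : R → Fin n → ℝ) :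
    ∑ y ∈ grid N n, qf A y ≤ (grid N n).card * ((6 * N) ^ 2 * mass A) := by
  unfold qf mass
  rw [sum_comm, mul_sum, mul_sum]
  exact sum_le_sum fun u _ => (moments (A u) univ).1

lemma sum_qf_sq_le {R : Type*} [Fintype R] {N n : ℕ} (A : R → Fin n → ℝ) :
    ∑ y ∈ grid N n, qf A y ^ 2 ≤ (grid N n).card * (3 * (6 * N) ^ 4 * mass A ^ 2) := by
  unfold qf mass
  have e1 : ∀ F : R → ℝ, (∑ u, F u) ^ 2 = ∑ u, ∑ u', F u * F u' := fun F => by
    rw [sq, sum_mul_sum]
  simp only [e1]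
  rw [sum_comm, mul_sum, mul_sum]
  refine sum_le_sum fun u _ => ?_
  rw [sum_comm, mul_sum, mul_sum]
  refine sum_le_sum fun u' _ => ?_
  have h := sum_mul_sq_le_sq_mul_sq (grid N n) (fun y => (∑ i, A u i * y i) ^ 2)
    (fun y => (∑ i, A u' i * y i) ^ 2)
  have h1 := (moments (N := N) (A u) univ).2
  have h2 := (moments (N := N) (A u') univ).2
  simp only [← pow_mul] at h
  have h3 := h.trans (mul_le_mul h1 h2
    (sum_nonneg fun _ _ => Even.pow_nonneg (by decide) _) (by positivity))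
  have ha : 0 ≤ ∑ i, A u i ^ 2 := sum_nonneg fun _ _ => sq_nonneg _
  have hb : 0 ≤ ∑ i, A u' i ^ 2 := sum_nonneg fun _ _ => sq_nonneg _
  have h4 : (0 : ℝ) ≤ (grid N n).card * (3 * (6 * N) ^ 4 * ((∑ i, A u i ^ 2) * ∑ i, A u' i ^ 2)) := by
    have := mul_nonneg ha hb
    positivity
  refine (abs_le_of_sq_le_sq' (h3.trans (le_of_eq ?_)) h4).2
  ring

lemma qf_le_cube {R : Type*} [Fintype R] {n : ℕ} (A : R → Fin n → ℝ) {y : Fin n → ℝ} {σ : ℝ}
    (hy : ∀ i, |y i| ≤ σ) : qf A y ≤ n * σ ^ 2 * mass A := by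
  unfold qf mass
  rw [mul_sum]
  refine sum_le_sum fun u _ => ?_
  refine (sum_mul_sq_le_sq_mul_sq univ (A u) y).trans ?_
  rw [mul_comm]
  refine mul_le_mul_of_nonneg_right ?_ (sum_nonneg fun _ _ => sq_nonneg _)
  calc ∑ i, y i ^ 2 ≤ ∑ _i : Fin n, σ ^ 2 := sum_le_sum fun i _ => by
        rw [← sq_abs]; exact pow_le_pow_left₀ (abs_nonneg _) (hy i) 2
    _ = n * σ ^ 2 := by simp

lemma sqrt_qf_shift {R : Type*} [Fintype R] {n : ℕ} (A : R → Fin n → ℝ) (y : Fin n → ℝ)
    (i : Fin n) :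
    (√(qf A (y + (6 : ℝ) • (Pi.single i 1 : Fin n → ℝ))) - √(qf A y)) ^ 2
      ≤ 36 * ∑ u, A u i ^ 2 := by
  have h := sq_sqrt_sub_le (u := fun u => ∑ k, A u k * (y + (6 : ℝ) • (Pi.single i 1 : Fin n → ℝ)) k)
    (w := fun u => ∑ k, A u k * y k) (Set.toFinite _) (Set.toFinite _)
  simp only [tsum_fintype] at h
  refine h.trans (le_of_eq ?_)
  rw [mul_sum]
  refine sum_congr rfl fun u _ => ?_
  rw [← sum_sub_distrib, sum_eq_single i]
  · simp; ring
  · intro k _ hk
    simp [Pi.single_eq_of_ne hk]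
  · simp

lemma convex_qf {R : Type*} [Fintype R] {n : ℕ} (A : R → Fin n → ℝ) (c : ℝ) :
    Convex ℝ {y | qf A y ≤ c} := by
  intro y hy z hz a b ha hb hab
  simp only [Set.mem_setOf_eq] at hy hz ⊢
  have : qf A (a • y + b • z) ≤ a * qf A y + b * qf A z := by
    unfold qf
    rw [mul_sum, mul_sum, ← sum_add_distrib]
    refine sum_le_sum fun u _ => ?_
    have e : ∑ i, A u i * (a • y + b • z) i = a * ∑ i, A u i * y i + b * ∑ i, A u i * z i := by
      rw [mul_sum, mul_sum, ← sum_add_distrib]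
      exact sum_congr rfl fun i _ => by simp; ring
    rw [e]
    obtain rfl : b = 1 - a := by linarith
    nlinarith [mul_nonneg (mul_nonneg ha hb) (sq_nonneg (∑ i, A u i * y i - ∑ i, A u i * z i))]
  have h1 := mul_le_mul_of_nonneg_left hy ha
  have h2 := mul_le_mul_of_nonneg_left hz hb
  have h3 : a * c + b * c = c := by rw [← add_mul, hab, one_mul]
  linarith

lemma qf_neg {R : Type*} [Fintype R] {n : ℕ} (A : R → Fin n → ℝ) (y : Fin n → ℝ) :
    qf A (-y) = qf A y := by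
  unfold qf
  refine sum_congr rfl fun u _ => ?_
  simp [sum_neg_distrib]

end Crest.Agent.H4.Pfx
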