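import Crest.Agent.H4.PfxScheme

set_option autoImplicit false

namespace Crest.Agent.H4.Pfx
open Finset
open scoped RealInnerProductSpace

section
variable {E : Type*} [NormedAddCommGroup E] [InnerProductSpace ℝ E]

noncomputable def stp (θ : ℝ) (v : E) : E →ₗ[ℝ] E :=
  LinearMap.id - θ • (innerSL ℝ v).toLinearMap.smulRight v

lemma stp_apply (θ : ℝ) (v e : E) : stp θ v e = e - (θ * ⟪v, e⟫) • v := by
  simp [stp, mul_smul]

lemma stp_norm (θ : ℝ) (v e : E) :
    ‖stp θ v e‖ ^ 2 + (2 * θ - θ ^ 2 * ‖v‖ ^ 2) * ⟪v, e⟫ ^ 2 = ‖e‖ ^ 2 := by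
  rw [stp_apply, norm_sub_sq_real, inner_smul_right, norm_smul, mul_pow, Real.norm_eq_abs, sq_abs,
    real_inner_comm]
  ring

lemma stp_symm (θ : ℝ) (v z e : E) : ⟪z, stp θ v e⟫ = ⟪stp θ v z, e⟫ := by
  rw [stp_apply, stp_apply, inner_sub_right, inner_sub_left, inner_smul_right,
    real_inner_smul_left, real_inner_comm z v]
  ring

noncomputable def prop (θ : ℝ) (V : ℕ → E) (s : ℕ) : ℕ → (E →ₗ[ℝ] E)
  | 0 => LinearMap.id
  | m + 1 => stp θ (V (s + m + 1)) ∘ₗ prop θ V s m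

noncomputable def Ph (θ : ℝ) (V : ℕ → E) (s t : ℕ) : E →ₗ[ℝ] E := prop θ V s (t - s)

lemma Ph_self (θ : ℝ) (V : ℕ → E) (s : ℕ) (e : E) : Ph θ V s s e = e := by
  simp [Ph, prop]

lemma Ph_succ (θ : ℝ) (V : ℕ → E) {s t : ℕ} (h : s ≤ t) (e : E) :
    Ph θ V s (t + 1) e = stp θ (V (t + 1)) (Ph θ V s t e) := by
  unfold Ph
  rw [show t + 1 - s = (t - s) + 1 by omega, prop, show s + (t - s) + 1 = t + 1 by omega]
  rfl

lemma Ph_comp (θ : ℝ) (V : ℕ → E) {s t u : ℕ} (h : s ≤ t) (h' : t ≤ u) (e : E) :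
    Ph θ V s u e = Ph θ V t u (Ph θ V s t e) := by
  induction u, h' using Nat.le_induction with
  | base => rw [Ph_self]
  | succ k hk ih => rw [Ph_succ _ _ (h.trans hk), Ph_succ _ _ hk, ih]

lemma parseval (θ : ℝ) (V : ℕ → E) {t T : ℕ} (h : t ≤ T) (e : E) :
    ∑ u ∈ Ioc t T, (2 * θ - θ ^ 2 * ‖V u‖ ^ 2) * ⟪V u, Ph θ V t (u - 1) e⟫ ^ 2
      + ‖Ph θ V t T e‖ ^ 2 = ‖e‖ ^ 2 := by
  induction T, h using Nat.le_induction with
  | base => simp [Ph_self]
  | succ k hk ih =>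
    rw [sum_Ioc_succ_top hk, Ph_succ _ _ hk, ← ih, Nat.add_sub_cancel,
      ← stp_norm θ (V (k + 1)) (Ph θ V t k e)]
    ring

lemma control (θ : ℝ) (V : ℕ → E) (t : ℕ) : ∀ z : E,
    ∑ i ∈ range (t + 1), (2 * θ - θ ^ 2 * ‖V i‖ ^ 2) * ⟪z, Ph θ V i t (V i)⟫ ^ 2 ≤ ‖z‖ ^ 2 := by
  induction t with
  | zero =>
    intro z
    have := stp_norm θ (V 0) z
    simp only [zero_add, range_one, sum_singleton, Ph_self]
    rw [real_inner_comm]
    nlinarith [sq_nonneg ‖stp θ (V 0) z‖]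
  | succ k ih =>
    intro z
    rw [sum_range_succ, Ph_self, ← stp_norm θ (V (k + 1)) z, real_inner_comm z]
    refine add_le_add (le_trans (le_of_eq ?_) (ih (stp θ (V (k + 1)) z))) le_rfl
    refine sum_congr rfl fun i hi => ?_
    rw [Ph_succ _ _ (by rw [mem_range] at hi; omega), stp_symm]

lemma Ph_expand (θ : ℝ) (V : ℕ → E) {t T : ℕ} (h : t ≤ T) (e : E) :
    Ph θ V t T e = e - ∑ u ∈ Ioc t T, (θ * ⟪V u, Ph θ V t (u - 1) e⟫) • V u := by
  induction T, h using Nat.le_induction with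
  | base => simp [Ph_self]
  | succ k hk ih =>
    rw [sum_Ioc_succ_top hk, Ph_succ _ _ hk, stp_apply, Nat.add_sub_cancel]
    nth_rewrite 1 [ih]
    abel

end

lemma sum_fin_lt {M : Type*} [AddCommMonoid M] {n t T : ℕ} (hT : T < n) (F : ℕ → M) :
    ∑ u : Fin n, (if t < (u : ℕ) ∧ (u : ℕ) ≤ T then F u else 0) = ∑ u ∈ Ioc t T, F u := by
  rw [Fin.sum_univ_eq_sum_range (fun u => if t < u ∧ u ≤ T then F u else 0) n, ← sum_filter]
  congr 1
  ext u
  simp only [mem_filter, mem_range, mem_Ioc]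
  omega

lemma sum_fin_le {M : Type*} [AddCommMonoid M] {n : ℕ} (t : Fin n) (F : ℕ → M) :
    ∑ u : Fin n, (if u ≤ t then F u else 0) = ∑ u ∈ range (t + 1), F u := by
  have : ∀ u : Fin n, (if u ≤ t then F u else 0) = if (u : ℕ) ≤ t then F u else 0 :=
    fun u => rfl
  simp only [this]
  rw [Fin.sum_univ_eq_sum_range (fun u => if u ≤ t then F u else 0) n, ← sum_filter]
  congr 1
  ext u
  simp only [mem_filter, mem_range]
  have := t.2
  omega

lemma norm_sq_eq_sum_inner {d : ℕ} (e : EuclideanSpace ℝ (Fin d)) :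
    ‖e‖ ^ 2 = ∑ k, ⟪EuclideanSpace.single k (1 : ℝ), e⟫ ^ 2 := by
  rw [EuclideanSpace.real_norm_sq_eq]
  simp [EuclideanSpace.inner_single_left]

lemma lin_sq_le {d : ℕ} (L : EuclideanSpace ℝ (Fin d) →ₗ[ℝ] ℝ) (e : EuclideanSpace ℝ (Fin d)) :
    L e ^ 2 ≤ ‖e‖ ^ 2 * ∑ k, L (EuclideanSpace.single k (1 : ℝ)) ^ 2 := by
  have h : L e = ∑ k, e k * L (EuclideanSpace.single k (1 : ℝ)) := by
    conv_lhs => rw [← (EuclideanSpace.basisFun (Fin d) ℝ).sum_repr e]
    simp [map_sum]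
  rw [h, EuclideanSpace.real_norm_sq_eq]
  exact sum_mul_sq_le_sq_mul_sq _ _ _

theorem kacz (d n : ℕ) (v : Fin n → EuclideanSpace ℝ (Fin d)) (hv : ∀ i, ‖v i‖ ≤ 1) {θ : ℝ}
    (hθ : 0 < θ) (hθ1 : θ ≤ 1) :
    ∃ (pos : Fin n ⊕ Fin d → ℕ) (ζ : Fin n ⊕ Fin d → Fin n → ℝ) (c : Fin n → Fin n → ℝ),
      (∀ u, pos u ≤ n) ∧ (∀ i, ∑ u, ζ u i ^ 2 ≤ 1) ∧
      (∀ t : Fin n, ∃ (α : Fin n → ℝ) (β : Fin n ⊕ Fin d → ℝ), (∀ i, 0 ≤ α i) ∧ (∀ u, 0 ≤ β u) ∧
        ∑ i, α i ≤ d / θ ∧ ∑ u, β u ≤ d / θ ∧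
        ∀ u i, i ≤ t → (t : ℕ) < pos u → ζ u i ^ 2 ≤ α i * β u) ∧
      (∀ t : Fin n, ∑ u, ∑ i, (if i ≤ t ∧ (t : ℕ) < pos u then ζ u i ^ 2 else 0) ≤ d / θ) ∧
      (∀ i k, k ≤ i → c i k = 0) ∧ (∀ i, ∑ k, c i k ^ 2 ≤ θ) ∧
      ∀ (t : Fin n) (y : Fin n → ℝ),
        ‖∑ j, (if j ≤ t then (y j - ∑ i, c i j * y i) • v j else 0)‖ ^ 2 = NN pos ζ t y := by
  set V : ℕ → EuclideanSpace ℝ (Fin d) := fun k => if h : k < n then v ⟨k, h⟩ else 0 with hV
  have hVv : ∀ i : Fin n, V i = v i := fun i => by simp [hV]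
  have hV1 : ∀ k, ‖V k‖ ≤ 1 := fun k => by
    simp only [hV]; split_ifs
    · exact hv _
    · simp
  set g : ℕ → ℝ := fun u => 2 * θ - θ ^ 2 * ‖V u‖ ^ 2 with hg
  have hgθ : ∀ u, θ ≤ g u := fun u => by
    have h1 : ‖V u‖ ^ 2 ≤ 1 := pow_le_one₀ (norm_nonneg _) (hV1 u)
    have h2 : θ ^ 2 * ‖V u‖ ^ 2 ≤ θ ^ 2 * 1 := mul_le_mul_of_nonneg_left h1 (sq_nonneg _)
    simp only [hg]
    nlinarith
  let pos : Fin n ⊕ Fin d → ℕ := Sum.elim (fun u => (u : ℕ)) (fun _ => n)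
  let row : ℕ → Fin n ⊕ Fin d → (EuclideanSpace ℝ (Fin d) →ₗ[ℝ] ℝ) := fun t =>
    Sum.elim (fun u => √(g u) • ((innerSL ℝ (V u)).toLinearMap ∘ₗ Ph θ V t (u - 1)))
      (fun k => (innerSL ℝ (EuclideanSpace.single k (1 : ℝ))).toLinearMap ∘ₗ Ph θ V t (n - 1))
  have hrow1 : ∀ t (u : Fin n) e, row t (Sum.inl u) e = √(g u) * ⟪V u, Ph θ V t (u - 1) e⟫ :=
    fun t u e => rfl
  have hrow2 : ∀ t (k : Fin d) e, row t (Sum.inr k) e
      = ⟪EuclideanSpace.single k (1 : ℝ), Ph θ V t (n - 1) e⟫ := fun t u e => rfl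
  have hP : ∀ (t : Fin n) e, ∑ u, (if (t : ℕ) < pos u then row t u e ^ 2 else 0) = ‖e‖ ^ 2 := by
    intro t e
    have ht := t.2
    rw [Fintype.sum_sum_type, ← parseval θ V (show (t : ℕ) ≤ n - 1 by omega) e,
      norm_sq_eq_sum_inner (Ph θ V t (n - 1) e), ← sum_fin_lt (show n - 1 < n by omega)]
    congr 1
    · refine sum_congr rfl fun u _ => ?_
      have hu := u.2
      rw [hrow1, mul_pow, Real.sq_sqrt (hθ.le.trans (hgθ u))]
      exact if_congr (by simp only [pos, Sum.elim_inl]; omega) rfl rfl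
    · refine sum_congr rfl fun k _ => ?_
      rw [if_pos (show (t : ℕ) < pos (Sum.inr k) from ht), hrow2]
  have hC : ∀ (s t : ℕ) u e, s ≤ t → t < pos u → row s u e = row t u (Ph θ V s t e) := by
    rintro s t (u | k) e h1 h2
    · change t < u at h2
      rw [hrow1, hrow1, Ph_comp θ V h1 (show t ≤ u - 1 by omega)]
    · change t < n at h2
      rw [hrow2, hrow2, Ph_comp θ V h1 (show t ≤ n - 1 by omega)]
  let ζ : Fin n ⊕ Fin d → Fin n → ℝ := fun u i => if (i : ℕ) < pos u then row i u (V i) else 0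
  have hζ : ∀ (t : Fin n) u i, i ≤ t → (t : ℕ) < pos u → ζ u i = row t u (Ph θ V i t (V i)) := by
    intro t u i h1 h2
    have h1' : (i : ℕ) ≤ t := h1
    simp only [ζ]
    rw [if_pos (by omega), hC _ _ _ _ h1' h2]
  have hw : ∀ t : Fin n, ∑ i : Fin n, (if i ≤ t then ‖Ph θ V i t (V i)‖ ^ 2 else 0) ≤ d / θ := by
    intro t
    rw [sum_fin_le t (fun i => ‖Ph θ V i t (V i)‖ ^ 2), le_div_iff₀ hθ, sum_mul]
    calc ∑ i ∈ range (t + 1), ‖Ph θ V i t (V i)‖ ^ 2 * θ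
        ≤ ∑ i ∈ range (t + 1), ∑ k : Fin d,
          g i * ⟪EuclideanSpace.single k (1 : ℝ), Ph θ V i t (V i)⟫ ^ 2 := by
          refine sum_le_sum fun i _ => ?_
          rw [← mul_sum, ← norm_sq_eq_sum_inner, mul_comm]
          exact mul_le_mul_of_nonneg_right (hgθ i) (sq_nonneg _)
      _ ≤ ∑ _k : Fin d, (1 : ℝ) := by
          rw [sum_comm]
          refine sum_le_sum fun k _ => (control θ V t _).trans (le_of_eq ?_)
          simp
      _ = d := by simp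
  let c : Fin n → Fin n → ℝ := fun i j =>
    if (i : ℕ) < j then θ * ⟪V j, Ph θ V i (j - 1) (V i)⟫ else 0
  refine ⟨pos, ζ, c, ?_, ?_, ?_, ?_, ?_, ?_, ?_⟩
  · rintro (u | k)
    · exact u.2.le
    · exact le_rfl
  · intro i
    refine le_trans (le_of_eq ?_) ((hP i (V i)).le.trans (pow_le_one₀ (norm_nonneg _) (hV1 i)))
    refine sum_congr rfl fun u _ => ?_
    simp only [ζ]
    split_ifs <;> simp
  · intro t
    refine ⟨fun i => if i ≤ t then ‖Ph θ V i t (V i)‖ ^ 2 else 0,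
      fun u => if (t : ℕ) < pos u then ∑ k, row t u (EuclideanSpace.single k (1 : ℝ)) ^ 2 else 0,
      fun i => ite_nonneg (sq_nonneg _) le_rfl,
      fun u => ite_nonneg (sum_nonneg fun _ _ => sq_nonneg _) le_rfl, hw t, ?_, ?_⟩
    · calc _ = ∑ k : Fin d, ∑ u,
            (if (t : ℕ) < pos u then row t u (EuclideanSpace.single k (1 : ℝ)) ^ 2 else 0) := by
            rw [sum_comm]
            refine sum_congr rfl fun u _ => ?_
            by_cases h : (t : ℕ) < pos u <;> simp [h]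
        _ = d := by simp [hP]
        _ ≤ d / θ := by
            rw [le_div_iff₀ hθ]
            exact mul_le_of_le_one_right (by positivity) hθ1
    · intro u i h1 h2
      simp only [if_pos h1, if_pos h2]
      rw [hζ t u i h1 h2]
      exact lin_sq_le _ _
  · intro t
    refine le_trans (le_of_eq ?_) (hw t)
    rw [sum_comm]
    refine sum_congr rfl fun i _ => ?_
    split_ifs with h
    · rw [← hP t]
      refine sum_congr rfl fun u _ => ?_
      by_cases h2 : (t : ℕ) < pos u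
      · rw [if_pos ⟨h, h2⟩, if_pos h2, hζ t u i h h2]
      · rw [if_neg (fun h' => h2 h'.2), if_neg h2]
    · exact sum_eq_zero fun u _ => if_neg fun h' => h h'.1
  · intro i k h
    exact if_neg (not_lt.2 h)
  · intro i
    have hi := i.2
    have h1 := parseval θ V (show (i : ℕ) ≤ n - 1 by omega) (V i)
    rw [← sum_fin_lt (show n - 1 < n by omega)] at h1
    have h2 : ‖V i‖ ^ 2 ≤ 1 := pow_le_one₀ (norm_nonneg _) (hV1 i)
    calc ∑ k, c i k ^ 2 ≤ ∑ k : Fin n, θ * (if (i : ℕ) < k ∧ (k : ℕ) ≤ n - 1 then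
          (2 * θ - θ ^ 2 * ‖V k‖ ^ 2) * ⟪V k, Ph θ V i (k - 1) (V i)⟫ ^ 2 else 0) := by
          refine sum_le_sum fun k _ => ?_
          have hk := k.2
          simp only [c]
          by_cases h : (i : ℕ) < k
          · rw [if_pos h, if_pos ⟨h, by omega⟩, mul_pow]
            refine le_trans (le_of_eq ?_) (mul_le_mul_of_nonneg_left
              (mul_le_mul_of_nonneg_right (hgθ k) (sq_nonneg _)) hθ.le)
            ring
          · rw [if_neg h, if_neg fun h' => h h'.1]; simp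
      _ ≤ θ := by
          rw [← mul_sum]
          refine mul_le_of_le_one_right hθ.le ?_
          nlinarith [sq_nonneg ‖Ph θ V i (n - 1) (V i)‖]
  · intro t y
    have e : ∑ j, (if j ≤ t then (y j - ∑ i, c i j * y i) • v j else 0)
        = ∑ i, (if i ≤ t then y i • Ph θ V i t (V i) else 0) := by
      have e1 : ∀ j, (if j ≤ t then (y j - ∑ i, c i j * y i) • v j else 0)
          = (if j ≤ t then y j • V j else 0)
            - ∑ i, (if j ≤ t then (c i j * y i) • V j else 0) := by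
        intro j
        split_ifs
        · rw [hVv, sub_smul, sum_smul]
        · simp
      simp only [e1]
      rw [sum_sub_distrib, sum_comm, ← sum_sub_distrib]
      refine sum_congr rfl fun i _ => ?_
      by_cases h : i ≤ t
      · rw [if_pos h, if_pos h, Ph_expand θ V (show (i : ℕ) ≤ t from h), smul_sub, smul_sum,
          ← sum_fin_lt t.2]
        congr 1
        refine sum_congr rfl fun j _ => ?_
        simp only [c]
        by_cases h1 : (i : ℕ) < j <;> by_cases h2 : j ≤ t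
        · rw [if_pos h2, if_pos h1, if_pos ⟨h1, h2⟩, smul_smul, mul_comm]
        · rw [if_neg h2, if_neg fun h' => h2 h'.2]
        · rw [if_pos h2, if_neg h1, if_neg fun h' => h1 h'.1]; simp
        · rw [if_neg h2, if_neg fun h' => h2 h'.2]
      · rw [if_neg h, if_neg h, zero_sub, neg_eq_zero]
        refine sum_eq_zero fun j _ => ?_
        split_ifs with h2
        · have : ¬ (i : ℕ) < j := by
            have h3 : (j : ℕ) ≤ t := h2
            have h4 : ¬ (i : ℕ) ≤ t := h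
            omega
          simp only [c]
          rw [if_neg this, zero_mul, zero_smul]
        · rfl
    rw [e, ← hP t]
    unfold NN
    refine sum_congr rfl fun u _ => ?_
    split_ifs with h
    · congr 1
      rw [map_sum]
      refine sum_congr rfl fun i _ => ?_
      split_ifs with h1
      · rw [map_smul, hζ t u i h1 h, smul_eq_mul, mul_comm]
      · simp
    · rfl

end Crest.Agent.H4.Pfx
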