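import Crest.Agent.H4.PfxGrid

set_option autoImplicit false

namespace Crest.Agent.H4.Pfx
open Finset

lemma grid1_add {N : ℕ} {y : ℝ} (h : y ∈ grid1 N) (hy : y ≠ 6 * N) : y + 6 ∈ grid1 N := by
  obtain ⟨k, h1, h2, rfl⟩ := mem_grid1.1 h
  have : k ≠ N := by
    rintro rfl
    exact hy (by push_cast; ring)
  exact mem_grid1.2 ⟨k + 1, by omega, by omega, by push_cast; ring⟩

lemma grid1_sub {N : ℕ} {y : ℝ} (h : y + 6 ∈ grid1 N) (hy : y + 6 ≠ -(6 * N)) : y ∈ grid1 N := by
  obtain ⟨k, h1, h2, h3⟩ := mem_grid1.1 h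
  have : k ≠ -(N : ℤ) := by
    rintro rfl
    exact hy (by rw [← h3]; push_cast; ring)
  exact mem_grid1.2 ⟨k - 1, by omega, by omega, by push_cast; linarith⟩

lemma tsum_ite_mem {X : Type*} [DecidableEq X] (s : Finset X) (F : X → ℝ) :
    ∑' x, (if x ∈ s then F x else 0) = ∑ x ∈ s, F x := by
  rw [tsum_eq_sum (s := s) (fun x hx => if_neg hx)]
  exact sum_congr rfl fun x hx => if_pos hx

lemma FS_ite {X : Type*} [DecidableEq X] (s : Finset X) (F : X → ℝ) :
    FS (fun x => if x ∈ s then F x else 0) := by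
  refine Set.Finite.subset s.finite_toSet ?_
  intro x hx
  by_contra hc
  exact hx (if_neg hc)

set_option maxHeartbeats 1600000 in
theorem measure (n N : ℕ) (hN : 2 ≤ N) {M R : Type} [Fintype M] [DecidableEq M] [Fintype R]
    (A : M → R → Fin n → ℝ) (r : M → ℝ) (hr0 : ∀ m, 0 ≤ r m)
    (hr : ∀ m, (6 * N) ^ 2 * mass (A m) ≤ r m ^ 2) :
    ∃ f : (M → Fin (n + 1)) → (Fin n → ℝ) → ℝ, (∀ l, FS (f l)) ∧
      (∀ l y, f l y ≠ 0 → (∀ i, |y i| ≤ 6 * N) ∧
        ∀ m, qf (A m) y ≤ (r m * (((l m : ℕ) : ℝ) + 2)) ^ 2) ∧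
      ∑ l, nrm (f l) = 1 ∧
      (∀ m, ∑ l, nrm (f l) * (((l m : ℕ) : ℝ) + 2) ^ 2 ≤ 20) ∧
      ∀ i, ∑ l, en (f l) ((6 : ℝ) • (Pi.single i 1 : Fin n → ℝ)) ≤ 2 / (2 * N + 1)
        + 17280 * (6 * N) ^ 4 * ∑ m, (∑ u, A m u i ^ 2) * mass (A m) ^ 2 / r m ^ 6 := by
  classical
  obtain ⟨χ, hχ0, hχ1, hχs, hχl⟩ := exists_chi n
  set G := grid N n with hG
  set σ : ℝ := 6 * N with hσ
  have hNr : (2 : ℝ) ≤ N := by exact_mod_cast hN
  have hσ12 : 12 ≤ σ := by rw [hσ]; linarith
  have hcard : (G.card : ℝ) = (2 * N + 1) ^ n := by rw [hG, card_grid]; push_cast; ring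
  have hcpos : (0 : ℝ) < G.card := by rw [hcard]; positivity
  set c : ℝ := 1 / √(G.card) with hc
  have hc2 : c ^ 2 = 1 / G.card := by rw [hc, div_pow, Real.sq_sqrt hcpos.le]; simp
  set T : M → (Fin n → ℝ) → ℝ := fun m y => max 0 (√(qf (A m) y) / r m - 1) with hT
  have hT0 : ∀ m y, 0 ≤ T m y := fun m y => le_max_left _ _
  have hTsq : ∀ m y, T m y ^ 2 ≤ qf (A m) y / r m ^ 2 := by
    intro m y
    have h1 : T m y ≤ √(qf (A m) y) / r m := by
      have : 0 ≤ √(qf (A m) y) / r m := div_nonneg (Real.sqrt_nonneg _) (hr0 m)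
      exact max_le this (by linarith)
    refine (pow_le_pow_left₀ (hT0 m y) h1 2).trans (le_of_eq ?_)
    rw [div_pow, Real.sq_sqrt (qf_nonneg _ _)]
  have hqr : ∀ m, ∀ y ∈ G, qf (A m) y ≤ n * r m ^ 2 := by
    intro m y hy
    refine (qf_le_cube (A m) (grid_abs hy)).trans ?_
    rw [mul_assoc]
    exact mul_le_mul_of_nonneg_left (hr m) (by positivity)
  have hTn : ∀ m, ∀ y ∈ G, T m y ≤ n := by
    intro m y hy
    have h1 : T m y ^ 2 ≤ n := by
      refine (hTsq m y).trans (div_le_of_le_mul₀ (sq_nonneg _) (by positivity) (hqr m y hy))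
    have h2 : (n : ℝ) ≤ (n : ℝ) ^ 2 := by exact_mod_cast Nat.le_self_pow two_ne_zero n
    exact (abs_le_of_sq_le_sq' (h1.trans h2) (by positivity)).2
  set P : (M → Fin (n + 1)) → (Fin n → ℝ) → ℝ := fun l y => ∏ m, χ (l m) (T m y) with hP
  have hPP : ∀ y y', ∑ l, P l y * P l y' = ∏ m, ∑ k, χ k (T m y) * χ k (T m y') := by
    intro y y'
    rw [prod_univ_sum, Fintype.piFinset_univ]
    exact sum_congr rfl fun l _ => by rw [hP]; exact (prod_mul_distrib).symm
  have hP1 : ∀ y ∈ G, ∑ l, P l y ^ 2 = 1 := by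
    intro y hy
    simp only [sq]
    rw [hPP]
    refine prod_eq_one fun m _ => ?_
    simpa only [sq] using hχ1 _ (hT0 m y) (hTn m y hy)
  set f : (M → Fin (n + 1)) → (Fin n → ℝ) → ℝ := fun l y => if y ∈ G then c * P l y else 0
    with hf
  have hfF : ∀ l, FS (f l) := fun l => FS_ite G _
  have hnrm : ∀ l, nrm (f l) = ∑ y ∈ G, c ^ 2 * P l y ^ 2 := by
    intro l
    rw [← tsum_ite_mem]
    refine tsum_congr fun y => ?_
    simp only [hf]
    split_ifs <;> ring
  have hlab : ∀ l y m, P l y ≠ 0 → |T m y - (l m : ℕ)| ≤ 1 := by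
    intro l y m h
    exact hχs _ _ (prod_ne_zero_iff.1 h m (mem_univ _))
  refine ⟨f, hfF, ?_, ?_, ?_, ?_⟩
  · intro l y hy
    have hyG : y ∈ G := by
      by_contra h
      exact hy (if_neg h)
    have hPy : P l y ≠ 0 := by
      intro h
      apply hy
      simp [hf, h]
    refine ⟨grid_abs hyG, fun m => ?_⟩
    rcases (hr0 m).eq_or_lt with h | h
    · have := hqr m y hyG
      rw [← h] at this ⊢
      simpa using this
    · have h1 := (abs_le.1 (hlab l y m hPy)).2
      have h2 : √(qf (A m) y) / r m - 1 ≤ T m y := le_max_right _ _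
      have h3 : √(qf (A m) y) ≤ r m * (((l m : ℕ) : ℝ) + 2) := by
        rw [mul_comm, ← div_le_iff₀ h]; linarith
      rw [← Real.sq_sqrt (qf_nonneg (A m) y)]
      exact pow_le_pow_left₀ (Real.sqrt_nonneg _) h3 2
  · simp only [hnrm]
    rw [sum_comm]
    rw [sum_congr rfl fun y hy => by rw [← mul_sum, hP1 y hy, mul_one]]
    rw [sum_const, nsmul_eq_mul, hc2]
    field_simp
  · intro m
    simp only [hnrm, sum_mul]
    rw [sum_comm]
    calc ∑ y ∈ G, ∑ l, c ^ 2 * P l y ^ 2 * (((l m : ℕ) : ℝ) + 2) ^ 2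
        ≤ ∑ y ∈ G, c ^ 2 * (2 * (qf (A m) y / r m ^ 2) + 18) := by
          refine sum_le_sum fun y hy => ?_
          calc ∑ l, c ^ 2 * P l y ^ 2 * (((l m : ℕ) : ℝ) + 2) ^ 2
              ≤ ∑ l, c ^ 2 * (2 * (qf (A m) y / r m ^ 2) + 18) * P l y ^ 2 := by
                refine sum_le_sum fun l _ => ?_
                by_cases h : P l y = 0
                · simp [h]
                · have h1 := (abs_le.1 (hlab l y m h)).1
                  have h2 : (((l m : ℕ) : ℝ) + 2) ^ 2 ≤ (T m y + 3) ^ 2 :=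
                    pow_le_pow_left₀ (by positivity) (by linarith) 2
                  have h3 : (((l m : ℕ) : ℝ) + 2) ^ 2 ≤ 2 * (qf (A m) y / r m ^ 2) + 18 := by
                    nlinarith [hTsq m y, sq_nonneg (T m y - 3)]
                  have := mul_le_mul_of_nonneg_left h3
                    (show 0 ≤ c ^ 2 * P l y ^ 2 by positivity)
                  linarith
            _ = _ := by rw [← mul_sum, hP1 y hy, mul_one]
      _ = c ^ 2 * (2 * ((∑ y ∈ G, qf (A m) y) / r m ^ 2) + G.card * 18) := by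
          rw [← mul_sum, sum_add_distrib, ← mul_sum, ← sum_div, sum_const, nsmul_eq_mul]
      _ ≤ c ^ 2 * (2 * G.card + G.card * 18) := by
          gcongr
          refine div_le_of_le_mul₀ (sq_nonneg _) hcpos.le ((sum_qf_le (A m)).trans ?_)
          exact mul_le_mul_of_nonneg_left (hr m) hcpos.le
      _ = 20 := by rw [hc2]; field_simp; ring
  · intro i
    set h : Fin n → ℝ := (6 : ℝ) • (Pi.single i 1 : Fin n → ℝ) with hh
    set col : M → ℝ := fun m => ∑ u, A m u i ^ 2 with hcol
    have hcol0 : ∀ m, 0 ≤ col m := fun m => sum_nonneg fun _ _ => sq_nonneg _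
    have hcolm : ∀ m, col m ≤ mass (A m) := fun m =>
      sum_le_sum fun u _ => single_le_sum (f := fun i => A m u i ^ 2)
        (fun _ _ => sq_nonneg _) (mem_univ i)
    have hdT : ∀ m y, (T m (y + h) - T m y) ^ 2
        ≤ 576 * (col m / r m ^ 6) * qf (A m) y ^ 2 := by
      intro m y
      rcases (hr0 m).eq_or_lt with h0 | h0
      · simp [hT, ← h0]
      set a := √(qf (A m) (y + h))
      set b := √(qf (A m) y) with hb
      have hab : (a - b) ^ 2 ≤ 36 * col m := sqrt_qf_shift (A m) y i
      have hb2 : b ^ 2 = qf (A m) y := Real.sq_sqrt (qf_nonneg _ _)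
      have hsmall : |a - b| ≤ r m / 2 := by
        refine (abs_le_of_sq_le_sq' ?_ (by positivity)).2
        rw [sq_abs]
        have h1 : 144 * mass (A m) ≤ σ ^ 2 * mass (A m) :=
          mul_le_mul_of_nonneg_right (by nlinarith) (mass_nonneg _)
        nlinarith [hr m, hcolm m]
      by_cases hbig : b ≤ r m / 2
      · have ha : a ≤ r m := by linarith [(abs_le.1 hsmall).2]
        have e1 : T m (y + h) = 0 := max_eq_left (by
          rw [sub_nonpos, div_le_one h0]; exact ha)
        have e2 : T m y = 0 := max_eq_left (by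
          rw [sub_nonpos, div_le_one h0]; linarith)
        rw [e1, e2]
        have := hcol0 m
        simp only [sub_self, ne_eq, OfNat.ofNat_ne_zero, not_false_eq_true, zero_pow]
        positivity
      · push Not at hbig
        have h1 : |T m (y + h) - T m y| ≤ |a - b| / r m := by
          refine (abs_max_sub_max_le_max _ _ _ _).trans ?_
          simp only [sub_self, abs_zero]
          refine max_le (by positivity) (le_of_eq ?_)
          rw [show a / r m - 1 - (b / r m - 1) = (a - b) / r m by ring, abs_div, abs_of_pos h0]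
        have h2 : (T m (y + h) - T m y) ^ 2 ≤ 36 * col m / r m ^ 2 := by
          rw [← sq_abs]
          refine (pow_le_pow_left₀ (abs_nonneg _) h1 2).trans ?_
          rw [div_pow, sq_abs]
          gcongr
        have h3 : r m ^ 4 ≤ 16 * qf (A m) y ^ 2 := by
          rw [← hb2]
          have : (r m) ^ 4 ≤ (2 * b) ^ 4 := pow_le_pow_left₀ h0.le (by linarith) 4
          nlinarith
        refine h2.trans ?_
        calc 36 * col m / r m ^ 2 = 36 * (col m / r m ^ 6) * r m ^ 4 := by field_simp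
          _ ≤ 36 * (col m / r m ^ 6) * (16 * qf (A m) y ^ 2) :=
            mul_le_mul_of_nonneg_left h3 (by have := hcol0 m; positivity)
          _ = _ := by ring
    set S1 := G.filter (fun y => y i = (6 * N : ℝ)) with hS1
    set S2 := G.filter (fun y => y i = -(6 * N : ℝ)) with hS2
    set B : (Fin n → ℝ) → ℝ := fun y => 5760 * ∑ m, (col m / r m ^ 6) * qf (A m) y ^ 2 with hB
    have hB0 : ∀ y, 0 ≤ B y := fun y => mul_nonneg (by norm_num) (sum_nonneg fun m _ =>
      mul_nonneg (div_nonneg (hcol0 m) (pow_nonneg (hr0 m) _)) (sq_nonneg _))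
    have hhi : ∀ y : Fin n → ℝ, (y + h) i = y i + 6 := by intro y; simp [hh]
    have hhk : ∀ (y : Fin n → ℝ) k, k ≠ i → (y + h) k = y k := by
      intro y k hk; simp [hh, Pi.single_eq_of_ne hk]
    have hpt : ∀ y, ∑ l, (f l (y + h) - f l y) ^ 2
        ≤ (if y ∈ S1 then c ^ 2 else 0) + (if y + h ∈ S2 then c ^ 2 else 0)
          + (if y ∈ G then c ^ 2 * B y else 0) := by
      intro y
      have n1 : 0 ≤ (if y ∈ S1 then c ^ 2 else 0) := ite_nonneg (sq_nonneg _) le_rfl
      have n2 : 0 ≤ (if y + h ∈ S2 then c ^ 2 else 0) := ite_nonneg (sq_nonneg _) le_rfl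
      have n3 : 0 ≤ (if y ∈ G then c ^ 2 * B y else 0) :=
        ite_nonneg (mul_nonneg (sq_nonneg _) (hB0 y)) le_rfl
      by_cases hy : y ∈ G <;> by_cases hy' : y + h ∈ G
      · have e : ∑ l, (f l (y + h) - f l y) ^ 2
            = c ^ 2 * (2 * (1 - ∏ m, ∑ k, χ k (T m (y + h)) * χ k (T m y))) := by
          simp only [hf, if_pos hy, if_pos hy']
          rw [← hPP]
          have : ∀ l, (c * P l (y + h) - c * P l y) ^ 2
              = c ^ 2 * (P l (y + h) ^ 2 + P l y ^ 2 - 2 * (P l (y + h) * P l y)) :=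
            fun l => by ring
          simp only [this]
          rw [← mul_sum, sum_sub_distrib, sum_add_distrib, hP1 _ hy, hP1 _ hy', ← mul_sum]
          ring
        have hρ : ∀ m, 2 * (1 - ∑ k, χ k (T m (y + h)) * χ k (T m y))
            = ∑ k, (χ k (T m (y + h)) - χ k (T m y)) ^ 2 := by
          intro m
          have : ∀ k, (χ k (T m (y + h)) - χ k (T m y)) ^ 2 = χ k (T m (y + h)) ^ 2
              + χ k (T m y) ^ 2 - 2 * (χ k (T m (y + h)) * χ k (T m y)) := fun k => by ring
          simp only [this]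
          rw [sum_sub_distrib, sum_add_distrib, hχ1 _ (hT0 _ _) (hTn _ _ hy),
            hχ1 _ (hT0 _ _) (hTn _ _ hy'), ← mul_sum]
          ring
        have h1 := one_sub_prod_le univ (fun m => ∑ k, χ k (T m (y + h)) * χ k (T m y))
          (fun m => sum_nonneg fun k _ => mul_nonneg (hχ0 _ _) (hχ0 _ _))
          (fun m => by
            have := hρ m
            have h2 : 0 ≤ ∑ k, (χ k (T m (y + h)) - χ k (T m y)) ^ 2 :=
              sum_nonneg fun _ _ => sq_nonneg _
            linarith)
        have h2 : 2 * (1 - ∏ m, ∑ k, χ k (T m (y + h)) * χ k (T m y)) ≤ B y := by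
          calc _ ≤ 2 * ∑ m, (1 - ∑ k, χ k (T m (y + h)) * χ k (T m y)) := by linarith
            _ = ∑ m, ∑ k, (χ k (T m (y + h)) - χ k (T m y)) ^ 2 := by
                rw [mul_sum]; exact sum_congr rfl fun m _ => hρ m
            _ ≤ ∑ m, 5760 * ((col m / r m ^ 6) * qf (A m) y ^ 2) := by
                refine sum_le_sum fun m _ => (hχl _ _).trans ?_
                have := hdT m y
                linarith
            _ = B y := by rw [hB, ← mul_sum]
        rw [e, if_pos hy]
        have := mul_le_mul_of_nonneg_left h2 (sq_nonneg c)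
        linarith
      · have e : ∑ l, (f l (y + h) - f l y) ^ 2 = c ^ 2 := by
          simp only [hf, if_pos hy, if_neg hy', zero_sub, neg_sq, mul_pow]
          rw [← mul_sum, hP1 _ hy, mul_one]
        have hS : y ∈ S1 := by
          rw [hS1, mem_filter]
          refine ⟨hy, ?_⟩
          by_contra hne
          apply hy'
          rw [hG, grid, Fintype.mem_piFinset] at hy ⊢
          intro k
          rcases eq_or_ne k i with rfl | hk
          · rw [hhi]; exact grid1_add (hy k) hne
          · rw [hhk _ _ hk]; exact hy k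
        rw [e, if_pos hS]
        linarith
      · have e : ∑ l, (f l (y + h) - f l y) ^ 2 = c ^ 2 := by
          simp only [hf, if_neg hy, if_pos hy', sub_zero, mul_pow]
          rw [← mul_sum, hP1 _ hy', mul_one]
        have hS : y + h ∈ S2 := by
          rw [hS2, mem_filter]
          refine ⟨hy', ?_⟩
          by_contra hne
          apply hy
          rw [hG, grid, Fintype.mem_piFinset] at hy' ⊢
          intro k
          rcases eq_or_ne k i with rfl | hk
          · have := hy' k
            rw [hhi] at this hne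
            exact grid1_sub this hne
          · have := hy' k
            rwa [hhk _ _ hk] at this
        rw [e, if_pos hS]
        linarith
      · simp only [hf, if_neg hy, if_neg hy', sub_self]
        simp only [ne_eq, OfNat.ofNat_ne_zero, not_false_eq_true, zero_pow, sum_const_zero]
        linarith
    have hcS : ∀ a ∈ grid1 N, c ^ 2 * ((G.filter (fun y => y i = a)).card : ℝ)
        = 1 / (2 * N + 1) := by
      intro a ha
      rw [hc2, hcard, hG, grid, Fintype.card_filter_piFinset_const_eq_of_mem _ _ ha, card_grid1,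
        Fintype.card_fin]
      obtain ⟨k, rfl⟩ : ∃ k, n = k + 1 := ⟨n - 1, by have := i.2; omega⟩
      push_cast
      field_simp
      ring
    have s1 := (FS_ite S1 (fun _ => c ^ 2)).summable
    have s2 := ((FS_ite S2 (fun _ => c ^ 2)).shift h).summable
    have s3 := (FS_ite G (fun y => c ^ 2 * B y)).summable
    have hsumm : ∀ l ∈ (univ : Finset (M → Fin (n + 1))),
        Summable (fun y => (f l (y + h) - f l y) ^ 2) := fun l _ => (hfF l).en_summable h
    calc ∑ l, en (f l) h = ∑' y, ∑ l, (f l (y + h) - f l y) ^ 2 :=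
          (Summable.tsum_finsetSum hsumm).symm
      _ ≤ ∑' y, ((if y ∈ S1 then c ^ 2 else 0) + (if y + h ∈ S2 then c ^ 2 else 0)
          + (if y ∈ G then c ^ 2 * B y else 0)) :=
          Summable.tsum_le_tsum hpt (summable_sum hsumm) ((s1.add s2).add s3)
      _ = c ^ 2 * S1.card + c ^ 2 * S2.card + c ^ 2 * ∑ y ∈ G, B y := by
          rw [(s1.add s2).tsum_add s3, s1.tsum_add s2, tsum_ite_mem, tsum_ite_mem]
          have : ∑' y, (if y + h ∈ S2 then c ^ 2 else 0) = ∑' y, (if y ∈ S2 then c ^ 2 else 0) :=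
            (Equiv.addRight h).tsum_eq (fun y => if y ∈ S2 then c ^ 2 else 0)
          rw [this, tsum_ite_mem, sum_const, sum_const, nsmul_eq_mul, nsmul_eq_mul, mul_sum]
          ring
      _ ≤ _ := by
          have t1 : (6 * N : ℝ) ∈ grid1 N := mem_grid1.2 ⟨N, by omega, le_rfl, by push_cast; ring⟩
          rw [hcS _ t1, hcS _ (grid1_neg t1)]
          have h1 : ∑ y ∈ G, B y
              ≤ G.card * (17280 * σ ^ 4 * ∑ m, col m * mass (A m) ^ 2 / r m ^ 6) := by
            simp only [hB]
            rw [← mul_sum, sum_comm, mul_sum, mul_sum, mul_sum]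
            refine sum_le_sum fun m _ => ?_
            rw [← mul_sum]
            have := mul_le_mul_of_nonneg_left (sum_qf_sq_le (N := N) (A m))
              (div_nonneg (hcol0 m) (pow_nonneg (hr0 m) 6))
            calc _ ≤ 5760 * (col m / r m ^ 6 * (G.card * (3 * σ ^ 4 * mass (A m) ^ 2))) := by
                  linarith
              _ = _ := by ring
          have h2 := mul_le_mul_of_nonneg_left h1 (sq_nonneg c)
          rw [← mul_assoc, hc2, one_div_mul_cancel hcpos.ne', one_mul] at h2
          rw [hc2]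
          have : (2 : ℝ) / (2 * N + 1) = 1 / (2 * N + 1) + 1 / (2 * N + 1) := by ring
          linarith

end Crest.Agent.H4.Pfx
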