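import Crest.Agent.H4.PfxScheme

set_option autoImplicit false

namespace Crest.Agent.H4.Pfx
open Finset

variable {n : ℕ} {R : Type} [Fintype R]

lemma sum_Ico_blocks (M : ℕ → ℕ) (g : ℕ → ℝ) (n : ℕ) :
    ∑ k ∈ range n, ∑ τ ∈ Ico (∑ j ∈ range k, M j) (∑ j ∈ range k, M j + M k), g τ
      = ∑ τ ∈ range (∑ j ∈ range n, M j), g τ := by
  induction n with
  | zero => simp
  | succ n ih =>
    rw [sum_range_succ, ih, sum_range_succ M,
      sum_range_add_sum_Ico _ (Nat.le_add_right _ _)]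

lemma FF_nonneg (J : ℕ) (ζ : R → Fin n → ℝ) (a : Fin n → ℕ) (c : R → ℕ) (τ : ℕ) :
    0 ≤ FF J ζ a c τ :=
  sum_nonneg fun _ _ => sum_nonneg fun _ _ => mul_nonneg (wt_nonneg _ _ _ _) (sq_nonneg _)

theorem avg_scheme (hn : 1 ≤ n) (pos : R → ℕ) (hpos : ∀ u, pos u ≤ n) (ζ : R → Fin n → ℝ)
    {D : ℝ} (hHS : ∀ t : Fin n,
      ∑ u, ∑ i, (if i ≤ t ∧ (t : ℕ) < pos u then ζ u i ^ 2 else 0) ≤ D)
    (μ : Fin n → ℝ) (hμ0 : ∀ t, 0 ≤ μ t) (hμ : ∑ t, μ t = 1) :
    ∃ (a : Fin n → ℕ) (c : R → ℕ) (τ : Fin n → ℕ), ((∀ t, τ t < 2 ^ (2 * n + 4)) ∧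
      (∀ u, c u < 2 ^ (2 * n + 4)) ∧ (∀ t i, a i + 2 ≤ τ t ↔ i ≤ t) ∧
      (∀ t u, τ t + 2 ≤ c u ↔ (t : ℕ) < pos u)) ∧
      ∑ t, μ t * FF (2 * n + 4) ζ a c (τ t) ≤ 4224 * D := by
  set J := 2 * n + 4 with hJ
  have hnr : (1 : ℝ) ≤ n := by exact_mod_cast hn
  set M : ℕ → ℕ := fun k => if h : k < n then ⌊μ ⟨k, h⟩ * n⌋₊ + 1 else 1 with hM
  have hM1 : ∀ k, 1 ≤ M k := fun k => by simp only [hM]; split_ifs <;> omega
  have hMt : ∀ t : Fin n, M t = ⌊μ t * n⌋₊ + 1 := fun t => by simp [hM]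
  set B : ℕ → ℕ := fun k => ∑ j ∈ range k, M j with hB
  have hBs : ∀ k, B (k + 1) = B k + M k := fun k => sum_range_succ _ _
  have hBm : Monotone B := monotone_nat_of_le_succ fun k => by rw [hBs]; omega
  have hMsum : ∑ t : Fin n, (M t : ℝ) ≤ 2 * n := by
    calc ∑ t : Fin n, (M t : ℝ) ≤ ∑ t : Fin n, (μ t * n + 1) := sum_le_sum fun t _ => by
          rw [hMt]; push_cast
          have := Nat.floor_le (mul_nonneg (hμ0 t) (by positivity : (0 : ℝ) ≤ n))
          linarith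
      _ = 2 * n := by rw [sum_add_distrib, ← sum_mul, hμ]; simp; ring
  have hW : B n ≤ 2 * n := by
    have : (B n : ℝ) ≤ 2 * n := by
      refine le_trans (le_of_eq ?_) hMsum
      simp only [hB]; push_cast
      exact (Fin.sum_univ_eq_sum_range (fun k => (M k : ℝ)) n).symm
    exact_mod_cast this
  have hpow : 2 * n + 4 < 2 ^ J := Nat.lt_two_pow_self
  set a : Fin n → ℕ := fun i => B i with ha
  set c : R → ℕ := fun u => B (pos u) + 3 with hc
  have hex : ∀ t : Fin n, ∃ τ ∈ Ico (B t) (B t + M t), ∀ τ' ∈ Ico (B t) (B t + M t),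
      FF J ζ a c (τ + 2) ≤ FF J ζ a c (τ' + 2) := fun t =>
    exists_min_image _ _ ⟨B t, by rw [mem_Ico]; have := hM1 t; omega⟩
  choose τ hτ hmin using hex
  simp only [mem_Ico] at hτ
  refine ⟨a, c, fun t => τ t + 2, ⟨?_, ?_, ?_, ?_⟩, ?_⟩
  · intro t
    have h1 := hBm (show (t : ℕ) + 1 ≤ n from t.2)
    have := hBs t
    have := hτ t
    simp only
    omega
  · intro u
    have := hBm (hpos u)
    simp only [hc]
    omega
  · intro t i
    simp only [ha]
    constructor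
    · intro h
      by_contra hlt
      have h1 := hBm (show (t : ℕ) + 1 ≤ i from not_le.1 hlt)
      have := hBs t
      have := hτ t
      omega
    · intro h
      have h1 := hBm (show (i : ℕ) ≤ t from h)
      have := hτ t
      omega
  · intro t u
    simp only [hc]
    constructor
    · intro h
      by_contra hlt
      have h1 := hBm (not_lt.1 hlt)
      have := hτ t
      omega
    · intro h
      have h1 := hBm (show (t : ℕ) + 1 ≤ pos u from h)
      have := hBs t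
      have := hτ t
      omega
  · have h1 : ∀ t : Fin n, μ t * FF J ζ a c (τ t + 2)
        ≤ (∑ τ' ∈ Ico (B t) (B t + M t), FF J ζ a c (τ' + 2)) / n := by
      intro t
      rw [le_div_iff₀ (by positivity)]
      have e1 : (M t : ℝ) * FF J ζ a c (τ t + 2)
          ≤ ∑ τ' ∈ Ico (B t) (B t + M t), FF J ζ a c (τ' + 2) := by
        have := card_nsmul_le_sum _ _ _ (hmin t)
        simpa using this
      have e2 : μ t * n ≤ M t := by
        rw [hMt]; push_cast
        exact (Nat.lt_floor_add_one _).le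
      have := mul_le_mul_of_nonneg_right e2 (FF_nonneg J ζ a c (τ t + 2))
      linarith
    refine (sum_le_sum fun t _ => h1 t).trans ?_
    rw [← sum_div, div_le_iff₀ (by positivity),
      Fin.sum_univ_eq_sum_range (fun k => ∑ τ' ∈ Ico (B k) (B k + M k), FF J ζ a c (τ' + 2)) n,
      sum_Ico_blocks M (fun τ' => FF J ζ a c (τ' + 2)) n]
    have hD : 0 ≤ D := le_trans (sum_nonneg fun _ _ => sum_nonneg fun _ _ =>
      ite_nonneg (sq_nonneg _) le_rfl) (hHS ⟨0, hn⟩)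
    have key : ∀ u i, ∑ τ' ∈ range (B n), wt J (a i) (τ' + 2) (c u)
        ≤ 2112 * ∑ t : Fin n, (if i ≤ t ∧ (t : ℕ) < pos u then (M t : ℝ) else 0) := by
      intro u i
      rw [← sum_image (f := fun τ' => wt J (a i) τ' (c u)) (g := fun τ' => τ' + 2)
        (fun x _ y _ h => by simpa using h)]
      refine (sum_wt _ _ _ _).trans ?_
      split_ifs with h
      · have hi : (i : ℕ) < pos u := by
          by_contra hlt
          have := hBm (not_lt.1 hlt)
          simp only [ha, hc] at h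
          omega
        have e : ∑ t : Fin n, (if i ≤ t ∧ (t : ℕ) < pos u then (M t : ℝ) else 0)
            = ((B (pos u) - B i : ℕ) : ℝ) := by
          have : ∀ t : Fin n, (if i ≤ t ∧ (t : ℕ) < pos u then (M t : ℝ) else 0)
              = if (t : ℕ) ∈ Ico (i : ℕ) (pos u) then (M t : ℝ) else 0 :=
            fun t => if_congr (by rw [mem_Ico]; rfl) rfl rfl
          simp only [this]
          rw [Fin.sum_univ_eq_sum_range
            (fun k => if k ∈ Ico (i : ℕ) (pos u) then (M k : ℝ) else 0) n, ← sum_filter,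
            filter_mem_eq_inter, inter_eq_right.2 (by
              intro k hk
              rw [mem_Ico] at hk
              have := hpos u
              rw [mem_range]; omega)]
          simp only [hB]
          rw [← sum_range_add_sum_Ico M hi.le]
          simp
        rw [e]
        have h2 : c u - a i ≤ 4 * (B (pos u) - B i) := by
          simp only [ha, hc] at h ⊢
          omega
        have h3 : ((c u - a i : ℕ) : ℝ) ≤ 4 * ((B (pos u) - B i : ℕ) : ℝ) := by exact_mod_cast h2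
        linarith
      · exact mul_nonneg (by norm_num) (sum_nonneg fun _ _ => ite_nonneg (by positivity) le_rfl)
    calc ∑ τ' ∈ range (B n), FF J ζ a c (τ' + 2)
        = ∑ u, ∑ i, (∑ τ' ∈ range (B n), wt J (a i) (τ' + 2) (c u)) * ζ u i ^ 2 := by
          unfold FF
          rw [sum_comm]
          refine sum_congr rfl fun u _ => ?_
          rw [sum_comm]
          exact sum_congr rfl fun i _ => by rw [sum_mul]
      _ ≤ ∑ u, ∑ i, (2112 * ∑ t : Fin n, (if i ≤ t ∧ (t : ℕ) < pos u then (M t : ℝ) else 0))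
            * ζ u i ^ 2 := sum_le_sum fun u _ => sum_le_sum fun i _ =>
          mul_le_mul_of_nonneg_right (key u i) (sq_nonneg _)
      _ = 2112 * ∑ t : Fin n, (M t : ℝ) *
            ∑ u, ∑ i, (if i ≤ t ∧ (t : ℕ) < pos u then ζ u i ^ 2 else 0) := by
          simp only [mul_sum, sum_mul]
          rw [sum_comm (t := (univ : Finset R))]
          refine sum_congr rfl fun u _ => ?_
          rw [sum_comm]
          refine sum_congr rfl fun i _ => sum_congr rfl fun t _ => ?_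
          split_ifs <;> ring
      _ ≤ 2112 * ∑ t : Fin n, (M t : ℝ) * D := by
          gcongr with t _
          exact hHS t
      _ ≤ 4224 * D * n := by
          rw [← sum_mul]
          nlinarith [mul_le_mul_of_nonneg_right hMsum hD]

lemma nrm_smul {X : Type*} (g : X → ℝ) {s : ℝ} (hs : 0 ≤ s) :
    nrm (fun x => √s * g x) = s * nrm g := by
  unfold nrm
  rw [← tsum_mul_left]
  exact tsum_congr fun x => by rw [mul_pow, Real.sq_sqrt hs]

lemma en_smul {X : Type*} [Add X] (g : X → ℝ) {s : ℝ} (hs : 0 ≤ s) (h : X) :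
    en (fun x => √s * g x) h = s * en g h := by
  unfold en
  rw [← tsum_mul_left]
  exact tsum_congr fun x => by rw [← mul_sub, mul_pow, Real.sq_sqrt hs]

theorem good_state (hn : 1 ≤ n) (pos : R → ℕ) (hpos : ∀ u, pos u ≤ n) (ζ : R → Fin n → ℝ)
    {D : ℝ} (hD : 1 ≤ D) (hcol : ∀ i, ∑ u, ζ u i ^ 2 ≤ 1)
    (hfac : ∀ t : Fin n, ∃ (α : Fin n → ℝ) (β : R → ℝ), (∀ i, 0 ≤ α i) ∧ (∀ u, 0 ≤ β u) ∧
      ∑ i, α i ≤ D ∧ ∑ u, β u ≤ D ∧ ∀ u i, i ≤ t → (t : ℕ) < pos u → ζ u i ^ 2 ≤ α i * β u)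
    (hHS : ∀ t : Fin n, ∑ u, ∑ i, (if i ≤ t ∧ (t : ℕ) < pos u then ζ u i ^ 2 else 0) ≤ D) :
    ∃ (Λ : Type) (_ : Fintype Λ) (K : Λ → Set (Fin n → ℝ)) (f : Λ → (Fin n → ℝ) → ℝ),
      (∀ l, Convex ℝ (K l)) ∧ (∀ l x, x ∈ K l → -x ∈ K l) ∧ (∀ l, FS (f l)) ∧
      (∀ l x, f l x ≠ 0 → x ∈ K l) ∧ ∑ l, nrm (f l) = 1 ∧
      (∀ i, ∑ l, en (f l) ((6 : ℝ) • (Pi.single i 1 : Fin n → ℝ)) ≤ 1 / 200) ∧
      (∀ l, ∀ y ∈ K l, ∀ i, |y i| ≤ 60000) ∧
      ∀ t, ∃ ρ : Λ → ℝ, (∀ l, ∀ y ∈ K l, NN pos ζ t y ≤ ρ l) ∧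
        ∑ l, nrm (f l) * ρ l ≤ 440 * 60000 ^ 2 * 4247 * D := by
  classical
  set J := 2 * n + 4 with hJ
  let S := {p : (Fin n → ℕ) × (R → ℕ) × (Fin n → ℕ) // (∀ t, p.2.2 t < 2 ^ J) ∧
      (∀ u, p.2.1 u < 2 ^ J) ∧ (∀ t i, p.1 i + 2 ≤ p.2.2 t ↔ i ≤ t) ∧
      (∀ t u, p.2.2 t + 2 ≤ p.2.1 u ↔ (t : ℕ) < pos u)}
  haveI : Nonempty (Fin n) := ⟨⟨0, hn⟩⟩
  obtain ⟨ι, _, lam, s, hlam0, hlam1, hF⟩ := minimax
    (fun (p : S) (t : Fin n) => FF J ζ p.1.1 p.1.2.1 (p.1.2.2 t))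
    (show 4224 * D < 4225 * D by linarith) (fun w hw0 hw1 => by
      obtain ⟨a, c, τ, h1, h2⟩ := avg_scheme hn pos hpos ζ hHS w hw0 hw1
      exact ⟨⟨(a, c, τ), h1⟩, h2⟩)
  have hst := fun k : ι => scheme_state J pos ζ hcol hfac (s k).1.1 (s k).1.2.1 (s k).1.2.2
    (s k).2.1 (s k).2.2.1 (s k).2.2.2.1 (s k).2.2.2.2
  choose K f hK hsym hFS hs hn1 hen hcube hρ using hst
  refine ⟨ι × (MI J → Fin (n + 1)), inferInstance, fun l => K l.1 l.2,
    fun l x => √(lam l.1) * f l.1 l.2 x, fun l => hK _ _, fun l => hsym _ _,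
    fun l => (hFS l.1 l.2).mono fun x hx => by simp [hx],
    fun l x hx => hs _ _ _ (right_ne_zero_of_mul hx), ?_, ?_, fun l => hcube _ _, ?_⟩
  · rw [Fintype.sum_prod_type, ← hlam1]
    refine sum_congr rfl fun k _ => ?_
    simp only [nrm_smul _ (hlam0 k)]
    rw [← mul_sum, hn1, mul_one]
  · intro i
    rw [Fintype.sum_prod_type]
    calc _ ≤ ∑ k, lam k * (1 / 200) := sum_le_sum fun k _ => by
          simp only [en_smul _ (hlam0 k)]
          rw [← mul_sum]
          exact mul_le_mul_of_nonneg_left (hen k i) (hlam0 k)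
      _ = 1 / 200 := by rw [← sum_mul, hlam1, one_mul]
  · intro t
    choose ρ hρ1 hρ2 using fun k => hρ k t
    refine ⟨fun l => ρ l.1 l.2, fun l => hρ1 _ _, ?_⟩
    rw [Fintype.sum_prod_type]
    calc _ ≤ ∑ k, lam k * (440 * 60000 ^ 2 *
          (22 * D + FF J ζ (s k).1.1 (s k).1.2.1 ((s k).1.2.2 t))) := sum_le_sum fun k _ => by
          simp only [nrm_smul _ (hlam0 k), mul_assoc (lam k)]
          rw [← mul_sum]
          exact mul_le_mul_of_nonneg_left (hρ2 k) (hlam0 k)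
      _ = 440 * 60000 ^ 2 * ((∑ k, lam k) * (22 * D)
          + ∑ k, lam k * FF J ζ (s k).1.1 (s k).1.2.1 ((s k).1.2.2 t)) := by
          rw [sum_mul, ← sum_add_distrib, mul_sum]
          exact sum_congr rfl fun k _ => by ring
      _ ≤ _ := by
          rw [hlam1]
          have := hF t
          linarith

end Crest.Agent.H4.Pfx
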