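import Mathlib

set_option autoImplicit false

namespace Crest.Agent.H4.Pfx
open Finset

theorem minimax {E S : Type} [Fintype E] [Nonempty E] (F : S → E → ℝ) {B B' : ℝ} (hB : B < B')
    (h : ∀ w : E → ℝ, (∀ e, 0 ≤ w e) → ∑ e, w e = 1 → ∃ s, ∑ e, w e * F s e ≤ B) :
    ∃ (ι : Type) (_ : Fintype ι) (lam : ι → ℝ) (s : ι → S), (∀ i, 0 ≤ lam i) ∧ ∑ i, lam i = 1 ∧
      ∀ e, ∑ i, lam i * F (s i) e ≤ B' := by
  classical
  by_contra hcon
  have hO : IsOpen {z : E → ℝ | ∀ e, z e < B'} := by
    rw [Set.ofPred_forall]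
    exact isOpen_iInter_of_finite fun e => isOpen_lt (continuous_apply e) continuous_const
  have cO : Convex ℝ {z : E → ℝ | ∀ e, z e < B'} := fun x hx y hy a b ha hb hab e =>
    convex_Iio B' (hx e) (hy e) ha hb hab
  obtain ⟨f, u, hf1, hf2⟩ := geometric_hahn_banach_open cO hO
    (convex_convexHull ℝ (Set.range F)) (Set.disjoint_left.2 fun z hz hz' => by
      obtain ⟨ι, _, w, x, hw0, hw1, hx, hsum⟩ := mem_convexHull_iff_exists_fintype.1 hz'
      choose s hs using hx
      apply hcon
      refine ⟨ι, inferInstance, w, s, hw0, hw1, fun e => ?_⟩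
      have := hz e
      rw [← hsum] at this
      simp only [Finset.sum_apply, Pi.smul_apply, smul_eq_mul] at this
      simp only [hs]
      exact this.le)
  have hf : ∀ z : E → ℝ, f z = ∑ e, f (Pi.single e 1) * z e := fun z => by
    conv_lhs => rw [← univ_sum_single z]
    rw [map_sum]
    exact sum_congr rfl fun e _ => by
      rw [show (Pi.single e (z e) : E → ℝ) = z e • Pi.single e 1 by
        rw [← Pi.single_smul]; simp, map_smul, smul_eq_mul, mul_comm]
  set l : E → ℝ := fun e => f (Pi.single e 1) with hl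
  set B1 := (B + B') / 2 with hB1
  have a := hf1 (fun _ => B1) fun _ => by simp only [hB1]; linarith
  have l0 : ∀ e, 0 ≤ l e := fun e => by
    by_contra hn
    push Not at hn
    set k := u - f (fun _ => B1) with hk
    have hk0 : 0 < k := by linarith
    have := hf1 ((fun _ => B1) + (k / l e) • Pi.single e 1) fun e' => by
      have : k / l e ≤ 0 := div_nonpos_of_nonneg_of_nonpos hk0.le hn.le
      simp only [Pi.add_apply, Pi.smul_apply, Pi.single_apply, smul_eq_mul]
      split_ifs <;> linarith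
    rw [map_add, map_smul, smul_eq_mul, div_mul_cancel₀ _ hn.ne] at this
    linarith
  rw [hf, ← sum_mul] at a
  have Λ0 : 0 ≤ ∑ e, l e := sum_nonneg fun e _ => l0 e
  have hE : (0:ℝ) < Fintype.card E := by exact_mod_cast Fintype.card_pos
  rcases Λ0.eq_or_lt with hΛ | hΛ
  · obtain ⟨s, -⟩ := h (fun _ => 1 / Fintype.card E) (fun _ => by positivity) (by
      simp only [sum_const, card_univ, nsmul_eq_mul]; field_simp)
    have b := hf2 (F s) (subset_convexHull ℝ _ ⟨s, rfl⟩)
    rw [hf, sum_eq_zero fun e _ => by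
      rw [show f (Pi.single e 1) = 0 from
        (sum_eq_zero_iff_of_nonneg fun e _ => l0 e).1 hΛ.symm e (mem_univ _), zero_mul]] at b
    change (∑ e, l e) * B1 < u at a
    rw [← hΛ] at a
    linarith
  obtain ⟨s, hs⟩ := h (fun e => l e / ∑ e, l e) (fun e => div_nonneg (l0 e) Λ0) (by
      rw [← sum_div, div_self hΛ.ne'])
  have b := hf2 (F s) (subset_convexHull ℝ _ ⟨s, rfl⟩)
  rw [hf] at b
  have c : ∑ e, l e * F s e ≤ (∑ e, l e) * B := by
    refine le_trans (le_of_eq ?_) (mul_le_mul_of_nonneg_left hs Λ0)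
    rw [mul_sum]
    exact sum_congr rfl fun e _ => by field_simp
  change (∑ e, l e) * B1 < u at a
  change u ≤ ∑ e, l e * F s e at b
  have : (∑ e, l e) * B < (∑ e, l e) * B1 := mul_lt_mul_of_pos_left (by linarith) hΛ
  linarith

/-- Whitney separation of quotients -/
def W (x z : ℕ) : Prop := x + 2 ≤ z ∧ z / 2 ≤ x / 2 + 1

instance (x z : ℕ) : Decidable (W x z) := by unfold W; infer_instance

def sep (j a c : ℕ) : Prop := W (a / 2 ^ j) (c / 2 ^ j)

instance (j a c : ℕ) : Decidable (sep j a c) := by unfold sep; infer_instance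

def near (j δ : ℕ) : Prop := 2 ^ j ≤ δ ∧ δ < 2 ^ (j + 3)

instance (j δ : ℕ) : Decidable (near j δ) := by unfold near; infer_instance

lemma sep_bounds {j a c : ℕ} (h : sep j a c) : a + 2 ^ j < c ∧ c < a + 2 ^ (j + 2) := by
  obtain ⟨h1, h2⟩ := h
  have hp : 0 < 2 ^ j := by positivity
  have a1 := Nat.div_mul_le_self a (2 ^ j)
  have a2 := Nat.lt_div_mul_add (a := a) hp
  have c1 := Nat.div_mul_le_self c (2 ^ j)
  have c2 := Nat.lt_div_mul_add (a := c) hp
  have h3 : c / 2 ^ j ≤ a / 2 ^ j + 3 := by omega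
  have m1 := Nat.mul_le_mul_right (2 ^ j) h1
  have m2 := Nat.mul_le_mul_right (2 ^ j) h3
  rw [pow_add]
  constructor <;> nlinarith

lemma sep_le {j a c : ℕ} (h : sep j a c) : a + 2 ≤ c := by
  have := (sep_bounds h).1
  have hp : 0 < 2 ^ j := by positivity
  omega

lemma div_pow_succ (a j : ℕ) : a / 2 ^ (j + 1) = a / 2 ^ j / 2 := by
  rw [pow_succ, Nat.div_div_eq_div_mul]

lemma far_mono {a c j j' : ℕ} (hj : j ≤ j') (h : a / 2 ^ j' + 2 ≤ c / 2 ^ j') :
    a / 2 ^ j + 2 ≤ c / 2 ^ j := by
  induction j', hj using Nat.le_induction with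
  | base => exact h
  | succ k _ ih =>
    apply ih
    rw [div_pow_succ, div_pow_succ] at h
    omega

lemma sep_unique {j j' a c : ℕ} (h : sep j a c) (h' : sep j' a c) : j = j' := by
  by_contra hne
  rcases lt_or_gt_of_ne hne with hlt | hlt
  · have := far_mono (show j + 1 ≤ j' by omega) h'.1
    rw [div_pow_succ, div_pow_succ] at this
    have := h.2
    omega
  · have := far_mono (show j' + 1 ≤ j by omega) h.1
    rw [div_pow_succ, div_pow_succ] at this
    have := h'.2
    omega

lemma sep_exists {J a c : ℕ} (hac : a + 2 ≤ c) (hc : c < 2 ^ J) : ∃ j : Fin J, sep j a c := by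
  have hJ : ¬ (a / 2 ^ J + 2 ≤ c / 2 ^ J) := by rw [Nat.div_eq_of_lt hc]; simp
  have hex : ∃ j, ¬ (a / 2 ^ j + 2 ≤ c / 2 ^ j) := ⟨J, hJ⟩
  have h1 := Nat.find_spec hex
  have h2 : Nat.find hex ≤ J := Nat.find_min' hex hJ
  have h3 : Nat.find hex ≠ 0 := by
    intro h0
    rw [h0] at h1
    simp at h1
    omega
  obtain ⟨k, hk⟩ := Nat.exists_eq_succ_of_ne_zero h3
  have h4 := Nat.find_min hex (show k < Nat.find hex by omega)
  rw [hk, Nat.succ_eq_add_one, div_pow_succ, div_pow_succ] at h1
  exact ⟨⟨k, by omega⟩, by simpa using h4, by simp only; omega⟩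

lemma sum_sep {J a c : ℕ} (hc : c < 2 ^ J) (x : ℝ) :
    ∑ j : Fin J, (if sep j a c then x else 0) = if a + 2 ≤ c then x else 0 := by
  split_ifs with h
  · obtain ⟨j, hj⟩ := sep_exists h hc
    rw [sum_eq_single j, if_pos hj]
    · intro k _ hk
      exact if_neg fun hk' => hk (Fin.ext (sep_unique hk' hj))
    · simp
  · exact sum_eq_zero fun j _ => if_neg fun hj => h (sep_le hj)

lemma near_of_sep {j j' a τ c : ℕ} (h : sep j a τ) (h' : sep j' τ c) :
    near (max j j') (c - a) := by
  have h1 := sep_bounds h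
  have h2 := sep_bounds h'
  have e1 : 2 ^ (j + 2) ≤ 2 ^ (max j j' + 2) :=
    Nat.pow_le_pow_right two_pos (by have := le_max_left j j'; omega)
  have e2 : 2 ^ (j' + 2) ≤ 2 ^ (max j j' + 2) :=
    Nat.pow_le_pow_right two_pos (by have := le_max_right j j'; omega)
  have e3 : 2 ^ (max j j' + 3) = 2 * 2 ^ (max j j' + 2) := by ring
  have p1 : 0 < 2 ^ j := by positivity
  have p2 : 0 < 2 ^ j' := by positivity
  have p3 : 0 < 2 ^ (max j j' + 2) := by positivity
  constructor
  · rcases le_total j j' with hj | hj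
    · rw [max_eq_right hj]; omega
    · rw [max_eq_left hj]; omega
  · omega

lemma sum_geom_inj {ι : Type*} (s : Finset ι) (g : ι → ℕ) (hg : Set.InjOn g s) :
    ∑ x ∈ s, (10 / 11 : ℝ) ^ g x ≤ 11 := by
  rw [← sum_image (f := fun k => (10 / 11 : ℝ) ^ k) hg]
  refine ((summable_geometric_of_lt_one (by norm_num) (by norm_num)).sum_le_tsum _
    (fun _ _ => by positivity)).trans ?_
  rw [tsum_geometric_of_lt_one (by norm_num) (by norm_num)]
  norm_num

lemma sum_geom_dist {J : ℕ} (j : ℕ) : ∑ k : Fin J, (10 / 11 : ℝ) ^ Nat.dist j k ≤ 22 := by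
  rw [← sum_filter_add_sum_filter_not univ (fun k : Fin J => (k : ℕ) ≤ j)]
  have h1 := sum_geom_inj (univ.filter (fun k : Fin J => (k : ℕ) ≤ j)) (fun k => Nat.dist j k)
    (by
      intro a ha b hb hab
      simp only [coe_filter, mem_univ, true_and, Set.mem_setOf_eq] at ha hb
      simp only [Nat.dist] at hab
      exact Fin.ext (by omega))
  have h2 := sum_geom_inj (univ.filter (fun k : Fin J => ¬ (k : ℕ) ≤ j)) (fun k => Nat.dist j k)
    (by
      intro a ha b hb hab
      simp only [coe_filter, mem_univ, true_and, Set.mem_setOf_eq] at ha hb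
      simp only [Nat.dist] at hab
      exact Fin.ext (by omega))
  linarith

lemma sum_near {J : ℕ} (δ : ℕ) : ∑ j : Fin J, (if near j δ then (1 : ℝ) else 0) ≤ 3 := by
  rw [sum_boole]
  have : (univ.filter (fun j : Fin J => near j δ)).card ≤ 3 := by
    have h1 : (univ.filter (fun j : Fin J => near j δ)).card
        ≤ (Finset.Icc (Nat.log 2 δ - 2) (Nat.log 2 δ)).card := by
      refine card_le_card_of_injOn (fun j => (j : ℕ)) ?_ (fun a _ b _ h => Fin.ext h)
      intro j hj
      simp only [coe_filter, mem_univ, true_and, Set.mem_setOf_eq] at hj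
      have hδ : δ ≠ 0 := by
        have : 0 < 2 ^ (j : ℕ) := by positivity
        have := hj.1
        omega
      have a1 : (j : ℕ) ≤ Nat.log 2 δ := Nat.le_log_of_pow_le (by norm_num) hj.1
      have a2 : Nat.log 2 δ < j + 3 := Nat.log_lt_of_lt_pow hδ hj.2
      simp only [coe_Icc, Set.mem_Icc]
      omega
    rw [Nat.card_Icc] at h1
    omega
  exact_mod_cast this

lemma sum_near_pair {J : ℕ} (δ : ℕ) : ∑ j : Fin J, ∑ j' : Fin J,
    (if near (max j j') δ then (10 / 11 : ℝ) ^ Nat.dist j j' else 0) ≤ 132 := by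
  have key : ∑ j : Fin J, ∑ j' : Fin J,
      (if near j δ then (1 : ℝ) else 0) * (10 / 11 : ℝ) ^ Nat.dist j j' ≤ 66 := by
    calc _ ≤ ∑ j : Fin J, (if near j δ then (1 : ℝ) else 0) * 22 := by
          refine sum_le_sum fun j _ => ?_
          rw [← mul_sum]
          exact mul_le_mul_of_nonneg_left (sum_geom_dist j) (by split_ifs <;> norm_num)
      _ ≤ 66 := by rw [← sum_mul]; linarith [sum_near (J := J) δ]
  calc _ ≤ ∑ j : Fin J, ∑ j' : Fin J,
        ((if near j δ then (1 : ℝ) else 0) * (10 / 11 : ℝ) ^ Nat.dist j j'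
          + (if near j' δ then (1 : ℝ) else 0) * (10 / 11 : ℝ) ^ Nat.dist j' j) := by
        refine sum_le_sum fun j _ => sum_le_sum fun j' _ => ?_
        have hp : (0 : ℝ) ≤ (10 / 11 : ℝ) ^ Nat.dist j j' := by positivity
        rw [Nat.dist_comm j' j]
        rcases le_total (j : ℕ) j' with h | h
        · rw [max_eq_right h]
          split_ifs <;> linarith
        · rw [max_eq_left h]
          split_ifs <;> linarith
    _ ≤ 132 := by
        simp only [sum_add_distrib]
        rw [sum_comm (f := fun j j' : Fin J =>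
          (if near j' δ then (1 : ℝ) else 0) * (10 / 11 : ℝ) ^ Nat.dist j' j)]
        linarith

lemma sum_W_left {K : ℕ} (x : ℕ) : ∑ X : Fin K, (if W x X then (1 : ℝ) else 0) ≤ 2 := by
  rw [sum_boole]
  have : (univ.filter (fun X : Fin K => W x X)).card ≤ ({x + 2, x + 3} : Finset ℕ).card := by
    refine card_le_card_of_injOn (fun j => (j : ℕ)) ?_ (fun a _ b _ h => Fin.ext h)
    intro j hj
    simp only [coe_filter, mem_univ, true_and, Set.mem_setOf_eq, W] at hj
    simp only [coe_insert, coe_singleton, Set.mem_insert_iff, Set.mem_singleton_iff]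
    omega
  exact_mod_cast this.trans card_le_two

lemma sum_W_right {K : ℕ} (z : ℕ) : ∑ Z : Fin K, (if W Z z then (1 : ℝ) else 0) ≤ 2 := by
  rw [sum_boole]
  have : (univ.filter (fun Z : Fin K => W Z z)).card ≤ ({z - 2, z - 3} : Finset ℕ).card := by
    refine card_le_card_of_injOn (fun j => (j : ℕ)) ?_ (fun a _ b _ h => Fin.ext h)
    intro j hj
    simp only [coe_filter, mem_univ, true_and, Set.mem_setOf_eq, W] at hj
    simp only [coe_insert, coe_singleton, Set.mem_insert_iff, Set.mem_singleton_iff]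
    omega
  exact_mod_cast this.trans card_le_two

/-- weight of a triple -/
noncomputable def wt (J a τ c : ℕ) : ℝ := ∑ j : Fin J, ∑ j' : Fin J,
  if sep j a τ ∧ sep j' τ c then (11 / 10 : ℝ) ^ (6 * Nat.dist j j') else 0

lemma wt_nonneg (J a τ c : ℕ) : 0 ≤ wt J a τ c :=
  sum_nonneg fun _ _ => sum_nonneg fun _ _ => by split_ifs <;> positivity

lemma sum_wt (J a c : ℕ) (s : Finset ℕ) :
    ∑ τ ∈ s, wt J a τ c ≤ if a + 4 ≤ c then 528 * ((c - a : ℕ) : ℝ) else 0 := by
  split_ifs with hac
  swap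
  · refine le_of_eq (sum_eq_zero fun τ _ => sum_eq_zero fun j _ => sum_eq_zero fun j' _ => ?_)
    refine if_neg fun h => hac ?_
    have := sep_le h.1
    have := sep_le h.2
    omega
  unfold wt
  rw [sum_comm]
  simp only [sum_comm (s := s)]
  set δ := c - a with hδ
  have key : ∀ j j' : Fin J, ∑ τ ∈ s,
      (if sep j a τ ∧ sep j' τ c then (11 / 10 : ℝ) ^ (6 * Nat.dist j j') else 0)
      ≤ 4 * δ * (if near (max j j') δ then (10 / 11 : ℝ) ^ Nat.dist j j' else 0) := by
    intro j j'
    rw [← sum_filter, sum_const, nsmul_eq_mul]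
    set S := s.filter (fun τ => sep j a τ ∧ sep j' τ c) with hS
    rcases S.eq_empty_or_nonempty with h | ⟨τ0, h⟩
    · rw [h]
      simp only [card_empty, Nat.cast_zero, zero_mul]
      split_ifs <;> positivity
    have hτ0 := (mem_filter.1 h).2
    have hn := near_of_sep hτ0.1 hτ0.2
    rw [if_pos hn]
    have hc1 : S.card ≤ 2 ^ (min (j : ℕ) j' + 2) := by
      have p1 : 0 < 2 ^ (j : ℕ) := by positivity
      have p2 : 0 < 2 ^ (j' : ℕ) := by positivity
      have p3 : 0 < 2 ^ ((j' : ℕ) + 2) := by positivity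
      rcases le_total (j : ℕ) j' with hj | hj
      · rw [min_eq_left hj]
        have : S ⊆ Finset.Ico a (a + 2 ^ ((j : ℕ) + 2)) := by
          intro τ hτ
          have := sep_bounds (mem_filter.1 hτ).2.1
          rw [Finset.mem_Ico]; omega
        simpa using card_le_card this
      · rw [min_eq_right hj]
        have : S ⊆ Finset.Ico (c - 2 ^ ((j' : ℕ) + 2)) c := by
          intro τ hτ
          have := sep_bounds (mem_filter.1 hτ).2.2
          rw [Finset.mem_Ico]; omega
        have := card_le_card this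
        rw [Nat.card_Ico] at this
        omega
    have hc2 : (S.card : ℝ) ≤ 2 ^ (min (j : ℕ) j' + 2) := by exact_mod_cast hc1
    have hmax : max (j : ℕ) j' = min (j : ℕ) j' + Nat.dist j j' := by
      simp only [Nat.dist]; omega
    have hn1 : (2 : ℝ) ^ (min (j : ℕ) j' + Nat.dist j j') ≤ δ := by
      rw [← hmax]; exact_mod_cast hn.1
    set l := Nat.dist j j'
    have hq : (11 / 10 : ℝ) ^ (6 * l) ≤ 2 ^ l * (10 / 11) ^ l := by
      rw [pow_mul, ← mul_pow]
      exact pow_le_pow_left₀ (by positivity) (by norm_num) l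
    calc (S.card : ℝ) * (11 / 10) ^ (6 * l) ≤ 2 ^ (min (j : ℕ) j' + 2) * (2 ^ l * (10 / 11) ^ l) :=
          mul_le_mul hc2 hq (by positivity) (by positivity)
      _ = 4 * 2 ^ (min (j : ℕ) j' + l) * (10 / 11) ^ l := by ring
      _ ≤ _ := by gcongr
  calc _ ≤ ∑ j : Fin J, ∑ j' : Fin J,
        4 * δ * (if near (max j j') δ then (10 / 11 : ℝ) ^ Nat.dist j j' else 0) :=
        sum_le_sum fun j _ => sum_le_sum fun j' _ => key j j'
    _ ≤ 528 * δ := by
        simp only [← mul_sum]
        have := mul_le_mul_of_nonneg_left (sum_near_pair (J := J) δ)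
          (show (0 : ℝ) ≤ 4 * δ by positivity)
        linarith

end Crest.Agent.H4.Pfx
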