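import Crest.Agent.H4.PfxMeas
import Crest.Agent.H4.PfxWhit

set_option autoImplicit false

namespace Crest.Agent.H4.Pfx
open Finset

variable {n : ℕ} {R : Type} [Fintype R]

/-- squared norm of the corner block applied to `y` -/
noncomputable def NN (pos : R → ℕ) (ζ : R → Fin n → ℝ) (t : Fin n) (y : Fin n → ℝ) : ℝ :=
  ∑ u, if (t : ℕ) < pos u then (∑ i, if i ≤ t then ζ u i * y i else 0) ^ 2 else 0

noncomputable def FF (J : ℕ) (ζ : R → Fin n → ℝ) (a : Fin n → ℕ) (c : R → ℕ) (τ : ℕ) : ℝ :=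
  ∑ u, ∑ i, wt J (a i) τ (c u) * ζ u i ^ 2

abbrev MI (J : ℕ) := Fin J × Fin J × Fin (2 ^ J) × Fin (2 ^ J)

noncomputable def mA (J : ℕ) (ζ : R → Fin n → ℝ) (a : Fin n → ℕ) (c : R → ℕ) (m : MI J)
    (u : R) (i : Fin n) : ℝ :=
  if W (a i / 2 ^ (m.1 : ℕ)) m.2.2.1 ∧ W m.2.2.2 (c u / 2 ^ (m.2.1 : ℕ)) ∧
    near (max m.1 m.2.1) (c u - a i) then ζ u i else 0

noncomputable def rad (σ : ℝ) (l : ℕ) (μ : ℝ) : ℝ :=
  σ * √((10 / 11) ^ (2 * l) * √μ + (11 / 10) ^ (5 * l) * μ)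

lemma rad_sq (σ : ℝ) (l : ℕ) {μ : ℝ} (hμ : 0 ≤ μ) :
    rad σ l μ ^ 2 = σ ^ 2 * ((10 / 11) ^ (2 * l) * √μ + (11 / 10) ^ (5 * l) * μ) := by
  unfold rad
  rw [mul_pow, Real.sq_sqrt (by positivity)]

lemma le_rad_sq (σ : ℝ) (l : ℕ) {μ : ℝ} (hμ : 0 ≤ μ) : σ ^ 2 * μ ≤ rad σ l μ ^ 2 := by
  rw [rad_sq σ l hμ]
  refine mul_le_mul_of_nonneg_left ?_ (sq_nonneg _)
  have h1 : (1 : ℝ) ≤ (11 / 10) ^ (5 * l) := one_le_pow₀ (by norm_num)
  have h2 : 0 ≤ (10 / 11 : ℝ) ^ (2 * l) * √μ := by positivity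
  nlinarith

lemma div_rad_le {σ : ℝ} (hσ : 0 < σ) (l : ℕ) {μ : ℝ} (hμ : 0 ≤ μ) :
    μ ^ 2 / rad σ l μ ^ 6 ≤ (10 / 11) ^ l / σ ^ 6 := by
  rcases hμ.eq_or_lt with rfl | hμ'
  · simp only [ne_eq, OfNat.ofNat_ne_zero, not_false_eq_true, zero_pow, zero_div]
    positivity
  set x := (10 / 11 : ℝ) ^ (2 * l) * √μ with hx
  set y := (11 / 10 : ℝ) ^ (5 * l) * μ with hy
  have hx0 : 0 < x := by positivity
  have hy0 : 0 < y := by positivity
  have h6 : rad σ l μ ^ 6 = σ ^ 6 * (x + y) ^ 3 := by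
    rw [show 6 = 2 * 3 by norm_num, pow_mul, rad_sq σ l hμ, mul_pow, ← pow_mul]
  have hxy : (10 / 11 : ℝ) ^ l * (x ^ 2 * y) = μ ^ 2 := by
    rw [hx, hy, mul_pow, Real.sq_sqrt hμ]
    have : (10 / 11 : ℝ) ^ l * ((10 / 11) ^ (2 * l)) ^ 2 * (11 / 10) ^ (5 * l) = 1 := by
      rw [← pow_mul, ← pow_add, show l + 2 * l * 2 = 5 * l by ring, ← mul_pow]
      norm_num
    linear_combination μ ^ 2 * this
  rw [h6, div_le_div_iff₀ (by positivity) (by positivity), ← hxy]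
  have : x ^ 2 * y ≤ (x + y) ^ 3 := by
    have : 0 ≤ x ^ 3 + 2 * x ^ 2 * y + 3 * x * y ^ 2 + y ^ 3 := by positivity
    nlinarith
  calc (10 / 11 : ℝ) ^ l * (x ^ 2 * y) * σ ^ 6 ≤ (10 / 11) ^ l * (x + y) ^ 3 * σ ^ 6 := by gcongr
    _ = _ := by ring

lemma cost_sum (J : ℕ) (ζ : R → Fin n → ℝ) (a : Fin n → ℕ) (c : R → ℕ) (i : Fin n)
    (hcol : ∑ u, ζ u i ^ 2 ≤ 1) :
    ∑ m : MI J, (∑ u, mA J ζ a c m u i ^ 2) * (10 / 11 : ℝ) ^ Nat.dist m.1 m.2.1 ≤ 528 := by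
  simp only [sum_mul]
  rw [sum_comm]
  have key : ∀ u, ∑ m : MI J, mA J ζ a c m u i ^ 2 * (10 / 11 : ℝ) ^ Nat.dist m.1 m.2.1
      ≤ 528 * ζ u i ^ 2 := by
    intro u
    simp only [Fintype.sum_prod_type]
    calc _ ≤ ∑ j : Fin J, ∑ j' : Fin J, 4 * ζ u i ^ 2 *
          (if near (max j j') (c u - a i) then (10 / 11 : ℝ) ^ Nat.dist j j' else 0) := by
          refine sum_le_sum fun j _ => sum_le_sum fun j' _ => ?_
          have e : ∀ X Z : Fin (2 ^ J), mA J ζ a c (j, j', X, Z) u i ^ 2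
              * (10 / 11 : ℝ) ^ Nat.dist j j'
              = (if W (a i / 2 ^ (j : ℕ)) X then (1 : ℝ) else 0)
                * (if W Z (c u / 2 ^ (j' : ℕ)) then (1 : ℝ) else 0) * (ζ u i ^ 2 *
                (if near (max j j') (c u - a i) then (10 / 11 : ℝ) ^ Nat.dist j j' else 0)) := by
            intro X Z
            unfold mA
            by_cases h1 : W (a i / 2 ^ (j : ℕ)) X <;> by_cases h2 : W Z (c u / 2 ^ (j' : ℕ)) <;>
              by_cases h3 : near (max j j') (c u - a i) <;> simp [h1, h2, h3]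
          simp only [e]
          simp only [← sum_mul, ← mul_sum]
          have h1 := sum_W_left (K := 2 ^ J) (a i / 2 ^ (j : ℕ))
          have h2 := sum_W_right (K := 2 ^ J) (c u / 2 ^ (j' : ℕ))
          have h3 : (∑ X : Fin (2 ^ J), (if W (a i / 2 ^ (j : ℕ)) X then (1 : ℝ) else 0)) *
              (∑ Z : Fin (2 ^ J), (if W Z (c u / 2 ^ (j' : ℕ)) then (1 : ℝ) else 0)) ≤ 2 * 2 :=
            mul_le_mul h1 h2 (sum_nonneg fun _ _ => by split_ifs <;> norm_num) (by norm_num)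
          have h4 : 0 ≤ ζ u i ^ 2 *
              (if near (max j j') (c u - a i) then (10 / 11 : ℝ) ^ Nat.dist j j' else 0) :=
            mul_nonneg (sq_nonneg _) (by split_ifs <;> positivity)
          have := mul_le_mul_of_nonneg_right h3 h4
          linarith
      _ ≤ 528 * ζ u i ^ 2 := by
          simp only [← mul_sum]
          have := mul_le_mul_of_nonneg_left (sum_near_pair (J := J) (c u - a i))
            (show (0 : ℝ) ≤ 4 * ζ u i ^ 2 by positivity)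
          linarith
  calc _ ≤ ∑ u, 528 * ζ u i ^ 2 := sum_le_sum fun u _ => key u
    _ ≤ 528 := by rw [← mul_sum]; linarith

/-- the index of the rectangle of levels `j, j'` around `τ` -/
def mi {J τ : ℕ} (hτ : τ < 2 ^ J) (j j' : Fin J) : MI J :=
  (j, j', ⟨τ / 2 ^ (j : ℕ), lt_of_le_of_lt (Nat.div_le_self _ _) hτ⟩,
    ⟨τ / 2 ^ (j' : ℕ), lt_of_le_of_lt (Nat.div_le_self _ _) hτ⟩)

omit [Fintype R] in
lemma mA_mi {J τ : ℕ} (hτ : τ < 2 ^ J) (j j' : Fin J) (ζ : R → Fin n → ℝ) (a : Fin n → ℕ)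
    (c : R → ℕ) (u : R) (i : Fin n) :
    mA J ζ a c (mi hτ j j') u i = if sep j (a i) τ ∧ sep j' τ (c u) then ζ u i else 0 := by
  unfold mA mi
  refine if_congr ⟨fun h => ⟨h.1, h.2.1⟩, fun h => ⟨h.1, h.2, near_of_sep h.1 h.2⟩⟩ rfl rfl

lemma NN_le {J τ : ℕ} (hτ : τ < 2 ^ J) (pos : R → ℕ) (ζ : R → Fin n → ℝ) (a : Fin n → ℕ)
    (c : R → ℕ) (hc : ∀ u, c u < 2 ^ J) (t : Fin n) (ha : ∀ i, a i + 2 ≤ τ ↔ i ≤ t)
    (hct : ∀ u, τ + 2 ≤ c u ↔ (t : ℕ) < pos u) (y : Fin n → ℝ) :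
    NN pos ζ t y ≤ 22 * ∑ j : Fin J, ∑ j' : Fin J,
      (11 / 10 : ℝ) ^ Nat.dist j j' * qf (mA J ζ a c (mi hτ j j')) y := by
  unfold NN qf
  simp only [mul_sum]
  rw [sum_comm (s := univ) (t := univ) (f := fun j : Fin J => fun j' : Fin J => _)]
  simp only [sum_comm (t := (univ : Finset R))]
  refine sum_le_sum fun u _ => ?_
  split_ifs with h
  swap
  · positivity
  obtain ⟨j', hj'⟩ := sep_exists ((hct u).2 h) (hc u)
  refine le_trans ?_ (single_le_sum (f := fun j' : Fin J => ∑ j : Fin J,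
    22 * ((11 / 10 : ℝ) ^ Nat.dist j j' * (∑ i, mA J ζ a c (mi hτ j j') u i * y i) ^ 2))
    (fun _ _ => by positivity) (mem_univ j'))
  have e : (∑ i, if i ≤ t then ζ u i * y i else 0)
      = ∑ j : Fin J, ∑ i, mA J ζ a c (mi hτ j j') u i * y i := by
    rw [sum_comm]
    refine sum_congr rfl fun i _ => ?_
    simp only [mA_mi, hj', and_true, ite_mul, zero_mul]
    rw [sum_sep hτ]
    exact if_congr (ha i).symm rfl rfl
  rw [e, ← mul_sum]
  refine (sum_sq_le_sum_mul_sum_of_sq_le_mul univ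
    (f := fun j : Fin J => (10 / 11 : ℝ) ^ Nat.dist j j')
    (g := fun j : Fin J => (11 / 10 : ℝ) ^ Nat.dist j j'
      * (∑ i, mA J ζ a c (mi hτ j j') u i * y i) ^ 2)
    (fun _ _ => by positivity) (fun _ _ => by positivity) (fun j _ => le_of_eq ?_)).trans ?_
  · rw [← mul_assoc, ← mul_pow]; norm_num
  · refine mul_le_mul_of_nonneg_right ?_ (sum_nonneg fun _ _ => by positivity)
    simp only [Nat.dist_comm _ (j' : ℕ)]
    exact sum_geom_dist _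

lemma rad_sum {J τ : ℕ} (hτ : τ < 2 ^ J) (pos : R → ℕ) (ζ : R → Fin n → ℝ) (a : Fin n → ℕ)
    (c : R → ℕ) (hc : ∀ u, c u < 2 ^ J) (t : Fin n) (ha : ∀ i, a i + 2 ≤ τ ↔ i ≤ t)
    (hct : ∀ u, τ + 2 ≤ c u ↔ (t : ℕ) < pos u) {D : ℝ} (α : Fin n → ℝ) (β : R → ℝ)
    (hα0 : ∀ i, 0 ≤ α i) (hβ0 : ∀ u, 0 ≤ β u) (hα : ∑ i, α i ≤ D) (hβ : ∑ u, β u ≤ D)
    (hf : ∀ u i, i ≤ t → (t : ℕ) < pos u → ζ u i ^ 2 ≤ α i * β u) (σ : ℝ) :
    ∑ j : Fin J, ∑ j' : Fin J, (11 / 10 : ℝ) ^ Nat.dist j j'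
      * rad σ (Nat.dist j j') (mass (mA J ζ a c (mi hτ j j'))) ^ 2
      ≤ σ ^ 2 * (22 * D + FF J ζ a c τ) := by
  set αj : Fin J → ℝ := fun j => ∑ i, if sep j (a i) τ then α i else 0 with hαj
  set βj : Fin J → ℝ := fun j => ∑ u, if sep j τ (c u) then β u else 0 with hβj
  have hαj0 : ∀ j, 0 ≤ αj j := fun j => sum_nonneg fun i _ => ite_nonneg (hα0 i) le_rfl
  have hβj0 : ∀ j, 0 ≤ βj j := fun j => sum_nonneg fun i _ => ite_nonneg (hβ0 i) le_rfl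
  have hαs : ∑ j, αj j ≤ D := by
    refine le_trans ?_ hα
    rw [sum_comm]
    refine sum_le_sum fun i _ => ?_
    rw [sum_sep hτ]
    split_ifs
    exacts [le_rfl, hα0 i]
  have hβs : ∑ j, βj j ≤ D := by
    refine le_trans ?_ hβ
    rw [sum_comm]
    refine sum_le_sum fun u _ => ?_
    rw [sum_sep (hc u)]
    split_ifs
    exacts [le_rfl, hβ0 u]
  have hm : ∀ j j', √(mass (mA J ζ a c (mi hτ j j'))) ≤ (αj j + βj j') / 2 := by
    intro j j'
    have h1 : mass (mA J ζ a c (mi hτ j j')) ≤ αj j * βj j' := by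
      unfold mass
      rw [mul_comm, sum_mul_sum]
      refine sum_le_sum fun u _ => sum_le_sum fun i _ => ?_
      rw [mA_mi]
      by_cases h1 : sep j (a i) τ <;> by_cases h2 : sep j' τ (c u) <;> simp only [h1, h2] <;>
        simp
      rw [mul_comm]
      exact hf u i ((ha i).1 (sep_le h1)) ((hct u).1 (sep_le h2))
    rw [Real.sqrt_le_iff]
    refine ⟨by have := hαj0 j; have := hβj0 j'; positivity, h1.trans ?_⟩
    nlinarith [sq_nonneg (αj j - βj j')]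
  have e : ∀ j j' : Fin J, (11 / 10 : ℝ) ^ Nat.dist j j'
      * rad σ (Nat.dist j j') (mass (mA J ζ a c (mi hτ j j'))) ^ 2
      = σ ^ 2 * ((10 / 11 : ℝ) ^ Nat.dist j j' * √(mass (mA J ζ a c (mi hτ j j')))
        + (11 / 10 : ℝ) ^ (6 * Nat.dist j j') * mass (mA J ζ a c (mi hτ j j'))) := by
    intro j j'
    rw [rad_sq _ _ (mass_nonneg _)]
    set l := Nat.dist j j'
    have h1 : (11 / 10 : ℝ) ^ l * (10 / 11) ^ (2 * l) = (10 / 11) ^ l := by
      rw [two_mul, pow_add, ← mul_assoc, ← mul_pow]; norm_num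
    have h2 : (11 / 10 : ℝ) ^ l * (11 / 10) ^ (5 * l) = (11 / 10) ^ (6 * l) := by
      rw [← pow_add]; congr 1; ring
    rw [← h1, ← h2]; ring
  simp only [e, ← mul_sum, sum_add_distrib]
  refine mul_le_mul_of_nonneg_left (add_le_add ?_ (le_of_eq ?_)) (sq_nonneg _)
  · calc _ ≤ ∑ j : Fin J, ∑ j' : Fin J, (10 / 11 : ℝ) ^ Nat.dist j j' * ((αj j + βj j') / 2) :=
          sum_le_sum fun j _ => sum_le_sum fun j' _ =>
            mul_le_mul_of_nonneg_left (hm j j') (by positivity)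
      _ = (∑ j : Fin J, (∑ j' : Fin J, (10 / 11 : ℝ) ^ Nat.dist j j') * αj j
          + ∑ j' : Fin J, (∑ j : Fin J, (10 / 11 : ℝ) ^ Nat.dist j' j) * βj j') / 2 := by
          simp only [sum_mul]
          rw [sum_comm (f := fun j' j : Fin J => (10 / 11 : ℝ) ^ Nat.dist j' j * βj j'),
            ← sum_add_distrib, sum_div]
          refine sum_congr rfl fun j _ => ?_
          rw [← sum_add_distrib, sum_div]
          refine sum_congr rfl fun j' _ => ?_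
          rw [Nat.dist_comm j' j]; ring
      _ ≤ (∑ j : Fin J, 22 * αj j + ∑ j' : Fin J, 22 * βj j') / 2 := by
          gcongr with j _ j _
          · exact hαj0 j
          · exact sum_geom_dist _
          · exact hβj0 j
          · exact sum_geom_dist _
      _ ≤ 22 * D := by rw [← mul_sum, ← mul_sum]; linarith
  · unfold FF mass wt
    simp only [mul_sum, sum_mul]
    simp only [sum_comm (t := (univ : Finset R))]
    refine sum_congr rfl fun u _ => ?_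
    simp only [sum_comm (t := (univ : Finset (Fin n))) (s := (univ : Finset (Fin J)))]
    refine sum_congr rfl fun i _ => sum_congr rfl fun j _ => sum_congr rfl fun j' _ => ?_
    rw [mA_mi]
    split_ifs <;> simp

theorem scheme_state (J : ℕ) (pos : R → ℕ) (ζ : R → Fin n → ℝ) {D : ℝ}
    (hcol : ∀ i, ∑ u, ζ u i ^ 2 ≤ 1)
    (hfac : ∀ t : Fin n, ∃ (α : Fin n → ℝ) (β : R → ℝ), (∀ i, 0 ≤ α i) ∧ (∀ u, 0 ≤ β u) ∧
      ∑ i, α i ≤ D ∧ ∑ u, β u ≤ D ∧ ∀ u i, i ≤ t → (t : ℕ) < pos u → ζ u i ^ 2 ≤ α i * β u)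
    (a : Fin n → ℕ) (c : R → ℕ) (τ : Fin n → ℕ) (hτ : ∀ t, τ t < 2 ^ J) (hc : ∀ u, c u < 2 ^ J)
    (ha : ∀ t i, a i + 2 ≤ τ t ↔ i ≤ t) (hct : ∀ t u, τ t + 2 ≤ c u ↔ (t : ℕ) < pos u) :
    ∃ (K : (MI J → Fin (n + 1)) → Set (Fin n → ℝ)) (f : (MI J → Fin (n + 1)) → (Fin n → ℝ) → ℝ),
      (∀ l, Convex ℝ (K l)) ∧ (∀ l x, x ∈ K l → -x ∈ K l) ∧ (∀ l, FS (f l)) ∧
      (∀ l x, f l x ≠ 0 → x ∈ K l) ∧ ∑ l, nrm (f l) = 1 ∧
      (∀ i, ∑ l, en (f l) ((6 : ℝ) • (Pi.single i 1 : Fin n → ℝ)) ≤ 1 / 200) ∧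
      (∀ l, ∀ y ∈ K l, ∀ i, |y i| ≤ 60000) ∧
      ∀ t, ∃ ρ : (MI J → Fin (n + 1)) → ℝ, (∀ l, ∀ y ∈ K l, NN pos ζ t y ≤ ρ l) ∧
        ∑ l, nrm (f l) * ρ l ≤ 440 * 60000 ^ 2 * (22 * D + FF J ζ a c (τ t)) := by
  classical
  set r : MI J → ℝ := fun m => rad 60000 (Nat.dist m.1 m.2.1) (mass (mA J ζ a c m)) with hr
  have hσ : (6 * ((10000 : ℕ) : ℝ)) = 60000 := by norm_num
  obtain ⟨f, hF, hs, hn, hl, hen⟩ := measure n 10000 (by norm_num) (mA J ζ a c) r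
    (fun m => by unfold r rad; positivity) (fun m => by rw [hσ]; exact le_rad_sq _ _ (mass_nonneg _))
  rw [hσ] at hs hen
  refine ⟨fun l => {y | (∀ i, |y i| ≤ 60000) ∧
    ∀ m, qf (mA J ζ a c m) y ≤ (r m * (((l m : ℕ) : ℝ) + 2)) ^ 2}, f, ?_, ?_, hF, hs, hn, ?_,
    fun l y hy => hy.1, ?_⟩
  · intro l x hx y hy p q hp hq hpq
    refine ⟨fun i => ?_, fun m => convex_qf _ _ (hx.2 m) (hy.2 m) hp hq hpq⟩
    have h1 := abs_le.1 (hx.1 i)
    have h2 := abs_le.1 (hy.1 i)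
    simp only [Pi.add_apply, Pi.smul_apply, smul_eq_mul]
    rw [abs_le]
    constructor <;> nlinarith
  · intro l x hx
    exact ⟨fun i => by simpa using hx.1 i, fun m => by rw [qf_neg]; exact hx.2 m⟩
  · intro i
    refine (hen i).trans ?_
    have h1 : ∑ m : MI J, (∑ u, mA J ζ a c m u i ^ 2) * mass (mA J ζ a c m) ^ 2 / r m ^ 6
        ≤ 528 / 60000 ^ 6 := by
      refine le_trans ?_ (div_le_div_of_nonneg_right (cost_sum J ζ a c i (hcol i))
        (show (0 : ℝ) ≤ 60000 ^ 6 by positivity))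
      rw [sum_div]
      refine sum_le_sum fun m _ => ?_
      rw [mul_div_assoc, mul_div_assoc]
      exact mul_le_mul_of_nonneg_left (div_rad_le (by norm_num) _ (mass_nonneg _))
        (sum_nonneg fun _ _ => sq_nonneg _)
    have := mul_le_mul_of_nonneg_left h1 (show (0 : ℝ) ≤ 17280 * 60000 ^ 4 by positivity)
    refine le_trans (add_le_add le_rfl this) ?_
    norm_num
  · intro t
    refine ⟨fun l => 22 * ∑ j : Fin J, ∑ j' : Fin J, (11 / 10 : ℝ) ^ Nat.dist j j'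
      * (r (mi (hτ t) j j') * (((l (mi (hτ t) j j') : ℕ) : ℝ) + 2)) ^ 2, ?_, ?_⟩
    · intro l y hy
      refine (NN_le (hτ t) pos ζ a c hc t (ha t) (hct t) y).trans ?_
      exact mul_le_mul_of_nonneg_left (sum_le_sum fun j _ => sum_le_sum fun j' _ =>
        mul_le_mul_of_nonneg_left (hy.2 _) (by positivity)) (by norm_num)
    · obtain ⟨α, β, hα0, hβ0, hα, hβ, hf⟩ := hfac t
      have h1 := rad_sum (hτ t) pos ζ a c hc t (ha t) (hct t) α β hα0 hβ0 hα hβ hf 60000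
      calc _ = 22 * ∑ j : Fin J, ∑ j' : Fin J, (11 / 10 : ℝ) ^ Nat.dist j j'
            * r (mi (hτ t) j j') ^ 2
            * ∑ l, nrm (f l) * (((l (mi (hτ t) j j') : ℕ) : ℝ) + 2) ^ 2 := by
            simp only [mul_sum]
            rw [sum_comm]
            refine sum_congr rfl fun j _ => ?_
            rw [sum_comm]
            exact sum_congr rfl fun j' _ => sum_congr rfl fun l _ => by ring
        _ ≤ 22 * ∑ j : Fin J, ∑ j' : Fin J, (11 / 10 : ℝ) ^ Nat.dist j j'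
            * r (mi (hτ t) j j') ^ 2 * 20 := by
            gcongr with j _ j' _
            exact hl _
        _ ≤ _ := by
            simp only [← sum_mul]
            change _ ≤ 60000 ^ 2 * (22 * D + FF J ζ a c (τ t)) at h1
            have h2 : ∑ j : Fin J, ∑ j' : Fin J, (11 / 10 : ℝ) ^ Nat.dist j j'
              * r (mi (hτ t) j j') ^ 2 ≤ 60000 ^ 2 * (22 * D + FF J ζ a c (τ t)) := h1
            linarith

end Crest.Agent.H4.Pfx
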