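import Crest.Agent.H4.PfxEnergy

set_option autoImplicit false

namespace Crest.Agent.H4.Pfx
open Finset

variable {X : Type} [AddCommGroup X] [Module ℝ X]

/-- noise along `d` -/
lemma exists_noise (N : ℕ) (hN : 1 ≤ N) (d : X) {g : X → ℝ} (hg : FS g) :
    ∃ G : X → ℝ, FS G ∧ (∀ x, 0 ≤ G x) ∧ nrm G = nrm g ∧
      (∀ x, G x ≠ 0 → ∃ a : ℝ, |a| ≤ 1 / 2 ∧ g (x - a • d) ≠ 0) ∧
      ∀ (h : X) (j : ℤ), en G (h + ((j : ℝ) * (1 / (4 * N))) • d)
        ≤ en g h + 64 * ((j : ℝ) * (1 / (4 * N))) ^ 2 * nrm g := by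
  obtain ⟨ψ, hψ, hsupp, hn, hen⟩ := exists_tent N hN
  set δ : ℝ := 1 / (4 * N) with hδ
  have hNr : (1 : ℝ) ≤ N := by exact_mod_cast hN
  let e : X × ℤ ≃ X × ℤ :=
    { toFun := fun p => (p.1 - ((p.2 : ℝ) * δ) • d, p.2)
      invFun := fun p => (p.1 + ((p.2 : ℝ) * δ) • d, p.2)
      left_inv := fun p => by simp
      right_inv := fun p => by simp }
  set T : X × ℤ → ℝ := fun p => g p.1 * ψ p.2 with hT
  have hTF : FS T := hg.tensor hψ
  have hG : FS (fun p => T (e p)) := hTF.comp e.injective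
  refine ⟨marg (fun p => T (e p)), hG.marg, marg_nonneg _, ?_, ?_, ?_⟩
  · rw [nrm_marg hG]
    have : nrm (fun p => T (e p)) = nrm T := e.tsum_eq (fun p => T p ^ 2)
    rw [this, nrm_tensor hg hψ, hn, mul_one]
  · intro x hx
    obtain ⟨k, hk⟩ := marg_ne_zero hx
    have hk' : g (x - ((k : ℝ) * δ) • d) * ψ k ≠ 0 := hk
    rw [mul_ne_zero_iff] at hk'
    refine ⟨(k : ℝ) * δ, ?_, hk'.1⟩
    have h1 : |(k : ℝ)| ≤ 2 * N := by exact_mod_cast hsupp k hk'.2
    rw [abs_mul, abs_of_pos (show 0 < δ by positivity)]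
    calc |(k : ℝ)| * δ ≤ 2 * N * δ := mul_le_mul_of_nonneg_right h1 (by positivity)
      _ = 1 / 2 := by rw [hδ]; field_simp; ring
  · intro h j
    refine (en_marg hG _ j).trans ?_
    have : en (fun p => T (e p)) (h + ((j : ℝ) * δ) • d, j) = en T (h, j) := by
      unfold en
      rw [← e.tsum_eq (fun p => (T (p + (h, j)) - T p) ^ 2)]
      refine tsum_congr fun p => ?_
      have : e (p + (h + ((j : ℝ) * δ) • d, j)) = e p + (h, j) := by
        ext
        · change p.1 + (h + ((j : ℝ) * δ) • d) - (((p.2 + j : ℤ) : ℝ) * δ) • d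
            = p.1 - ((p.2 : ℝ) * δ) • d + h
          push_cast
          rw [add_mul, add_smul]
          abel
        · rfl
      simp only [this]
    rw [this]
    refine (en_tensor hg hψ hn h j).trans ?_
    have := mul_le_mul_of_nonneg_right (hen j) (nrm_nonneg g)
    linarith

lemma maxmin_sq (a b a' b' : ℝ) :
    (max a' b' - max a b) ^ 2 + (min a' b' - min a b) ^ 2 ≤ (a' - a) ^ 2 + (b' - b) ^ 2 := by
  rcases le_total a b with h | h <;> rcases le_total a' b' with h' | h' <;>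
    simp only [max_eq_left, max_eq_right, min_eq_left, min_eq_right, h, h'] <;>
    nlinarith [mul_nonneg (sub_nonneg.2 h) (sub_nonneg.2 h')]

lemma min_sq_ge {a b : ℝ} (ha : 0 ≤ a) (hb : 0 ≤ b) :
    19 / 40 * (a ^ 2 + b ^ 2) - 5 * (a - b) ^ 2 ≤ (min a b) ^ 2 := by
  rcases le_total a b with h | h <;> simp only [min_eq_left, min_eq_right, h]
  · nlinarith [sq_nonneg (10 * (b - a) - b), sq_nonneg (10 * (b - a) - a), mul_nonneg ha hb]
  · nlinarith [sq_nonneg (10 * (a - b) - b), sq_nonneg (10 * (a - b) - a), mul_nonneg ha hb]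

/-- one splitting step for one label -/
lemma exists_split (N : ℕ) (hN : 1 ≤ N) (d : X) {g : X → ℝ} (hg : FS g) {K : Set X}
    (hK : Convex ℝ K) (hs : ∀ x, g x ≠ 0 → x ∈ K) :
    ∃ g0 g1 : X → ℝ, FS g0 ∧ FS g1 ∧ nrm g0 + nrm g1 = nrm g ∧
      (∀ x, g0 x ≠ 0 → ∃ a : ℝ, |a| ≤ 7 / 2 ∧ x - a • d ∈ K) ∧
      (∀ x, g1 x ≠ 0 → ∀ s : ℝ, |s| ≤ 5 / 2 → x - s • d ∈ K) ∧
      (∀ (h : X) (j : ℤ), en g0 (h + ((j : ℝ) * (1 / (4 * N))) • d)
          + en g1 (h + ((j : ℝ) * (1 / (4 * N))) • d)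
        ≤ en g h + 64 * ((j : ℝ) * (1 / (4 * N))) ^ 2 * nrm g) ∧
      19 / 40 * nrm g - 5 / 2 * en g ((6 : ℝ) • d) ≤ nrm g1 := by
  obtain ⟨G, hG, hG0, hGn, hGs, hGe⟩ := exists_noise N hN d hg
  set p : X → ℝ := fun x => G (x + (-3 : ℝ) • d) with hp
  set q : X → ℝ := fun x => G (x + (3 : ℝ) • d) with hq
  have hpF : FS p := hG.shift _
  have hqF : FS q := hG.shift _
  have hpn : nrm p = nrm g := (nrm_shift G _).trans hGn
  have hqn : nrm q = nrm g := (nrm_shift G _).trans hGn
  have hps : ∀ x, p x ≠ 0 → ∃ a : ℝ, 5 / 2 ≤ a ∧ a ≤ 7 / 2 ∧ x - a • d ∈ K := by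
    intro x hx
    obtain ⟨a, ha, h⟩ := hGs _ hx
    rw [abs_le] at ha
    refine ⟨a + 3, by linarith, by linarith, ?_⟩
    have := hs _ h
    convert this using 1
    module
  have hqs : ∀ x, q x ≠ 0 → ∃ a : ℝ, -(7 / 2) ≤ a ∧ a ≤ -(5 / 2) ∧ x - a • d ∈ K := by
    intro x hx
    obtain ⟨a, ha, h⟩ := hGs _ hx
    rw [abs_le] at ha
    refine ⟨a - 3, by linarith, by linarith, ?_⟩
    have := hs _ h
    convert this using 1
    module
  set r : ℝ := √(1 / 2) with hr
  have hr2 : r ^ 2 = 1 / 2 := Real.sq_sqrt (by norm_num)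
  have h0F : FS (fun x => r * max (p x) (q x)) :=
    FS.of_or hpF hqF (fun x h1 h2 => by simp [h1, h2])
  have h1F : FS (fun x => r * min (p x) (q x)) :=
    FS.of_or hpF hqF (fun x h1 h2 => by simp [h1, h2])
  refine ⟨fun x => r * max (p x) (q x), fun x => r * min (p x) (q x), h0F, h1F, ?_, ?_, ?_, ?_, ?_⟩
  · have : nrm (fun x => r * max (p x) (q x)) + nrm (fun x => r * min (p x) (q x))
        = (nrm p + nrm q) / 2 := by
      unfold nrm
      rw [← h0F.sq.summable.tsum_add h1F.sq.summable,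
        ← hpF.sq.summable.tsum_add hqF.sq.summable, ← tsum_div_const]
      refine tsum_congr fun x => ?_
      rw [mul_pow, mul_pow, hr2]
      rcases le_total (p x) (q x) with h | h <;>
        simp only [max_eq_left, max_eq_right, min_eq_left, min_eq_right, h] <;> ring
    rw [this, hpn, hqn]; ring
  · intro x hx
    by_cases h1 : p x = 0
    · have h2 : q x ≠ 0 := fun h2 => hx (by simp [h1, h2])
      obtain ⟨a, ha1, ha2, h⟩ := hqs x h2
      exact ⟨a, abs_le.2 ⟨by linarith, by linarith⟩, h⟩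
    · obtain ⟨a, ha1, ha2, h⟩ := hps x h1
      exact ⟨a, abs_le.2 ⟨by linarith, by linarith⟩, h⟩
  · intro x hx s hs'
    have hp0 : 0 ≤ p x := hG0 _
    have hq0 : 0 ≤ q x := hG0 _
    have h1 : p x ≠ 0 := fun h1 => hx (by simp [h1, min_eq_left hq0])
    have h2 : q x ≠ 0 := fun h2 => hx (by simp [h2, min_eq_right hp0])
    obtain ⟨a, ha1, ha2, ha⟩ := hps x h1
    obtain ⟨b, hb1, hb2, hb⟩ := hqs x h2
    rw [abs_le] at hs'
    have hab : 0 < a - b := by linarith
    have := hK ha hb (a := (s - b) / (a - b)) (b := (a - s) / (a - b))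
      (div_nonneg (by linarith) hab.le) (div_nonneg (by linarith) hab.le)
      (by field_simp; ring)
    convert this using 1
    have e1 : (s - b) / (a - b) + (a - s) / (a - b) = 1 := by field_simp; ring
    have e2 : (s - b) / (a - b) * a + (a - s) / (a - b) * b = s := by field_simp; ring
    calc x - s • d = ((s - b) / (a - b) + (a - s) / (a - b)) • x
          - ((s - b) / (a - b) * a + (a - s) / (a - b) * b) • d := by rw [e1, e2, one_smul]
      _ = _ := by module
  · intro h j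
    set h' := h + ((j : ℝ) * (1 / (4 * N))) • d
    have h1 : en (fun x => r * max (p x) (q x)) h' + en (fun x => r * min (p x) (q x)) h'
        ≤ (en p h' + en q h') / 2 := by
      unfold en
      rw [← (h0F.en_summable h').tsum_add (h1F.en_summable h'),
        ← (hpF.en_summable h').tsum_add (hqF.en_summable h'), ← tsum_div_const]
      refine Summable.tsum_le_tsum (fun x => ?_)
        ((h0F.en_summable h').add (h1F.en_summable h'))
        (((hpF.en_summable h').add (hqF.en_summable h')).div_const 2)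
      rw [← mul_sub, ← mul_sub, mul_pow, mul_pow, hr2]
      have := maxmin_sq (p x) (q x) (p (x + h')) (q (x + h'))
      linarith
    have h2 : en p h' = en G h' := en_shift G _ _
    have h3 : en q h' = en G h' := en_shift G _ _
    have := hGe h j
    rw [h2, h3] at h1
    linarith
  · have hpq : FS (fun x => (p x - q x) ^ 2) :=
      FS.of_or hpF hqF (fun x h1 h2 => by simp [h1, h2])
    have h1 : ∑' x, (p x - q x) ^ 2 = en G ((6 : ℝ) • d) := by
      rw [← en_shift G _ ((-3 : ℝ) • d)]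
      unfold en
      refine tsum_congr fun x => ?_
      have : x + (6 : ℝ) • d + (-3 : ℝ) • d = x + (3 : ℝ) • d := by module
      simp only [this, hp, hq]
      ring
    have h2 := hGe ((6 : ℝ) • d) 0
    simp only [Int.cast_zero, zero_mul, zero_smul, add_zero] at h2
    have h3 : (19 / 40 * (nrm p + nrm q) - 5 * ∑' x, (p x - q x) ^ 2) / 2
        ≤ nrm (fun x => r * min (p x) (q x)) := by
      unfold nrm
      rw [← hpF.sq.summable.tsum_add hqF.sq.summable, ← tsum_mul_left, ← tsum_mul_left,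
        ← ((hpF.sq.summable.add hqF.sq.summable).mul_left _).tsum_sub (hpq.summable.mul_left _),
        ← tsum_div_const]
      refine Summable.tsum_le_tsum (fun x => ?_)
        ((((hpF.sq.summable.add hqF.sq.summable).mul_left _).sub
          (hpq.summable.mul_left _)).div_const 2) h1F.sq.summable
      rw [mul_pow, hr2]
      have := min_sq_ge (hG0 (x + (-3 : ℝ) • d)) (hG0 (x + (3 : ℝ) • d))
      simp only [hp, hq]
      linarith
    rw [hpn, hqn, h1] at h3
    nlinarith

lemma comb_mem {K : Set X} (hK : Convex ℝ K) {p0 p1 : ℝ} (h0 : 0 ≤ p0) (h1 : 0 ≤ p1) (y0 y1 : X)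
    (hy0 : p0 ≠ 0 → y0 ∈ K) (hy1 : p1 ≠ 0 → y1 ∈ K) :
    ∃ x, (p0 + p1 ≠ 0 → x ∈ K) ∧ p0 • y0 + p1 • y1 = (p0 + p1) • x := by
  rcases eq_or_ne p0 0 with rfl | hp0
  · exact ⟨y1, fun h => hy1 (by simpa using h), by simp⟩
  rcases eq_or_ne p1 0 with rfl | hp1
  · exact ⟨y0, fun _ => hy0 hp0, by simp⟩
  have hpos : 0 < p0 + p1 := by positivity
  refine ⟨(p0 / (p0 + p1)) • y0 + (p1 / (p0 + p1)) • y1, fun _ => hK (hy0 hp0) (hy1 hp1)
    (by positivity) (by positivity) (by field_simp), ?_⟩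
  rw [smul_add, smul_smul, smul_smul]
  congr 2 <;> field_simp

theorem tri (N : ℕ) (hN : 1 ≤ N) : ∀ (n : ℕ) (d : Fin n → X) (c : Fin n → Fin n → ℤ)
    (Λ : Type) [Fintype Λ] (K : Λ → Set X) (f : Λ → X → ℝ),
    (∀ i k, k ≤ i → c i k = 0) →
    (∀ l, Convex ℝ (K l)) → (∀ l x, x ∈ K l → -x ∈ K l) → (∀ l, FS (f l)) →
    (∀ l x, f l x ≠ 0 → x ∈ K l) → (∑ l, nrm (f l) = 1) →
    (∀ i, ∑ l, en (f l) ((6 : ℝ) • d i - ∑ k, ((c i k : ℝ) * (1 / (4 * N))) • d k)
      + 64 * ∑ k, ((c i k : ℝ) * (1 / (4 * N))) ^ 2 ≤ 1 / 100) →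
    ∃ ε : Fin n → ℤ, (∀ i, ε i = 1 ∨ ε i = -1) ∧ ∃ x : Λ → X,
      (∀ l, nrm (f l) ≠ 0 → x l ∈ K l) ∧ ∑ i, (ε i : ℝ) • d i = ∑ l, nrm (f l) • x l := by
  intro n
  induction n with
  | zero =>
    intro d c Λ _ K f _ hK hsym _ hs _ _
    refine ⟨fun _ => 1, fun i => Or.inl rfl, fun _ => 0, ?_, by simp⟩
    intro l hl
    obtain ⟨x, hx⟩ := exists_ne_zero_of_nrm hl
    have := hK l (hs l x hx) (hsym l x (hs l x hx)) (a := 1 / 2) (b := 1 / 2)
      (by norm_num) (by norm_num) (by norm_num)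
    simpa using this
  | succ n ih =>
    intro d c Λ _ K f hc hK hsym hF hs hn hen
    set D := d (Fin.last n) with hD
    have hsp := fun l => exists_split N hN D (hF l) (hK l) (hs l)
    choose g0 g1 h0F h1F hsum h0s h1s hge hβ using hsp
    let K' : Λ × Bool → Set X := fun l => if l.2 then {x | ∀ s : ℝ, |s| ≤ 5 / 2 → x - s • D ∈ K l.1}
      else {x | ∃ a : ℝ, |a| ≤ 7 / 2 ∧ x - a • D ∈ K l.1}
    let f' : Λ × Bool → X → ℝ := fun l => if l.2 then g1 l.1 else g0 l.1
    have hsumf : ∀ F : (X → ℝ) → ℝ, ∑ l, F (f' l) = ∑ l, (F (g0 l) + F (g1 l)) := by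
      intro F
      rw [Fintype.sum_prod_type]
      refine sum_congr rfl fun l _ => ?_
      simp [f', add_comm]
    obtain ⟨ε, hε, x, hx, hsumx⟩ := ih (fun i => d i.castSucc)
      (fun i k => c i.castSucc k.castSucc) (Λ × Bool) K' f'
      (fun i k h => hc _ _ (Fin.castSucc_le_castSucc_iff.2 h))
      (by
        rintro ⟨l, b⟩
        cases b
        · rintro x ⟨a, ha, hx⟩ y ⟨b, hb, hy⟩ u v hu hv huv
          refine ⟨u * a + v * b, ?_, ?_⟩
          · rw [abs_le] at ha hb ⊢
            constructor <;> nlinarith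
          · convert hK l hx hy hu hv huv using 1
            module
        · intro x hx y hy u v hu hv huv s hs'
          convert hK l (hx s hs') (hy s hs') hu hv huv using 1
          obtain rfl : v = 1 - u := by linarith
          module)
      (by
        rintro ⟨l, b⟩ x hx
        cases b
        · obtain ⟨a, ha, hx⟩ := hx
          refine ⟨-a, by rwa [abs_neg], ?_⟩
          convert hsym l _ hx using 1
          module
        · intro s hs'
          convert hsym l _ (hx (-s) (by rwa [abs_neg])) using 1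
          module)
      (by
        rintro ⟨l, b⟩
        cases b
        · exact h0F l
        · exact h1F l)
      (by
        rintro ⟨l, b⟩ x hx
        cases b
        · exact h0s l x hx
        · exact h1s l x hx)
      (by rw [hsumf nrm, ← hn]; exact sum_congr rfl fun l _ => hsum l)
      (by
        intro i
        have h1 := hen i.castSucc
        rw [Fin.sum_univ_castSucc (f := fun k => ((c i.castSucc k : ℝ) * (1 / (4 * N))) ^ 2)]
          at h1
        set h := (6 : ℝ) • d i.castSucc - ∑ k, ((c i.castSucc k : ℝ) * (1 / (4 * N))) • d k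
          with hh
        have e : (6 : ℝ) • d i.castSucc
            - ∑ k : Fin n, ((c i.castSucc k.castSucc : ℝ) * (1 / (4 * N))) • d k.castSucc
            = h + ((c i.castSucc (Fin.last n) : ℝ) * (1 / (4 * N))) • D := by
          rw [hh, Fin.sum_univ_castSucc]
          abel
        rw [e, hsumf (fun g => en g _)]
        have h2 := sum_le_sum (s := univ) fun l _ => hge l h (c i.castSucc (Fin.last n))
        rw [sum_add_distrib (f := fun l => en (f l) h), ← mul_sum, hn] at h2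
        linarith)
    -- mass of the second label
    have hlast := hen (Fin.last n)
    simp only [hc (Fin.last n) _ (Fin.le_last _), Int.cast_zero, zero_mul, zero_smul,
      sum_const_zero, sub_zero] at hlast
    set β := ∑ l, nrm (g1 l) with hβd
    have hβ1 : 9 / 20 ≤ β := by
      have := sum_le_sum (s := univ) fun l _ => hβ l
      rw [sum_sub_distrib, ← mul_sum, ← mul_sum, hn] at this
      norm_num at hlast
      linarith
    have hα : ∑ l, nrm (g0 l) = 1 - β := by
      have : ∑ l, (nrm (g0 l) + nrm (g1 l)) = 1 := by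
        rw [← hn]; exact sum_congr rfl fun l _ => hsum l
      rw [sum_add_distrib] at this
      linarith
    have ha : ∀ l, ∃ a : ℝ, |a| ≤ 7 / 2 ∧ (nrm (g0 l) ≠ 0 → x (l, false) - a • D ∈ K l) := by
      intro l
      by_cases h : nrm (g0 l) = 0
      · exact ⟨0, by norm_num, fun h' => absurd h h'⟩
      · obtain ⟨a, ha, h'⟩ := hx (l, false) h
        exact ⟨a, ha, fun _ => h'⟩
    choose a ha1 ha2 using ha
    set a0 := ∑ l, nrm (g0 l) * a l with ha0
    have ha0b : |a0| ≤ 7 / 2 * (1 - β) := by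
      rw [← hα, mul_sum]
      refine (abs_sum_le_sum_abs _ _).trans (sum_le_sum fun l _ => ?_)
      rw [abs_mul, abs_of_nonneg (nrm_nonneg _), mul_comm]
      exact mul_le_mul_of_nonneg_right (ha1 l) (nrm_nonneg _)
    obtain ⟨e, he, s, hs1, hs2⟩ : ∃ e : ℤ, (e = 1 ∨ e = -1) ∧ ∃ s : ℝ, |s| ≤ 5 / 2 ∧
        a0 + β * s = -e := by
      rw [abs_le] at ha0b
      have hβ0 : 0 < β := by linarith
      rcases le_total 0 a0 with h | h
      · refine ⟨-1, Or.inr rfl, (1 - a0) / β, ?_, by field_simp; push_cast; ring⟩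
        rw [abs_le, le_div_iff₀ hβ0, div_le_iff₀ hβ0]
        constructor <;> linarith
      · refine ⟨1, Or.inl rfl, (-1 - a0) / β, ?_, by field_simp; push_cast; ring⟩
        rw [abs_le, le_div_iff₀ hβ0, div_le_iff₀ hβ0]
        constructor <;> linarith
    have hcomb := fun l => comb_mem (hK l) (nrm_nonneg (g0 l)) (nrm_nonneg (g1 l))
      (x (l, false) - a l • D) (x (l, true) - s • D) (ha2 l) (fun h => hx (l, true) h s hs1)
    choose z hz1 hz2 using hcomb
    refine ⟨Fin.snoc ε e, ?_, z, fun l hl => hz1 l (by rwa [hsum l]), ?_⟩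
    · intro i
      refine Fin.lastCases ?_ (fun i => ?_) i
      · simpa using he
      · simpa using hε i
    · rw [Fin.sum_univ_castSucc]
      simp only [Fin.snoc_castSucc, Fin.snoc_last]
      rw [hsumx, Fintype.sum_prod_type]
      have e1 : ∑ l, nrm (f l) • z l = ∑ l, (nrm (g0 l) • x (l, false) + nrm (g1 l) • x (l, true))
          - (a0 + β * s) • D := by
        rw [ha0, hβd, sum_mul, ← sum_add_distrib, sum_smul, ← sum_sub_distrib]
        refine sum_congr rfl fun l _ => ?_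
        rw [← hsum l, ← hz2 l]
        module
      rw [e1, hs2, neg_smul, sub_neg_eq_add]
      congr 1
      refine sum_congr rfl fun l _ => ?_
      simp [f', add_comm]

end Crest.Agent.H4.Pfx
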