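import Crest.Agent.H4.InjHolo

/-!
The Riemann mapping theorem for bounded simply connected domains containing `0`.
-/

set_option autoImplicit false

open Filter Metric Set Function
open scoped Topology

namespace Crest.Agent.H4

/-- Montel's theorem along an ultrafilter. -/
theorem montel {ι : Type*} (𝒰 : Ultrafilter ι) {D : Set ℂ} (hD : IsOpen D) (F : ι → ℂ → ℂ)
    (hF : ∀ n, DifferentiableOn ℂ (F n) D) (hb : ∀ n, MapsTo (F n) D (closedBall 0 1)) :
    ∃ f : ℂ → ℂ, TendstoLocallyUniformlyOn F f 𝒰 D := by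
  have hlim : ∀ z, ∃ w, z ∈ D → Tendsto (fun n => F n z) 𝒰 (𝓝 w) := by
    intro z
    by_cases hz : z ∈ D
    · obtain ⟨w, -, hw⟩ := (isCompact_closedBall (0 : ℂ) 1).ultrafilter_le_nhds
        (𝒰.map fun n => F n z) (by
          rw [Ultrafilter.coe_map, le_principal_iff, mem_map]
          exact univ_mem' fun n => hb n hz)
      exact ⟨w, fun _ => hw⟩
    · exact ⟨0, fun h => absurd h hz⟩
  choose f hf using hlim
  refine ⟨f, ?_⟩
  rw [Metric.tendstoLocallyUniformlyOn_iff]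
  intro ε hε x hx
  obtain ⟨ρ, hρ, hball⟩ := Metric.isOpen_iff.1 hD x hx
  have hlip : ∀ n, ∀ y ∈ ball x ρ, dist (F n y) (F n x) ≤ 2 / ρ * dist y x := by
    intro n y hy
    refine Complex.dist_le_div_mul_dist_of_mapsTo_ball ((hF n).mono hball) ?_ hy
    intro z hz
    have h1 := hb n (hball hz)
    have h2 := hb n hx
    rw [mem_closedBall] at h1 h2 ⊢
    have := dist_triangle_right (F n z) (F n x) 0
    linarith
  have hlipf : ∀ y ∈ ball x ρ, dist (f y) (f x) ≤ 2 / ρ * dist y x := by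
    intro y hy
    exact le_of_tendsto ((hf y (hball hy)).dist (hf x hx)) (Eventually.of_forall fun n => hlip n y hy)
  set δ := min ρ (ε * ρ / 6) with hδ
  have hδ0 : 0 < δ := lt_min hρ (by positivity)
  refine ⟨ball x δ, mem_nhdsWithin_of_mem_nhds (ball_mem_nhds x hδ0), ?_⟩
  have := (Metric.tendsto_nhds.1 (hf x hx)) (ε / 3) (by positivity)
  filter_upwards [this] with n hn y hy
  have hy1 : y ∈ ball x ρ := ball_subset_ball (min_le_left _ _) hy
  have hy2 : dist y x < ε * ρ / 6 := lt_of_lt_of_le hy (min_le_right _ _)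
  have h3 : 2 / ρ * dist y x ≤ ε / 3 := by
    rw [div_mul_eq_mul_div, div_le_iff₀ hρ]; linarith
  have h4 := hlip n y hy1
  have h5 := hlipf y hy1
  have h6 := dist_triangle4 (f y) (f x) (F n x) (F n y)
  rw [dist_comm (f x), dist_comm (F n x) (F n y)] at h6
  linarith

/-- Hurwitz's theorem: a locally uniform limit of injective holomorphic maps on a connected open
set is injective or constant. -/
theorem hurwitz {ι : Type*} {l : Filter ι} [l.NeBot] {D : Set ℂ} (hD : IsOpen D)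
    (hc : IsPreconnected D) {F : ι → ℂ → ℂ} {f : ℂ → ℂ}
    (hF : ∀ n, DifferentiableOn ℂ (F n) D) (hi : ∀ n, InjOn (F n) D)
    (hlim : TendstoLocallyUniformlyOn F f l D) :
    InjOn f D ∨ ∃ c, ∀ z ∈ D, f z = c := by
  have hf : DifferentiableOn ℂ f D := hlim.differentiableOn (Eventually.of_forall hF) hD
  have hfa : AnalyticOnNhd ℂ f D := hf.analyticOnNhd hD
  by_contra hcon
  push Not at hcon
  obtain ⟨hni, hnc⟩ := hcon
  apply hni
  intro a ha b hb hab
  by_contra hne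
  -- `f - f a` has an isolated zero at `b`
  have hg : AnalyticOnNhd ℂ (fun z => f z - f a) D := fun z hz => (hfa z hz).sub analyticAt_const
  have hiso : ∀ᶠ z in 𝓝[≠] b, f z - f a ≠ 0 := by
    rcases (hg b hb).eventually_eq_zero_or_eventually_ne_zero with h | h
    · exfalso
      obtain ⟨z, hz, hzc⟩ := hnc (f a)
      have := hg.eqOn_zero_of_preconnected_of_eventuallyEq_zero hc hb h hz
      exact hzc (sub_eq_zero.1 this)
    · exact h
  rw [eventually_nhdsWithin_iff] at hiso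
  have hab' : ∀ᶠ z in 𝓝 b, z ≠ a := eventually_ne_nhds (Ne.symm hne)
  obtain ⟨ρ, hρ, hball⟩ := nhds_basis_closedBall.eventually_iff.1
    (hiso.and (hab'.and (hD.mem_nhds hb)))
  have hsph : sphere b ρ ⊆ D := fun z hz => (hball (sphere_subset_closedBall hz)).2.2
  obtain ⟨z₀, hz₀, hmin⟩ := (isCompact_sphere b ρ).exists_isMinOn
    (NormedSpace.sphere_nonempty.2 hρ.le)
    (f := fun z => ‖f z - f a‖) ((hg.continuousOn.mono hsph).norm)
  set δ := ‖f z₀ - f a‖ with hδ
  have hδ0 : 0 < δ := by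
    refine norm_pos_iff.2 ((hball (sphere_subset_closedBall hz₀)).1 ?_)
    intro h
    rw [mem_singleton_iff] at h
    rw [h, mem_sphere, dist_self] at hz₀
    exact hρ.ne hz₀
  have hu : TendstoUniformlyOn F f l (sphere b ρ) :=
    (tendstoLocallyUniformlyOn_iff_forall_isCompact hD).1 hlim _ hsph (isCompact_sphere b ρ)
  have e1 := Metric.tendstoUniformlyOn_iff.1 hu (δ / 4) (by positivity)
  have e2 := Metric.tendsto_nhds.1 (hlim.tendsto_at ha) (δ / 4) (by positivity)
  have e3 := Metric.tendsto_nhds.1 (hlim.tendsto_at hb) (δ / 4) (by positivity)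
  obtain ⟨n, h1, h2, h3⟩ := (e1.and (e2.and e3)).exists
  have hnz : ∀ z ∈ closedBall b ρ, F n z - F n a ≠ 0 := fun z hz h =>
    (hball hz).2.1 (hi n (hball hz).2.2 ha (sub_eq_zero.1 h))
  have hdiff : DifferentiableOn ℂ (fun z => (F n z - F n a)⁻¹) (closedBall b ρ) :=
    (((hF n).mono fun z hz => (hball hz).2.2).sub_const _).inv hnz
  have hmax := Complex.norm_le_of_forall_mem_frontier_norm_le (U := ball b ρ)
    (f := fun z => (F n z - F n a)⁻¹) (C := (δ / 2)⁻¹) isBounded_ball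
    (DifferentiableOn.diffContOnCl (by rwa [closure_ball b hρ.ne'])) (z := b) ?_
    (subset_closure (mem_ball_self hρ))
  · rw [norm_inv] at hmax
    have hpos : 0 < ‖F n b - F n a‖ := norm_pos_iff.2 (hnz b (mem_closedBall_self hρ.le))
    have h4 : δ / 2 ≤ ‖F n b - F n a‖ := (inv_le_inv₀ hpos (by positivity)).1 hmax
    have h5 : ‖F n b - F n a‖ ≤ ‖F n b - f b‖ + ‖F n a - f a‖ := by
      have : F n b - F n a = (F n b - f b) - (F n a - f a) := by rw [hab]; ring
      rw [this]; exact norm_sub_le _ _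
    rw [dist_eq_norm] at h2 h3
    linarith
  · intro z hz
    rw [frontier_ball b hρ.ne'] at hz
    rw [norm_inv]
    have h6 : δ ≤ ‖f z - f a‖ := hmin hz
    have h7 := h1 z hz
    rw [dist_eq_norm] at h2 h7
    have h8 : ‖f z - f a‖ ≤ ‖F n z - F n a‖ + ‖f z - F n z‖ + ‖F n a - f a‖ := by
      have : f z - f a = (F n z - F n a) + (f z - F n z) + (F n a - f a) := by ring
      rw [this]; exact norm_add₃_le
    exact inv_anti₀ (by positivity) (by linarith)

/-- A continuous square root of a differentiable non-vanishing function is differentiable. -/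
theorem hasDerivAt_of_sq {h u : ℂ → ℂ} {z u' : ℂ} (hc : ContinuousAt h z)
    (hsq : ∀ w, h w ^ 2 = u w) (hu : HasDerivAt u u' z) (h0 : h z ≠ 0) :
    HasDerivAt h (u' / (2 * h z)) z := by
  rw [hasDerivAt_iff_tendsto_slope] at hu ⊢
  have h2 : Tendsto (fun w => h w + h z) (𝓝[≠] z) (𝓝 (2 * h z)) := by
    rw [two_mul]
    exact (hc.tendsto.mono_left nhdsWithin_le_nhds).add_const _
  have h3 : 2 * h z ≠ 0 := mul_ne_zero two_ne_zero h0
  refine (hu.div h2 h3).congr' ?_
  filter_upwards [h2.eventually_ne h3] with w hw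
  simp only [Pi.div_apply, slope_def_field]
  rw [← hsq w, ← hsq z, div_right_comm, div_eq_mul_inv, div_eq_mul_inv (h w - h z)]
  congr 1
  rw [div_eq_iff hw]
  ring

/-- The disc automorphism `z ↦ (z - a) / (1 - conj a * z)`. -/
noncomputable def mob (a z : ℂ) : ℂ := (z - a) / (1 - (starRingEnd ℂ) a * z)

theorem mob_den_ne {a z : ℂ} (ha : ‖a‖ < 1) (hz : ‖z‖ < 1) : 1 - (starRingEnd ℂ) a * z ≠ 0 := by
  intro h
  have h1 : ‖(starRingEnd ℂ) a * z‖ = 1 := by rw [← sub_eq_zero.1 h, norm_one]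
  rw [norm_mul, Complex.norm_conj] at h1
  nlinarith [norm_nonneg a, norm_nonneg z]

theorem norm_mob_lt {a z : ℂ} (ha : ‖a‖ < 1) (hz : ‖z‖ < 1) : ‖mob a z‖ < 1 := by
  have h0 := norm_pos_iff.2 (mob_den_ne ha hz)
  rw [mob, norm_div, div_lt_one h0]
  apply lt_of_pow_lt_pow_left₀ 2 (norm_nonneg _)
  have ha2 : ‖a‖ ^ 2 < 1 := by nlinarith [norm_nonneg a]
  have hz2 : ‖z‖ ^ 2 < 1 := by nlinarith [norm_nonneg z]
  have key : ‖1 - (starRingEnd ℂ) a * z‖ ^ 2 - ‖z - a‖ ^ 2 = (1 - ‖a‖ ^ 2) * (1 - ‖z‖ ^ 2) := by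
    simp only [Complex.sq_norm, Complex.normSq_apply, Complex.sub_re, Complex.sub_im,
      Complex.mul_re, Complex.mul_im, Complex.conj_re, Complex.conj_im, Complex.one_re,
      Complex.one_im]
    ring
  nlinarith [mul_pos (sub_pos.2 ha2) (sub_pos.2 hz2)]

theorem mob_inj {a z w : ℂ} (ha : ‖a‖ < 1) (hz : ‖z‖ < 1) (hw : ‖w‖ < 1)
    (h : mob a z = mob a w) : z = w := by
  rw [mob, mob, div_eq_div_iff (mob_den_ne ha hz) (mob_den_ne ha hw)] at h
  have h1 := mob_den_ne ha ha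
  have : (z - w) * (1 - (starRingEnd ℂ) a * a) = 0 := by linear_combination h
  exact sub_eq_zero.1 ((mul_eq_zero.1 this).resolve_right h1)

theorem hasDerivAt_mob {a z : ℂ} (ha : ‖a‖ < 1) (hz : ‖z‖ < 1) :
    HasDerivAt (mob a) ((1 - (starRingEnd ℂ) a * a) / (1 - (starRingEnd ℂ) a * z) ^ 2) z := by
  have h1 : HasDerivAt (fun z => z - a) 1 z := (hasDerivAt_id z).sub_const a
  have h2 : HasDerivAt (fun z => 1 - (starRingEnd ℂ) a * z) (-((starRingEnd ℂ) a * 1)) z :=
    ((hasDerivAt_id z).const_mul _).const_sub 1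
  refine (h1.fun_div h2 (mob_den_ne ha hz)).congr_deriv ?_
  congr 1
  ring

/-- Admissible maps of the extremal problem. -/
structure Adm (D : Set ℂ) (f : ℂ → ℂ) : Prop where
  diff : DifferentiableOn ℂ f D
  maps : MapsTo f D (ball 0 1)
  inj : InjOn f D
  zero : f 0 = 0

/-- Koebe's square-root step. -/
theorem koebe_step {D : Set ℂ} (hD : IsOpen D) (hsc : IsSimplyConnected D) (h0 : (0 : ℂ) ∈ D)
    {f : ℂ → ℂ} (hf : Adm D f) {a : ℂ} (ha : ‖a‖ < 1) (hna : a ∉ f '' D) :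
    ∃ g, Adm D g ∧ ‖deriv f 0‖ < ‖deriv g 0‖ := by
  have hfn : ∀ z ∈ D, ‖f z‖ < 1 := fun z hz => mem_ball_zero_iff.1 (hf.maps hz)
  have hu : ∀ z ∈ D, HasDerivAt (fun z => mob a (f z))
      ((1 - (starRingEnd ℂ) a * a) / (1 - (starRingEnd ℂ) a * f z) ^ 2 * deriv f z) z :=
    fun z hz => (hasDerivAt_mob ha (hfn z hz)).comp z
      (hf.diff.differentiableAt (hD.mem_nhds hz)).hasDerivAt
  have hune : ∀ z ∈ D, mob a (f z) ≠ 0 := by
    intro z hz h
    rw [mob, div_eq_zero_iff] at h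
    rcases h with h | h
    · exact hna ⟨z, hz, sub_eq_zero.1 h⟩
    · exact mob_den_ne ha (hfn z hz) h
  obtain ⟨h, hhc, hsq⟩ := Complex.exists_continuousOn_pow_eq hsc hD
    (g := fun z => mob a (f z))
    (fun z hz => (hu z hz).continuousAt.continuousWithinAt)
    (by rintro ⟨z, hz, h⟩; exact hune z hz h) two_ne_zero
  have hh0 : ∀ z ∈ D, h z ≠ 0 := by
    intro z hz h'
    apply hune z hz
    rw [← hsq z, h']; ring
  have hhn : ∀ z ∈ D, ‖h z‖ < 1 := by
    intro z hz
    have := norm_mob_lt ha (hfn z hz)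
    rw [← hsq z, norm_pow] at this
    exact lt_of_pow_lt_pow_left₀ 2 zero_le_one (by simpa using this)
  have hhd := fun z (hz : z ∈ D) =>
    hasDerivAt_of_sq (hhc.continuousAt (hD.mem_nhds hz)) hsq (hu z hz) (hh0 z hz)
  set b := h 0 with hb
  have hbn : ‖b‖ < 1 := hhn 0 h0
  have hgd := fun z (hz : z ∈ D) => (hasDerivAt_mob hbn (hhn z hz)).comp z (hhd z hz)
  refine ⟨mob b ∘ h, ⟨fun z hz => (hgd z hz).differentiableAt.differentiableWithinAt,
    fun z hz => mem_ball_zero_iff.2 (norm_mob_lt hbn (hhn z hz)), ?_, ?_⟩, ?_⟩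
  · intro z hz w hw hzw
    have h1 := mob_inj hbn (hhn z hz) (hhn w hw) hzw
    have h2 : mob a (f z) = mob a (f w) := by rw [← hsq z, ← hsq w, h1]
    exact hf.inj hz hw (mob_inj ha (hfn z hz) (hfn w hw) h2)
  · simp [mob, hb]
  · rw [(hgd 0 h0).deriv, hf.zero, ← hb]
    have hba : b ^ 2 = -a := by rw [hb, hsq 0, hf.zero, mob]; simp
    have hna : ‖a‖ = ‖b‖ ^ 2 := by rw [← norm_pow, hba, norm_neg]
    have hb0 : 0 < ‖b‖ := norm_pos_iff.2 (hh0 0 h0)
    have hf0 : 0 < ‖deriv f 0‖ := norm_pos_iff.2 (deriv_ne_zero_of_injOn hD hf.diff hf.inj h0)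
    have e1 : ∀ c : ℂ, ‖c‖ < 1 → ‖1 - (starRingEnd ℂ) c * c‖ = 1 - ‖c‖ ^ 2 := by
      intro c hc
      rw [Complex.conj_mul', ← Complex.ofReal_pow, ← Complex.ofReal_one, ← Complex.ofReal_sub,
        Complex.norm_real, Real.norm_of_nonneg (by nlinarith [norm_nonneg c])]
    simp only [norm_mul, norm_div, norm_pow, mul_zero, sub_zero, norm_one, e1 a ha, e1 b hbn,
      Complex.norm_ofNat, hna]
    have hb2 : 0 < 1 - ‖b‖ ^ 2 := by nlinarith
    have : (1 - ‖b‖ ^ 2) / (1 - ‖b‖ ^ 2) ^ 2 * ((1 - (‖b‖ ^ 2) ^ 2) / 1 ^ 2 * ‖deriv f 0‖ / (2 * ‖b‖))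
        = (1 + ‖b‖ ^ 2) / (2 * ‖b‖) * ‖deriv f 0‖ := by
      field_simp
      ring
    rw [this]
    refine lt_mul_of_one_lt_left hf0 ?_
    rw [one_lt_div (by positivity)]
    nlinarith

/-- The Riemann mapping theorem for a bounded simply connected domain containing `0`. -/
theorem riemann_map {D : Set ℂ} (hD : IsOpen D) (hsc : IsSimplyConnected D) (h0 : (0 : ℂ) ∈ D)
    (hb : Bornology.IsBounded D) :
    ∃ ψ : ℂ → ℂ, DifferentiableOn ℂ ψ D ∧ InjOn ψ D ∧ ψ 0 = 0 ∧ ψ '' D = ball 0 1 := by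
  obtain ⟨R, hR, hDR⟩ := hb.subset_ball_lt 0 (0 : ℂ)
  obtain ⟨ρ, hρ, hball⟩ := Metric.isOpen_iff.1 hD 0 h0
  have hadm : Adm D (fun z => z / R) := by
    refine ⟨by fun_prop, fun z hz => ?_, fun z _ w _ h => ?_, by simp⟩
    · have := mem_ball_zero_iff.1 (hDR hz)
      rw [mem_ball_zero_iff, norm_div, Complex.norm_real, Real.norm_of_nonneg hR.le,
        div_lt_one hR]
      exact this
    · have hR' : (R : ℂ) ≠ 0 := by exact_mod_cast hR.ne'
      simpa [div_left_inj' hR'] using h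
  set S : Set ℝ := {x | ∃ f, Adm D f ∧ ‖deriv f 0‖ = x} with hS
  have hSne : S.Nonempty := ⟨_, _, hadm, rfl⟩
  have hSb : BddAbove S := by
    refine ⟨1 / ρ, ?_⟩
    rintro _ ⟨f, hf, rfl⟩
    refine Complex.norm_deriv_le_div_of_mapsTo_ball (hf.diff.mono hball) ?_ hρ
    rw [hf.zero]
    exact fun z hz => ball_subset_closedBall (hf.maps (hball hz))
  obtain ⟨u, -, hu, huS⟩ := exists_seq_tendsto_sSup hSne hSb
  choose F hF hFu using huS
  obtain ⟨f, hf⟩ := montel (hyperfilter ℕ) hD F (fun n => (hF n).diff)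
    (fun n z hz => ball_subset_closedBall ((hF n).maps hz))
  have hfd : DifferentiableOn ℂ f D :=
    hf.differentiableOn (Eventually.of_forall fun n => (hF n).diff) hD
  have hder : ‖deriv f 0‖ = sSup S := by
    have h1 := ((hf.deriv (Eventually.of_forall fun n => (hF n).diff) hD).tendsto_at h0).norm
    have h2 : Tendsto u (hyperfilter ℕ) (𝓝 (sSup S)) :=
      hu.mono_left (Nat.hyperfilter_le_atTop)
    refine tendsto_nhds_unique h1 (h2.congr fun n => ?_)
    simp [hFu n]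
  have hpos : 0 < sSup S :=
    lt_of_lt_of_le (norm_pos_iff.2 (deriv_ne_zero_of_injOn hD hadm.diff hadm.inj h0))
      (le_csSup hSb ⟨_, hadm, rfl⟩)
  have hconn : IsPreconnected D := hsc.isPathConnected.isConnected.isPreconnected
  have hinj : InjOn f D := by
    rcases hurwitz hD hconn (fun n => (hF n).diff) (fun n => (hF n).inj) hf with h | ⟨c, hc⟩
    · exact h
    · exfalso
      have : f =ᶠ[𝓝 0] fun _ => c := by
        filter_upwards [hD.mem_nhds h0] with z hz using hc z hz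
      rw [this.deriv_eq] at hder
      simp at hder
      linarith
  have hf0 : f 0 = 0 := by
    have h1 := hf.tendsto_at h0
    simp only [fun n => (hF n).zero] at h1
    exact (tendsto_nhds_unique h1 tendsto_const_nhds)
  have hmaps : MapsTo f D (ball 0 1) := by
    have h1 : f '' D ⊆ closedBall 0 1 := by
      rintro _ ⟨z, hz, rfl⟩
      exact isClosed_closedBall.mem_of_tendsto (hf.tendsto_at hz)
        (Eventually.of_forall fun n => ball_subset_closedBall ((hF n).maps hz))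
    have h2 := interior_maximal h1 (isOpen_image_of_injOn hD hfd hinj hD subset_rfl)
    rw [interior_closedBall _ one_ne_zero] at h2
    exact fun z hz => h2 ⟨z, hz, rfl⟩
  have hadmf : Adm D f := ⟨hfd, hmaps, hinj, hf0⟩
  refine ⟨f, hfd, hinj, hf0, subset_antisymm hmaps.image_subset fun a ha => ?_⟩
  by_contra hna
  obtain ⟨g, hg, hlt⟩ := koebe_step hD hsc h0 hadmf (mem_ball_zero_iff.1 ha) hna
  have := le_csSup hSb (⟨g, hg, rfl⟩ : ‖deriv g 0‖ ∈ S)
  linarith

end Crest.Agent.H4
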