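import Crest.Agent.H4.InjHolo
import Crest.Prelude.Def_NumRangeMetric

/-!
Division of holomorphic functions by the characteristic polynomial, divided differences and
entrywise holomorphic matrix functions.
-/

set_option autoImplicit false

open Filter Metric Set Function Polynomial
open scoped Topology
open Crest.AnalysisR.NumRange

namespace Crest.Agent.H4

theorem exists_div_multiset {U : Set ℂ} (hU : IsOpen U) (R : Multiset ℂ) :
    ∀ u : ℂ → ℂ, DifferentiableOn ℂ u U → (∀ μ ∈ R, μ ∈ U) →
      (∀ μ ∈ R, (R.count μ : ℕ∞) ≤ analyticOrderAt u μ) →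
      ∃ h : ℂ → ℂ, DifferentiableOn ℂ h U ∧ ∀ s, u s = (R.map fun μ => s - μ).prod * h s := by
  classical
  induction R using Multiset.induction_on with
  | empty => intro u hu _ _; exact ⟨u, hu, by simp⟩
  | cons μ R ih =>
    intro u hu hR hord
    have hμ : μ ∈ U := hR μ (Multiset.mem_cons_self _ _)
    have hua : ∀ z ∈ U, AnalyticAt ℂ u z := fun z hz => hu.analyticAt (hU.mem_nhds hz)
    have hu0 : u μ = 0 := by
      have h1 := hord μ (Multiset.mem_cons_self _ _)
      rw [← (hua μ hμ).analyticOrderAt_ne_zero]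
      intro h0
      rw [h0, Multiset.count_cons_self] at h1
      simp at h1
    have hd : DifferentiableOn ℂ (dslope u μ) U :=
      (Complex.differentiableOn_dslope (hU.mem_nhds hμ)).2 hu
    have he : u = (fun s => s - μ) * dslope u μ := by
      funext s
      have := sub_smul_dslope u μ s
      rw [hu0, sub_zero, smul_eq_mul] at this
      exact this.symm
    obtain ⟨h, hh, hhe⟩ := ih (dslope u μ) hd (fun ν hν => hR ν (Multiset.mem_cons_of_mem hν))
      (by
        intro ν hν
        have hνU := hR ν (Multiset.mem_cons_of_mem hν)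
        have h1 := hord ν (Multiset.mem_cons_of_mem hν)
        have h2 : analyticOrderAt u ν
            = analyticOrderAt (fun s => s - μ) ν + analyticOrderAt (dslope u μ) ν := by
          conv_lhs => rw [he]
          exact analyticOrderAt_mul (by fun_prop) (hd.analyticAt (hU.mem_nhds hνU))
        rw [h2] at h1
        rcases eq_or_ne ν μ with rfl | hne
        · rw [Multiset.count_cons_self, analyticOrderAt_id_sub_const_self, Nat.cast_add,
            Nat.cast_one, add_comm] at h1
          exact (ENat.add_le_add_iff_left (by simp)).1 h1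
        · rwa [Multiset.count_cons_of_ne hne, analyticOrderAt_id_sub_const_of_ne hne,
            zero_add] at h1)
    refine ⟨h, hh, fun s => ?_⟩
    rw [Multiset.map_cons, Multiset.prod_cons, mul_assoc, ← hhe s]
    exact congrFun he s

/-- If `p` agrees with the holomorphic `f` on the spectrum of `A`, then `f - p` is a holomorphic
multiple of the characteristic polynomial. -/
theorem exists_charpoly_div {n : ℕ} (A : Matrix (Fin n) (Fin n) ℂ) {U : Set ℂ} (hU : IsOpen U)
    (hA : spectrum ℂ A ⊆ U) {f : ℂ → ℂ} (hf : DifferentiableOn ℂ f U) {p : ℂ[X]}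
    (hp : AgreesOnSpectrum A f p) :
    ∃ h : ℂ → ℂ, DifferentiableOn ℂ h U ∧ ∀ s, f s = p.eval s + A.charpoly.eval s * h s := by
  classical
  have hmem : ∀ μ ∈ A.charpoly.roots, μ ∈ spectrum ℂ A := fun μ hμ =>
    Matrix.mem_spectrum_iff_isRoot_charpoly.2 (isRoot_of_mem_roots hμ)
  have hpd : Differentiable ℂ (fun s => p.eval s) := p.differentiable
  obtain ⟨h, hh, he⟩ := exists_div_multiset hU A.charpoly.roots (fun s => f s - p.eval s)
    (hf.sub hpd.differentiableOn) (fun μ hμ => hA (hmem μ hμ)) (by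
      intro μ hμ
      have hfa : AnalyticAt ℂ f μ := hf.analyticAt (hU.mem_nhds (hA (hmem μ hμ)))
      have hpa : AnalyticAt ℂ (fun s => p.eval s) μ := hpd.analyticAt μ
      rw [natCast_le_analyticOrderAt_iff_iteratedDeriv_eq_zero (hfa.fun_sub hpa)]
      intro j hj
      have hjn : j < n := by
        refine lt_of_lt_of_le hj ((Multiset.count_le_card _ _).trans ?_)
        refine (card_roots' _).trans ?_
        rw [Matrix.charpoly_natDegree_eq_dim, Fintype.card_fin]
      rw [iteratedDeriv_fun_sub hfa.contDiffAt hpa.contDiffAt, hp μ (hmem μ hμ) j hjn, sub_self])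
  refine ⟨h, hh, fun s => ?_⟩
  rw [(IsAlgClosed.splits A.charpoly).eval_eq_prod_roots_of_monic A.charpoly_monic, ← he s]
  ring

theorem AgreesOnSpectrum.eval_eq {n : ℕ} {A : Matrix (Fin n) (Fin n) ℂ} {f : ℂ → ℂ} {p : ℂ[X]}
    (hp : AgreesOnSpectrum A f p) (hn : 1 ≤ n) {μ : ℂ} (hμ : μ ∈ spectrum ℂ A) :
    p.eval μ = f μ := by
  simpa using hp μ hμ 0 hn

/-- Divided differences of a polynomial depend holomorphically on the base point. -/
theorem exists_divDiff (a : ℂ[X]) :
    ∃ d : ℂ → ℂ[X], (∀ ℓ : ℂ[X] →ₗ[ℂ] ℂ, Differentiable ℂ (fun s => ℓ (d s))) ∧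
      ∀ s, C (a.eval s) - a = (C s - X) * d s := by
  induction a using Polynomial.induction_on with
  | C c => exact ⟨fun _ => 0, fun ℓ => by simp, fun s => by simp⟩
  | add a b ha hb =>
    obtain ⟨d₁, h₁, e₁⟩ := ha
    obtain ⟨d₂, h₂, e₂⟩ := hb
    refine ⟨fun s => d₁ s + d₂ s, fun ℓ => ?_, fun s => ?_⟩
    · simp only [map_add]; exact (h₁ ℓ).add (h₂ ℓ)
    · rw [mul_add, ← e₁, ← e₂, eval_add, C_add]; ring
  | monomial k c ih =>
    obtain ⟨d, h, e⟩ := ih
    refine ⟨fun s => d s * X + C ((C c * X ^ k).eval s), fun ℓ => ?_, fun s => ?_⟩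
    · simp only [map_add]
      refine (h (ℓ ∘ₗ LinearMap.mulRight ℂ X)).add ?_
      have : (fun s => ℓ (C ((C c * X ^ k).eval s)))
          = fun s => (C c * X ^ k).eval s * ℓ 1 := by
        funext s
        generalize (C c * X ^ k).eval s = y
        rw [← smul_eq_mul, ← map_smul, smul_eq_C_mul, mul_one]
      rw [this]
      exact (C c * X ^ k).differentiable.mul_const _
    · have e' := e s
      rw [pow_succ, ← mul_assoc, eval_mul (q := X), eval_X, C_mul]
      linear_combination X * e'

section Hol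

variable {ι : Type*} [Fintype ι] [DecidableEq ι]

/-- Entrywise holomorphic matrix functions. -/
def Hol (W : Set ℂ) (M : ℂ → Matrix ι ι ℂ) : Prop :=
  ∀ a b, DifferentiableOn ℂ (fun s => M s a b) W

variable {W : Set ℂ} {M N : ℂ → Matrix ι ι ℂ}

omit [Fintype ι] [DecidableEq ι] in
theorem Hol.const (B : Matrix ι ι ℂ) : Hol W (fun _ => B) := fun _ _ => differentiableOn_const _

omit [Fintype ι] [DecidableEq ι] in
theorem Hol.mono {W' : Set ℂ} (h : Hol W M) (hW : W' ⊆ W) : Hol W' M :=
  fun a b => (h a b).mono hW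

omit [Fintype ι] [DecidableEq ι] in
theorem Hol.add (h : Hol W M) (h' : Hol W N) : Hol W (fun s => M s + N s) :=
  fun a b => (h a b).add (h' a b)

omit [Fintype ι] [DecidableEq ι] in
theorem Hol.sub (h : Hol W M) (h' : Hol W N) : Hol W (fun s => M s - N s) :=
  fun a b => (h a b).sub (h' a b)

omit [Fintype ι] [DecidableEq ι] in
theorem Hol.smul {u : ℂ → ℂ} (hu : DifferentiableOn ℂ u W) (h : Hol W M) :
    Hol W (fun s => u s • M s) :=
  fun a b => hu.mul (h a b)

omit [DecidableEq ι] in
theorem Hol.mul (h : Hol W M) (h' : Hol W N) : Hol W (fun s => M s * N s) := by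
  intro a b
  simp only [Matrix.mul_apply]
  exact DifferentiableOn.fun_sum fun c _ => (h a c).mul (h' c b)

theorem Hol.det (h : Hol W M) : DifferentiableOn ℂ (fun s => (M s).det) W := by
  simp only [Matrix.det_apply, Units.smul_def, zsmul_eq_mul]
  refine DifferentiableOn.fun_sum fun σ _ => DifferentiableOn.const_mul ?_ _
  exact DifferentiableOn.fun_finsetProd fun i _ => h _ _

theorem Hol.adjugate (h : Hol W M) : Hol W (fun s => (M s).adjugate) := by
  intro a b
  simp only [Matrix.adjugate_apply]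
  refine Hol.det fun c d => ?_
  simp only [Matrix.updateRow_apply]
  split_ifs
  · exact differentiableOn_const _
  · exact h c d

theorem Hol.inv (h : Hol W M) (hd : ∀ s ∈ W, (M s).det ≠ 0) : Hol W (fun s => (M s)⁻¹) := by
  simp only [Matrix.inv_def, Ring.inverse_eq_inv']
  exact Hol.smul (h.det.inv hd) h.adjugate

omit [Fintype ι] [DecidableEq ι] in
theorem Hol.deriv (h : Hol W M) (hW : IsOpen W) :
    Hol W (fun s => Matrix.of fun a b => deriv (fun z => M z a b) s) :=
  fun a b => (h a b).deriv hW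

theorem hol_aeval (B : Matrix ι ι ℂ) {d : ℂ → ℂ[X]}
    (hd : ∀ ℓ : ℂ[X] →ₗ[ℂ] ℂ, Differentiable ℂ (fun s => ℓ (d s))) :
    Hol W (fun s => aeval B (d s)) := fun a b =>
  (hd (Matrix.entryLinearMap ℂ ℂ a b ∘ₗ (aeval B).toLinearMap)).differentiableOn

end Hol

theorem spectrum_subset_numRange {n : ℕ} (A : Matrix (Fin n) (Fin n) ℂ) :
    spectrum ℂ A ⊆ numRange A := by
  intro μ hμ
  rw [spectrum.mem_iff, Matrix.isUnit_iff_isUnit_det, isUnit_iff_ne_zero, not_not,
    ← Matrix.exists_mulVec_eq_zero_iff] at hμ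
  obtain ⟨v, hv0, hv⟩ := hμ
  have hAv : A.mulVec v = μ • v := by
    rw [Matrix.sub_mulVec, Algebra.algebraMap_eq_smul_one, Matrix.smul_mulVec,
      Matrix.one_mulVec, sub_eq_zero] at hv
    exact hv.symm
  set x : EuclideanSpace ℂ (Fin n) := WithLp.toLp 2 v with hx
  have hx0 : x ≠ 0 := by
    intro h
    apply hv0
    have := congrArg WithLp.ofLp h
    simpa [hx] using this
  have hAx : Matrix.toEuclideanLin A x = μ • x := by
    rw [hx, Matrix.toLpLin_toLp, ← WithLp.toLp_smul, ← hAv]
    rfl
  have hn : (‖x‖ : ℂ) ≠ 0 := by exact_mod_cast norm_ne_zero_iff.2 hx0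
  refine ⟨(‖x‖ : ℂ)⁻¹ • x, ?_, ?_⟩
  · rw [norm_smul, norm_inv, Complex.norm_real, norm_norm,
      inv_mul_cancel₀ (norm_ne_zero_iff.2 hx0)]
  · rw [map_smul, hAx, inner_smul_left, inner_smul_right, inner_smul_right,
      inner_self_eq_norm_sq_to_K]
    simp only [map_inv₀, Complex.conj_ofReal, Complex.coe_algebraMap]
    field_simp

end Crest.Agent.H4
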