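import Crest.Agent.Lead.TkEnd
import Crest.Agent.Lead.TkK
import Crest.Agent.Lead.TkF
import Crest.Agent.H6.TkH
import Crest.Agent.H1.TkC
import Crest.Agent.H3.TkTens
import Crest.Agent.H4.TkP2
import Crest.Agent.H5.TkD
import Crest.Agent.H2.TkGlue
import Crest.Agent.H8.TkOm
import Crest.Agent.H4.TkTr
import Crest.Agent.H8.TkHo
import Crest.Agent.H3.TkQR
import Crest.Agent.H4.TkH
import Crest.Agent.H9.TkQB
import Crest.Agent.H7.TkTr

/-! Row 186: assembly. -/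

set_option autoImplicit false

namespace Crest.Agent.H4.TkAll
open Crest.Agent

theorem core : H6.Tk.Core H7.BC.kk :=
  H6.Tk.A.core H1.TkC.cStmt H3.Tk.tensStmt Lead.Tk.fourStmt H4.TkP.pStmt
    (H5.Tk.twStmt Lead.Tk.kStmt) H2.Tk.glueStmt H8.TkOm.omStmt H4.TkTr.trStmt H8.TkHo.hoStmt
    H3.Tk.qrStmt (H6.Tk.qStmt_of H4.TkH.hStmt H9.Tk.qbStmt H7.Tk.transStmt) H7.BC.kk Lead.Tk.qq
    Lead.Tk.qq_ne Lead.Tk.qq_pow

theorem coreStmt : H7.BC.CoreStmt := Lead.Tk.coreStmt_of core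

end Crest.Agent.H4.TkAll
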