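import Mathlib

/-! Spencer's "six standard deviations" theorem in power form, by the partial colouring
(pigeonhole) method, and dyadic rounding. -/

set_option autoImplicit false

namespace Crest.Agent.H4.Sp

open Finset

/-- the sign of a Boolean -/
def sg (b : Bool) : ℝ := if b then 1 else -1

lemma sum_prod_bool {κ : Type} [Fintype κ] [DecidableEq κ] (f : κ → Bool → ℝ) :
    ∑ s : κ → Bool, ∏ j, f j (s j) = ∏ j, (f j true + f j false) := by
  have := Finset.prod_univ_sum (fun _ : κ => (univ : Finset Bool)) f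
  rw [Fintype.piFinset_univ] at this
  rw [← this]
  refine Finset.prod_congr rfl fun j _ => ?_
  simp

lemma sum_exp_le {κ : Type} [Fintype κ] [DecidableEq κ] (a : κ → ℝ) (ha : ∀ j, |a j| ≤ 1)
    (l : ℝ) (hl : l ^ 2 * Fintype.card κ ≤ 1) :
    ∑ s : κ → Bool, Real.exp (l * ∑ j, a j * sg (s j)) ≤ 2 * 2 ^ Fintype.card κ := by
  have h1 : ∀ s : κ → Bool, Real.exp (l * ∑ j, a j * sg (s j))
      = ∏ j, Real.exp (l * (a j * sg (s j))) := by
    intro s; rw [Finset.mul_sum, Real.exp_sum]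
  simp only [h1]
  rw [sum_prod_bool (fun j b => Real.exp (l * (a j * sg b)))]
  have h2 : ∀ j, Real.exp (l * (a j * sg true)) + Real.exp (l * (a j * sg false))
      ≤ 2 * Real.exp (l ^ 2 / 2) := by
    intro j
    have hc := Real.cosh_le_exp_half_sq (l * a j)
    rw [Real.cosh_eq] at hc
    have hs : (l * a j) ^ 2 / 2 ≤ l ^ 2 / 2 := by
      have : a j ^ 2 ≤ 1 := by
        have := ha j
        rw [← sq_abs]; nlinarith [abs_nonneg (a j)]
      nlinarith [sq_nonneg l]
    have he := Real.exp_le_exp.2 hs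
    simp only [sg, if_true, Bool.false_eq_true, if_false, mul_one, mul_neg]
    linarith
  calc ∏ j, (Real.exp (l * (a j * sg true)) + Real.exp (l * (a j * sg false)))
      ≤ ∏ _j : κ, 2 * Real.exp (l ^ 2 / 2) :=
        Finset.prod_le_prod (fun j _ => by positivity) (fun j _ => h2 j)
    _ = 2 ^ Fintype.card κ * Real.exp (l ^ 2 * Fintype.card κ / 2) := by
        rw [Finset.prod_const, Finset.card_univ, mul_pow, ← Real.exp_nat_mul]
        congr 2; ring
    _ ≤ 2 ^ Fintype.card κ * 2 := by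
        gcongr
        have h3 : Real.exp (l ^ 2 * Fintype.card κ / 2) ≤ Real.exp (1 / 2) :=
          Real.exp_le_exp.2 (by linarith)
        have h4 : Real.exp (1 / 2) ≤ 2 := by
          have h5 : Real.exp (1 / 2) * Real.exp (1 / 2) = Real.exp 1 := by
            rw [← Real.exp_add]; norm_num
          have := Real.exp_one_lt_d9
          nlinarith [Real.exp_pos (1 / 2 : ℝ)]
        linarith
    _ = 2 * 2 ^ Fintype.card κ := by ring

lemma pow_eight_le (w : ℝ) : w ^ 8 ≤ 40320 * (Real.exp w + Real.exp (-w)) := by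
  have h1 := Real.pow_div_factorial_le_exp |w| (abs_nonneg w) 8
  have h2 : |w| ^ 8 = w ^ 8 := by
    rw [show (8 : ℕ) = 2 * 4 by norm_num, pow_mul, pow_mul, sq_abs]
  have h3 : Real.exp |w| ≤ Real.exp w + Real.exp (-w) := by
    rcases abs_cases w with h | h <;> rw [h.1] <;>
      linarith [Real.exp_pos w, Real.exp_pos (-w)]
  rw [h2] at h1
  norm_num [Nat.factorial] at h1
  linarith

lemma moment_eight {κ : Type} [Fintype κ] [DecidableEq κ] (a : κ → ℝ) (ha : ∀ j, |a j| ≤ 1)
    (hn : 0 < Fintype.card κ) :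
    ∑ s : κ → Bool, (∑ j, a j * sg (s j)) ^ 8
      ≤ 161280 * (Fintype.card κ : ℝ) ^ 4 * 2 ^ Fintype.card κ := by
  obtain ⟨n, hn'⟩ : ∃ n : ℝ, n = Fintype.card κ := ⟨_, rfl⟩
  have hpos : 0 < n := by rw [hn']; exact_mod_cast hn
  obtain ⟨l, hl⟩ : ∃ l : ℝ, l = (√n)⁻¹ := ⟨_, rfl⟩
  have hl2 : l ^ 2 * n = 1 := by
    rw [hl, inv_pow, Real.sq_sqrt hpos.le]; field_simp
  have h1 := sum_exp_le a ha l (by rw [← hn', hl2])
  have h2 := sum_exp_le a ha (-l) (by rw [← hn', neg_sq, hl2])
  have h3 : ∀ s : κ → Bool, (∑ j, a j * sg (s j)) ^ 8 ≤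
      n ^ 4 * (40320 * (Real.exp (l * ∑ j, a j * sg (s j))
        + Real.exp (-l * ∑ j, a j * sg (s j)))) := by
    intro s
    have := pow_eight_le (l * ∑ j, a j * sg (s j))
    rw [neg_mul]
    have h4 : (∑ j, a j * sg (s j)) ^ 8 = n ^ 4 * (l * ∑ j, a j * sg (s j)) ^ 8 := by
      rw [mul_pow, ← mul_assoc]
      have : n ^ 4 * l ^ 8 = 1 := by
        have : n ^ 4 * l ^ 8 = (l ^ 2 * n) ^ 4 := by ring
        rw [this, hl2]; norm_num
      rw [this, one_mul]
    rw [h4]
    gcongr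
  calc ∑ s : κ → Bool, (∑ j, a j * sg (s j)) ^ 8
      ≤ ∑ s : κ → Bool, n ^ 4 * (40320 * (Real.exp (l * ∑ j, a j * sg (s j))
        + Real.exp (-l * ∑ j, a j * sg (s j)))) := Finset.sum_le_sum fun s _ => h3 s
    _ = n ^ 4 * (40320 * (∑ s : κ → Bool, Real.exp (l * ∑ j, a j * sg (s j))
        + ∑ s : κ → Bool, Real.exp (-l * ∑ j, a j * sg (s j)))) := by
        rw [← Finset.mul_sum, ← Finset.mul_sum, Finset.sum_add_distrib]
    _ ≤ n ^ 4 * (40320 * (2 * 2 ^ Fintype.card κ + 2 * 2 ^ Fintype.card κ)) := by gcongr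
    _ = _ := by rw [← hn']; ring

/-- a set of colourings close to a given one is small -/
lemma ball_le {κ : Type} [Fintype κ] [DecidableEq κ] (s₀ : κ → Bool) (T : Finset (κ → Bool))
    (hT : ∀ s ∈ T, 10 * (univ.filter fun j => s j ≠ s₀ j).card ≤ Fintype.card κ) :
    (T.card : ℝ) ≤ Real.exp ((Fintype.card κ : ℝ) * (1 / 5 + 1 / 7)) := by
  obtain ⟨n, hn⟩ : ∃ n : ℕ, n = Fintype.card κ := ⟨_, rfl⟩
  rw [← hn] at hT ⊢
  have h1 : ∑ s : κ → Bool, ∏ j, (if s j ≠ s₀ j then Real.exp (-2) else 1)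
      = (1 + Real.exp (-2)) ^ n := by
    rw [sum_prod_bool (fun j b => if b ≠ s₀ j then Real.exp (-2) else 1)]
    rw [hn, ← Finset.card_univ, ← Finset.prod_const]
    refine Finset.prod_congr rfl fun j _ => ?_
    cases s₀ j <;> simp [add_comm]
  have h2 : ∀ s ∈ T, Real.exp (-(n : ℝ) / 5)
      ≤ ∏ j, (if s j ≠ s₀ j then Real.exp (-2) else 1) := by
    intro s hs
    rw [← Finset.prod_filter, Finset.prod_const, ← Real.exp_nat_mul]
    apply Real.exp_le_exp.2
    have : (10 : ℝ) * (univ.filter fun j => s j ≠ s₀ j).card ≤ n := by exact_mod_cast hT s hs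
    linarith
  have h3 : (T.card : ℝ) * Real.exp (-(n : ℝ) / 5) ≤ (1 + Real.exp (-2)) ^ n := by
    rw [← h1]
    calc (T.card : ℝ) * Real.exp (-(n : ℝ) / 5) = ∑ _s ∈ T, Real.exp (-(n : ℝ) / 5) := by
          rw [Finset.sum_const, nsmul_eq_mul]
      _ ≤ ∑ s ∈ T, ∏ j, (if s j ≠ s₀ j then Real.exp (-2) else 1) := Finset.sum_le_sum h2
      _ ≤ _ := Finset.sum_le_sum_of_subset_of_nonneg (Finset.subset_univ _) fun s _ _ =>
          Finset.prod_nonneg fun j _ => by split_ifs <;> positivity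
  have h4 : 1 + Real.exp (-2) ≤ Real.exp (1 / 7) := by
    have h5 : Real.exp (-2) ≤ 1 / 7 := by
      have h6 : (7 : ℝ) ≤ Real.exp 2 := by
        have h7 : Real.exp 2 = Real.exp 1 * Real.exp 1 := by rw [← Real.exp_add]; norm_num
        have := Real.exp_one_gt_d9
        nlinarith
      rw [Real.exp_neg, inv_eq_one_div]
      exact one_div_le_one_div_of_le (by norm_num) h6
    have := Real.add_one_le_exp (1 / 7 : ℝ)
    linarith
  have h5 : (1 + Real.exp (-2)) ^ n ≤ Real.exp ((n : ℝ) * (1 / 7)) := by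
    rw [Real.exp_nat_mul]
    gcongr
  have h6 : Real.exp ((n : ℝ) * (1 / 5 + 1 / 7)) * Real.exp (-(n : ℝ) / 5)
      = Real.exp ((n : ℝ) * (1 / 7)) := by
    rw [← Real.exp_add]; congr 1; ring
  have h7 := Real.exp_pos (-(n : ℝ) / 5)
  have : (T.card : ℝ) * Real.exp (-(n : ℝ) / 5)
      ≤ Real.exp ((n : ℝ) * (1 / 5 + 1 / 7)) * Real.exp (-(n : ℝ) / 5) := by
    rw [h6]; linarith
  exact le_of_mul_le_mul_right this h7

/-- the cost of a symbol -/
noncomputable def cost (p : ℝ) (z : ℤ) : ℝ := if z = 0 then 2 * p else |(z : ℝ)| * (4 / p)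

lemma kraft_one (p : ℝ) (hp : 0 < p) (hp2 : p ≤ 1 / 2) (K : ℕ) :
    ∑ z ∈ Finset.Icc (-(K : ℤ)) K, Real.exp (-cost p z) ≤ 1 := by
  obtain ⟨r, hr⟩ : ∃ r : ℝ, r = Real.exp (-(4 / p)) := ⟨_, rfl⟩
  have hr0 : 0 < r := by rw [hr]; exact Real.exp_pos _
  have hr1 : r * (1 + 4 / p) ≤ 1 := by
    have := Real.add_one_le_exp (4 / p)
    rw [hr, Real.exp_neg]
    have h2 := Real.exp_pos (4 / p)
    rw [inv_mul_le_iff₀ h2]; linarith
  have hr2 : 4 * r ≤ p * (1 - r) := by
    have : r * (4 / p) * p = 4 * r := by field_simp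
    nlinarith
  have key : ∀ K : ℕ, ∑ z ∈ Finset.Icc (-(K : ℤ)) K, Real.exp (-cost p z)
      ≤ Real.exp (-(2 * p)) + p * (1 - r ^ K) := by
    intro K
    induction K with
    | zero => simp [cost]
    | succ K ih =>
      have hI : Finset.Icc (-((K + 1 : ℕ) : ℤ)) ((K + 1 : ℕ) : ℤ)
          = insert (-((K : ℤ) + 1)) (insert ((K : ℤ) + 1) (Finset.Icc (-(K : ℤ)) K)) := by
        ext z; simp only [Finset.mem_Icc, Finset.mem_insert]; push_cast; omega
      rw [hI, Finset.sum_insert (by simp only [Finset.mem_insert, Finset.mem_Icc]; omega),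
        Finset.sum_insert (by simp only [Finset.mem_Icc]; omega)]
      have e1 : Real.exp (-cost p ((K : ℤ) + 1)) = r ^ (K + 1) := by
        rw [cost, if_neg (by omega), hr, ← Real.exp_nat_mul]
        congr 1; push_cast; rw [abs_of_nonneg (by positivity)]; ring
      have e2 : Real.exp (-cost p (-((K : ℤ) + 1))) = r ^ (K + 1) := by
        rw [cost, if_neg (by omega), hr, ← Real.exp_nat_mul]
        congr 1; push_cast; rw [abs_neg, abs_of_nonneg (by positivity)]; ring
      rw [e1, e2]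
      have h3 : 0 < r ^ K := by positivity
      have h4 : 4 * r * r ^ K ≤ p * (1 - r) * r ^ K := by gcongr
      rw [pow_succ]
      nlinarith
  have h5 : Real.exp (-(2 * p)) ≤ 1 - p := by
    have := Real.add_one_le_exp (2 * p)
    rw [Real.exp_neg]
    have h2 := Real.exp_pos (2 * p)
    rw [inv_le_iff_one_le_mul₀ h2]
    nlinarith
  have h6 : 0 ≤ p * r ^ K := by positivity
  have := key K
  nlinarith

lemma kraft {ι : Type} [Fintype ι] [DecidableEq ι] (p : ℝ) (hp : 0 < p) (hp2 : p ≤ 1 / 2)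
    (B : Finset (ι → ℤ)) (L : ℝ) (hB : ∀ b ∈ B, ∑ i, cost p (b i) ≤ L) :
    (B.card : ℝ) ≤ Real.exp L := by
  obtain ⟨K, hK⟩ : ∃ K : ℕ, ∀ b ∈ B, ∀ i, (b i).natAbs ≤ K :=
    ⟨B.sup fun b => univ.sup fun i => (b i).natAbs, fun b hb i =>
      (Finset.le_sup (f := fun i => (b i).natAbs) (Finset.mem_univ i)).trans
        (Finset.le_sup (f := fun b : ι → ℤ => univ.sup fun i => (b i).natAbs) hb)⟩
  have h1 : B ⊆ Fintype.piFinset fun _ : ι => Finset.Icc (-(K : ℤ)) K := by
    intro b hb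
    rw [Fintype.mem_piFinset]
    intro i
    have := hK b hb i
    rw [Finset.mem_Icc]; omega
  have h2 : (B.card : ℝ) * Real.exp (-L) ≤ 1 := by
    calc (B.card : ℝ) * Real.exp (-L) = ∑ _b ∈ B, Real.exp (-L) := by
          rw [Finset.sum_const, nsmul_eq_mul]
      _ ≤ ∑ b ∈ B, ∏ i, Real.exp (-cost p (b i)) := by
          refine Finset.sum_le_sum fun b hb => ?_
          rw [← Real.exp_sum, Finset.sum_neg_distrib]
          exact Real.exp_le_exp.2 (by linarith [hB b hb])
      _ ≤ ∑ b ∈ Fintype.piFinset fun _ : ι => Finset.Icc (-(K : ℤ)) K,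
            ∏ i, Real.exp (-cost p (b i)) :=
          Finset.sum_le_sum_of_subset_of_nonneg h1 fun b _ _ =>
            Finset.prod_nonneg fun i _ => (Real.exp_pos _).le
      _ = ∏ _i : ι, ∑ z ∈ Finset.Icc (-(K : ℤ)) K, Real.exp (-cost p z) :=
          (Finset.prod_univ_sum _ (fun _ z => Real.exp (-cost p z))).symm
      _ ≤ 1 := Finset.prod_le_one (fun i _ => Finset.sum_nonneg fun z _ => (Real.exp_pos _).le)
          fun i _ => kraft_one p hp hp2 K
  have h3 := Real.exp_pos (-L)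
  have h4 : Real.exp L * Real.exp (-L) = 1 := by rw [← Real.exp_add]; simp
  exact le_of_mul_le_mul_right (h2.trans h4.ge) h3

lemma cost_round_le (p : ℝ) (hp : 0 < p) (u : ℝ) :
    cost p (round u) ≤ 2 * p + 1024 / p * u ^ 8 := by
  have h8 : 0 ≤ u ^ 8 := by positivity
  unfold cost
  split_ifs with h
  · have : 0 ≤ 1024 / p * u ^ 8 := by positivity
    linarith
  · have h1 : (1 : ℝ) ≤ |(round u : ℝ)| := by
      have : (1 : ℤ) ≤ |round u| := Int.one_le_abs h
      exact_mod_cast this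
    have h2 := abs_sub_round u
    have h3 : |(round u : ℝ)| ≤ 2 * |u| := by
      have : |(round u : ℝ)| ≤ |u| + |u - round u| := by
        have := abs_sub (u : ℝ) (u - round u)
        simpa using this
      linarith
    have h4 : |(round u : ℝ)| ≤ (2 * |u|) ^ 8 := by
      calc |(round u : ℝ)| ≤ 2 * |u| := h3
        _ = (2 * |u|) ^ 1 := (pow_one _).symm
        _ ≤ (2 * |u|) ^ 8 := pow_le_pow_right₀ (by linarith) (by norm_num)
    have h5 : (2 * |u|) ^ 8 = 256 * u ^ 8 := by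
      rw [mul_pow, show (8 : ℕ) = 2 * 4 by norm_num, pow_mul |u|, sq_abs, ← pow_mul]; norm_num
    rw [h5] at h4
    have h6 : |(round u : ℝ)| * (4 / p) ≤ 256 * u ^ 8 * (4 / p) := by gcongr
    have h7 : 256 * u ^ 8 * (4 / p) = 1024 / p * u ^ 8 := by ring
    linarith

/-- partial colouring -/
lemma partial_colouring {ι κ : Type} [Fintype ι] [DecidableEq ι] [Fintype κ] [DecidableEq κ]
    (A : ι → κ → ℝ) (hA : ∀ i j, |A i j| ≤ 1) (R : ℝ) (hR0 : 0 < R)
    (hn : 10 < Fintype.card κ) (hnm : Fintype.card κ ≤ Fintype.card ι)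
    (hR : (Fintype.card κ : ℝ) * Fintype.card ι ≤ R ^ 4) :
    ∃ χ : κ → ℝ, (∀ j, χ j = 0 ∨ χ j = 1 ∨ χ j = -1) ∧
      10 * (univ.filter fun j => χ j = 0).card ≤ 9 * Fintype.card κ ∧
      ∀ i, |∑ j, A i j * χ j| ≤ 16 * R := by
  obtain ⟨n, hn'⟩ : ∃ n : ℕ, n = Fintype.card κ := ⟨_, rfl⟩
  obtain ⟨m, hm'⟩ : ∃ m : ℕ, m = Fintype.card ι := ⟨_, rfl⟩
  rw [← hn'] at hn hnm hR ⊢
  rw [← hm'] at hnm hR
  have hnr : (10 : ℝ) < n := by exact_mod_cast hn
  have hmr : (n : ℝ) ≤ m := by exact_mod_cast hnm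
  have hm0 : (0 : ℝ) < m := by linarith
  obtain ⟨p, hp⟩ : ∃ p : ℝ, p = n / (40 * m) := ⟨_, rfl⟩
  have hp0 : 0 < p := by rw [hp]; apply div_pos <;> linarith
  have hpm : p * m = n / 40 := by rw [hp]; field_simp
  have hp2 : p ≤ 1 / 2 := by
    rw [hp, div_le_iff₀ (by linarith)]; linarith
  let t : (κ → Bool) → ι → ℝ := fun s i => ∑ j, A i j * sg (s j)
  let pat : (κ → Bool) → ι → ℤ := fun s i => round (t s i / (32 * R))
  let c : (κ → Bool) → ℝ := fun s => ∑ i, cost p (pat s i)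
  have hc0 : ∀ s, 0 ≤ c s := fun s => Finset.sum_nonneg fun i _ => by
    unfold cost; split_ifs <;> positivity
  -- expected cost
  have hE : ∑ s, c s ≤ n / 16 * 2 ^ n := by
    have h1 : ∀ i, ∑ s : κ → Bool, cost p (pat s i) ≤ (n / 16 / m) * 2 ^ n := by
      intro i
      have h2 := moment_eight (A i) (hA i) (by omega)
      rw [← hn'] at h2
      have h3 : ∑ s : κ → Bool, cost p (pat s i)
          ≤ ∑ s : κ → Bool, (2 * p + 1024 / p / (32 * R) ^ 8 * (t s i) ^ 8) := by
        refine Finset.sum_le_sum fun s _ => (cost_round_le p hp0 _).trans (le_of_eq ?_)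
        rw [div_pow]; ring
      rw [Finset.sum_add_distrib, Finset.sum_const, ← Finset.mul_sum, Finset.card_univ,
        Fintype.card_fun, Fintype.card_bool, ← hn', nsmul_eq_mul] at h3
      push_cast at h3
      have h4 : 1024 / p / (32 * R) ^ 8 * ∑ s, (t s i) ^ 8
          ≤ 1024 / p / (32 * R) ^ 8 * (161280 * (n : ℝ) ^ 4 * 2 ^ n) := by gcongr
      have h5 : 1024 / p / (32 * R) ^ 8 * (161280 * (n : ℝ) ^ 4) ≤ p / 2 := by
        rw [div_div, div_mul_eq_mul_div, div_le_iff₀ (by positivity)]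
        have h6 : ((n : ℝ) * m) ^ 2 ≤ R ^ 8 := by
          calc ((n : ℝ) * m) ^ 2 ≤ (R ^ 4) ^ 2 := by gcongr
            _ = R ^ 8 := by ring
        have h7 : p / 2 * (p * (32 * R) ^ 8) = 2 ^ 39 * p ^ 2 * R ^ 8 := by ring
        have h8 : p ^ 2 * ((n : ℝ) * m) ^ 2 = (n : ℝ) ^ 4 / 1600 := by
          have : p ^ 2 * ((n : ℝ) * m) ^ 2 = (p * m) ^ 2 * n ^ 2 := by ring
          rw [this, hpm]; ring
        have h9 : p ^ 2 * ((n : ℝ) * m) ^ 2 ≤ p ^ 2 * R ^ 8 := by gcongr
        have h10 : 0 ≤ (n : ℝ) ^ 4 := by positivity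
        rw [h7]
        nlinarith
      have h11 : (n : ℝ) / 16 / m = 5 / 2 * p := by rw [hp]; field_simp; ring
      rw [h11]
      have h12 : (0 : ℝ) < 2 ^ n := by positivity
      have h13 : 1024 / p / (32 * R) ^ 8 * (161280 * (n : ℝ) ^ 4 * 2 ^ n)
          = 1024 / p / (32 * R) ^ 8 * (161280 * (n : ℝ) ^ 4) * 2 ^ n := by ring
      have h14 : 1024 / p / (32 * R) ^ 8 * (161280 * (n : ℝ) ^ 4) * 2 ^ n ≤ p / 2 * 2 ^ n := by
        gcongr
      linarith
    calc ∑ s, c s = ∑ i, ∑ s : κ → Bool, cost p (pat s i) := Finset.sum_comm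
      _ ≤ ∑ _i : ι, (n / 16 / m : ℝ) * 2 ^ n := Finset.sum_le_sum fun i _ => h1 i
      _ = n / 16 * 2 ^ n := by
          rw [Finset.sum_const, Finset.card_univ, ← hm', nsmul_eq_mul]
          field_simp
  -- Markov
  let G : Finset (κ → Bool) := univ.filter fun s => c s ≤ n / 8
  have hG : (2 : ℝ) ^ n ≤ 2 * G.card := by
    have h1 : ((univ.filter fun s => ¬ c s ≤ n / 8).card : ℝ) * (n / 8) ≤ n / 16 * 2 ^ n := by
      calc ((univ.filter fun s => ¬ c s ≤ n / 8).card : ℝ) * (n / 8)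
          = ∑ _s ∈ univ.filter (fun s => ¬ c s ≤ n / 8), (n / 8 : ℝ) := by
            rw [Finset.sum_const, nsmul_eq_mul]
        _ ≤ ∑ s ∈ univ.filter (fun s => ¬ c s ≤ n / 8), c s :=
            Finset.sum_le_sum fun s hs => (not_le.1 (Finset.mem_filter.1 hs).2).le
        _ ≤ ∑ s, c s := Finset.sum_le_sum_of_subset_of_nonneg (Finset.subset_univ _)
            fun s _ _ => hc0 s
        _ ≤ _ := hE
    have h2 : G.card + (univ.filter fun s => ¬ c s ≤ n / 8).card = 2 ^ n := by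
      rw [Finset.card_filter_add_card_filter_not, Finset.card_univ, Fintype.card_fun,
        Fintype.card_bool, ← hn']
    have h3 : (G.card : ℝ) + (univ.filter fun s => ¬ c s ≤ n / 8).card = 2 ^ n := by
      exact_mod_cast h2
    nlinarith
  -- pigeonhole
  have hex : ∃ s s' : κ → Bool, pat s = pat s' ∧
      n < 10 * (univ.filter fun j => s j ≠ s' j).card := by
    by_contra hcon
    push Not at hcon
    have h1 : (G.card : ℝ) ≤ Real.exp (n / 8) * Real.exp ((n : ℝ) * (1 / 5 + 1 / 7)) := by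
      rw [Finset.card_eq_sum_card_image pat G]
      push_cast
      have h2 : ∀ b ∈ G.image pat, ((G.filter fun s => pat s = b).card : ℝ)
          ≤ Real.exp ((n : ℝ) * (1 / 5 + 1 / 7)) := by
        intro b hb
        obtain ⟨s₀, -, rfl⟩ := Finset.mem_image.1 hb
        rw [hn']
        refine ball_le s₀ _ fun s hs => ?_
        rw [← hn']
        exact hcon s s₀ (Finset.mem_filter.1 hs).2
      refine (Finset.sum_le_card_nsmul _ _ _ h2).trans ?_
      rw [nsmul_eq_mul]
      gcongr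
      refine kraft p hp0 hp2 _ _ fun b hb => ?_
      obtain ⟨s, hs, rfl⟩ := Finset.mem_image.1 hb
      exact (Finset.mem_filter.1 hs).2
    rw [← Real.exp_add] at h1
    have h3 : Real.exp ((n : ℝ) * (69 / 100)) ≤ 2 ^ n := by
      rw [Real.exp_nat_mul]
      gcongr
      have := Real.log_two_gt_d9
      calc Real.exp (69 / 100) ≤ Real.exp (Real.log 2) := Real.exp_le_exp.2 (by linarith)
        _ = 2 := Real.exp_log (by norm_num)
    have h4 : Real.exp ((n : ℝ) * (69 / 100)) = Real.exp (n / 8 + (n : ℝ) * (1 / 5 + 1 / 7))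
        * Real.exp ((n : ℝ) * (69 / 100 - 1 / 8 - 1 / 5 - 1 / 7)) := by
      rw [← Real.exp_add]; congr 1; ring
    have h5 := Real.add_one_le_exp ((n : ℝ) * (69 / 100 - 1 / 8 - 1 / 5 - 1 / 7))
    have h6 := Real.exp_pos (n / 8 + (n : ℝ) * (1 / 5 + 1 / 7))
    nlinarith
  obtain ⟨s, s', hp', hd⟩ := hex
  refine ⟨fun j => (sg (s j) - sg (s' j)) / 2, fun j => ?_, ?_, fun i => ?_⟩
  · dsimp only
    cases s j <;> cases s' j <;> simp [sg] <;> norm_num
  · have h1 : (univ.filter fun j => (sg (s j) - sg (s' j)) / 2 = 0)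
        = univ.filter fun j => ¬ s j ≠ s' j := by
      refine Finset.filter_congr fun j _ => ?_
      cases s j <;> cases s' j <;> simp [sg] <;> norm_num
    have h2 := Finset.card_filter_add_card_filter_not (s := (univ : Finset κ))
      (fun j => s j ≠ s' j)
    rw [Finset.card_univ, ← hn'] at h2
    rw [h1]; omega
  · have h1 : ∑ j, A i j * ((sg (s j) - sg (s' j)) / 2) = (t s i - t s' i) / 2 := by
      simp only [t]
      rw [← Finset.sum_sub_distrib, Finset.sum_div]
      exact Finset.sum_congr rfl fun j _ => by ring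
    rw [h1]
    have h2 := abs_sub_round (t s i / (32 * R))
    have h3 := abs_sub_round (t s' i / (32 * R))
    have h4 : round (t s i / (32 * R)) = round (t s' i / (32 * R)) := congrFun hp' i
    rw [h4] at h2
    have h5 : |t s i / (32 * R) - t s' i / (32 * R)| ≤ 1 := by
      rw [abs_le] at h2 h3 ⊢; constructor <;> linarith [h2.1, h2.2, h3.1, h3.2]
    rw [← sub_div, abs_div, abs_of_pos (by positivity : 0 < 32 * R),
      div_le_one (by positivity)] at h5
    rw [abs_div, abs_two]; linarith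

/-- Spencer's theorem in power form -/
theorem spencer {ι κ : Type} [Fintype ι] [DecidableEq ι] [DecidableEq κ]
    (A : ι → κ → ℝ) (hA : ∀ i j, |A i j| ≤ 1) (n : ℕ) :
    ∀ (S : Finset κ) (R : ℝ), S.card = n → 0 ≤ R → n ≤ Fintype.card ι →
      (n : ℝ) * Fintype.card ι ≤ R ^ 4 →
      ∃ s : κ → ℝ, (∀ j, s j = 1 ∨ s j = -1) ∧ ∀ i, |∑ j ∈ S, A i j * s j| ≤ 640 * R := by
  induction n using Nat.strong_induction_on with
  | _ n ih =>
  intro S R hS hR0 hnm hR
  by_cases hn : n ≤ 10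
  · refine ⟨fun _ => 1, fun _ => Or.inl rfl, fun i => ?_⟩
    rcases Nat.eq_zero_or_pos n with h0 | h0
    · rw [h0, Finset.card_eq_zero] at hS
      rw [hS]; simp; positivity
    · have h1 : (1 : ℝ) ≤ R := by
        have h2 : (1 : ℝ) ≤ n := by exact_mod_cast h0
        have h3 : (n : ℝ) ≤ Fintype.card ι := by exact_mod_cast hnm
        have h4 : (1 : ℝ) ≤ R ^ 4 := by nlinarith
        by_contra h5
        have := pow_lt_one₀ hR0 (not_le.1 h5) (show 4 ≠ 0 by norm_num)
        linarith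
      calc |∑ j ∈ S, A i j * 1| ≤ ∑ j ∈ S, |A i j * 1| := Finset.abs_sum_le_sum_abs _ _
        _ ≤ ∑ _j ∈ S, (1 : ℝ) := Finset.sum_le_sum fun j _ => by simpa using hA i j
        _ = n := by rw [Finset.sum_const, hS]; simp
        _ ≤ 640 * R := by
          have : (n : ℝ) ≤ 10 := by exact_mod_cast hn
          linarith
  · have hRpos : 0 < R := by
      rcases hR0.lt_or_eq with h | h
      · exact h
      · exfalso
        have h2 : (10 : ℝ) < n := by exact_mod_cast not_le.1 hn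
        have h3 : (n : ℝ) ≤ Fintype.card ι := by exact_mod_cast hnm
        rw [← h] at hR
        nlinarith
    obtain ⟨χ, hχ, hcard, hdisc⟩ := partial_colouring (κ := S) (fun i j => A i j)
      (fun i j => hA i j) R hRpos (by rw [Fintype.card_coe, hS]; omega)
      (by rw [Fintype.card_coe, hS]; exact hnm) (by rw [Fintype.card_coe, hS]; exact hR)
    rw [Fintype.card_coe, hS] at hcard
    let χ' : κ → ℝ := fun j => if h : j ∈ S then χ ⟨j, h⟩ else 0
    let S' : Finset κ := S.filter fun j => χ' j = 0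
    have hS' : S'.card = (univ.filter fun j : S => χ j = 0).card := by
      symm
      refine Finset.card_bij (fun j _ => (j : κ)) (fun j hj => ?_) (fun a _ b _ h => Subtype.ext h)
        fun b hb => ?_
      · have := (Finset.mem_filter.1 hj).2
        simp [S', χ', this]
      · obtain ⟨hb1, hb2⟩ := Finset.mem_filter.1 hb
        refine ⟨⟨b, hb1⟩, ?_, rfl⟩
        simpa [χ', hb1] using hb2
    have hlt : S'.card < n := by omega
    obtain ⟨s', hs', hd'⟩ := ih S'.card hlt S' (39 / 40 * R) rfl (by positivity) (by omega) (by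
      have h1 : (10 : ℝ) * S'.card ≤ 9 * n := by
        rw [hS']; exact_mod_cast hcard
      have h2 : (0 : ℝ) ≤ Fintype.card ι := by positivity
      have h3 : (S'.card : ℝ) * Fintype.card ι ≤ 9 / 10 * n * Fintype.card ι := by
        gcongr; linarith
      have h4 : 0 ≤ R ^ 4 := by positivity
      rw [mul_pow]; nlinarith)
    refine ⟨fun j => if χ' j = 0 then s' j else χ' j, fun j => ?_, fun i => ?_⟩
    · by_cases h : χ' j = 0
      · simpa [h] using hs' j
      · simp only [h, if_false]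
        by_cases hj : j ∈ S
        · simp only [χ', hj, dif_pos] at h ⊢
          rcases hχ ⟨j, hj⟩ with h1 | h1
          · exact absurd h1 h
          · exact h1
        · simp [χ', hj] at h
    · have h1 : ∑ j ∈ S, A i j * (if χ' j = 0 then s' j else χ' j)
          = ∑ j ∈ S', A i j * s' j + ∑ j : S, A i j * χ j := by
        have h2 : ∑ j : S, A i j * χ j = ∑ j ∈ S, A i j * χ' j := by
          rw [← Finset.sum_coe_sort S]
          exact Finset.sum_congr rfl fun j _ => by simp [χ']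
        rw [h2, Finset.sum_filter, ← Finset.sum_add_distrib]
        refine Finset.sum_congr rfl fun j _ => ?_
        split_ifs with h
        · rw [h]; ring
        · ring
      rw [h1]
      have := abs_add_le (∑ j ∈ S', A i j * s' j) (∑ j : S, A i j * χ j)
      linarith [hd' i, hdisc i]

/-- dyadic rounding -/
theorem dyadic {ι κ : Type} [Fintype ι] [DecidableEq ι] [Fintype κ] [DecidableEq κ]
    (A : ι → κ → ℝ) (hA : ∀ i j, |A i j| ≤ 1) (hnm : Fintype.card κ ≤ Fintype.card ι)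
    (R : ℝ) (hR0 : 0 ≤ R) (J : ℕ) :
    ∀ a : κ → ℕ, (∀ k, a k ≤ 2 ^ J) → (∑ k, (a k : ℝ)) * Fintype.card ι ≤ 2 ^ J * R ^ 4 →
      ∃ z : κ → ℝ, (∀ k, z k = 0 ∨ z k = 1) ∧
        ∀ i, |∑ k, A i k * (z k - a k / 2 ^ J)| ≤ 1920 * R * (1 - (3 / 4) ^ J) := by
  induction J with
  | zero =>
    intro a ha _
    refine ⟨fun k => a k, fun k => ?_, fun i => by simp⟩
    have := ha k
    rcases Nat.le_one_iff_eq_zero_or_eq_one.1 (by simpa using this) with h | h <;> simp [h]
  | succ J ih =>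
    intro a ha hsum
    let S : Finset κ := univ.filter fun k => a k % 2 = 1
    have hS1 : (S.card : ℝ) ≤ ∑ k, (a k : ℝ) := by
      calc (S.card : ℝ) = ∑ _k ∈ S, (1 : ℝ) := by simp
        _ ≤ ∑ k ∈ S, (a k : ℝ) := Finset.sum_le_sum fun k hk => by
            have := (Finset.mem_filter.1 hk).2
            have h1 : 1 ≤ a k := by omega
            exact_mod_cast h1
        _ ≤ _ := Finset.sum_le_sum_of_subset_of_nonneg (Finset.subset_univ _)
            fun k _ _ => by positivity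
    obtain ⟨s₀, hs₀, hd₀⟩ := spencer A hA S.card S ((3 / 2) ^ (J + 1) * R) rfl (by positivity)
      ((Finset.card_le_univ S).trans hnm) (by
        have h1 : (S.card : ℝ) * Fintype.card ι ≤ (∑ k, (a k : ℝ)) * Fintype.card ι := by gcongr
        have h2 : (2 : ℝ) ^ (J + 1) ≤ ((3 / 2) ^ (J + 1)) ^ 4 := by
          rw [← pow_mul, mul_comm, pow_mul]
          gcongr; norm_num
        have h3 : (2 : ℝ) ^ (J + 1) * R ^ 4 ≤ ((3 / 2) ^ (J + 1)) ^ 4 * R ^ 4 := by gcongr
        rw [mul_pow]; linarith)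
    obtain ⟨s, hs, hd, hneg⟩ : ∃ s : κ → ℝ, (∀ j, s j = 1 ∨ s j = -1) ∧
        (∀ i, |∑ j ∈ S, A i j * s j| ≤ 640 * ((3 / 2) ^ (J + 1) * R)) ∧ ∑ j ∈ S, s j ≤ 0 := by
      by_cases h : ∑ j ∈ S, s₀ j ≤ 0
      · exact ⟨s₀, hs₀, hd₀, h⟩
      · refine ⟨fun j => -s₀ j, fun j => ?_, fun i => ?_, ?_⟩
        · rcases hs₀ j with h1 | h1 <;> simp [h1]
        · simp only [mul_neg, Finset.sum_neg_distrib, abs_neg]; exact hd₀ i
        · rw [Finset.sum_neg_distrib]; linarith
    let a' : κ → ℕ := fun k => if a k % 2 = 1 ∧ s k = 1 then a k / 2 + 1 else a k / 2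
    have ha' : ∀ k, (2 * a' k : ℝ) = a k + if k ∈ S then s k else 0 := by
      intro k
      have h1 : (a k : ℝ) = 2 * (a k / 2 : ℕ) + (a k % 2 : ℕ) := by
        exact_mod_cast (Nat.div_add_mod (a k) 2).symm
      by_cases h : a k % 2 = 1
      · have hk : k ∈ S := by simp [S, h]
        rw [if_pos hk]
        rcases hs k with h2 | h2
        · simp only [a', h, h2, and_self, if_true]; rw [h] at h1; push_cast at h1 ⊢; linarith
        · have h3 : ¬ s k = 1 := by rw [h2]; norm_num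
          simp only [a', h3, and_false, if_false]; rw [h] at h1; push_cast at h1; linarith
      · have hk : k ∉ S := by simp [S, h]
        have h0 : a k % 2 = 0 := by omega
        rw [if_neg hk]
        simp only [a', h, false_and, if_false]; rw [h0] at h1; push_cast at h1; linarith
    obtain ⟨z, hz, hdz⟩ := ih a' (fun k => by
      have h1 := ha k
      have h2 : 0 < 2 ^ J := by positivity
      rw [pow_succ] at h1
      simp only [a']; split_ifs with h
      · have := h.1; omega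
      · omega) (by
      have h1 : 2 * ∑ k, (a' k : ℝ) ≤ ∑ k, (a k : ℝ) := by
        rw [Finset.mul_sum]
        simp only [ha']
        rw [Finset.sum_add_distrib, Finset.sum_ite_mem, Finset.univ_inter]
        linarith
      have h2 : (0 : ℝ) ≤ Fintype.card ι := by positivity
      have h3 : 2 * (∑ k, (a' k : ℝ)) * Fintype.card ι ≤ (∑ k, (a k : ℝ)) * Fintype.card ι := by
        gcongr
      rw [pow_succ] at hsum
      linarith)
    refine ⟨z, hz, fun i => ?_⟩
    have h1 : ∑ k, A i k * (z k - a k / 2 ^ (J + 1))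
        = ∑ k, A i k * (z k - a' k / 2 ^ J) + (∑ j ∈ S, A i j * s j) / 2 ^ (J + 1) := by
      have h2 : ∑ j ∈ S, A i j * s j = ∑ k, A i k * (if k ∈ S then s k else 0) := by
        simp only [mul_ite, mul_zero]
        rw [Finset.sum_ite_mem, Finset.univ_inter]
      rw [h2, Finset.sum_div, ← Finset.sum_add_distrib]
      refine Finset.sum_congr rfl fun k _ => ?_
      have h3 : (if k ∈ S then s k else 0) = 2 * a' k - a k := by rw [ha' k]; ring
      rw [h3, pow_succ]; field_simp; ring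
    rw [h1]
    have h4 := abs_add_le (∑ k, A i k * (z k - a' k / 2 ^ J))
      ((∑ j ∈ S, A i j * s j) / 2 ^ (J + 1))
    have h5 : |(∑ j ∈ S, A i j * s j) / 2 ^ (J + 1)| ≤ 640 * R * (3 / 4) ^ (J + 1) := by
      rw [abs_div, abs_of_pos (by positivity : (0 : ℝ) < 2 ^ (J + 1)),
        div_le_iff₀ (by positivity)]
      refine (hd i).trans (le_of_eq ?_)
      have : (3 / 2 : ℝ) ^ (J + 1) = (3 / 4) ^ (J + 1) * 2 ^ (J + 1) := by
        rw [← mul_pow]; norm_num
      rw [this]; ring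
    have h6 := hdz i
    have h7 : 1920 * R * (1 - (3 / 4) ^ J) + 640 * R * (3 / 4) ^ (J + 1)
        = 1920 * R * (1 - (3 / 4 : ℝ) ^ (J + 1)) := by rw [pow_succ]; ring
    linarith

end Crest.Agent.H4.Sp
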