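import Crest.Agent.Lead.UFDefs
import Crest.Agent.H4.UFSpencer

/-! M1 of row 75: rounding a nearly unimodular real sequence to signs. -/

set_option autoImplicit false

namespace Crest.Agent.H4.UFR

open Finset Crest.Agent.Lead.UF

lemma orth (M : ℕ) (j : ℤ) (hj : |j| < M) :
    ∑ l : Fin M, e (j * ((l : ℕ) / M)) = if j = 0 then (M : ℂ) else 0 := by
  have hM : (0 : ℝ) < M := by
    have : (0 : ℤ) < M := lt_of_le_of_lt (abs_nonneg j) hj
    exact_mod_cast this
  split_ifs with h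
  · simp [h]
  · have h1 : ∀ l : ℕ, e (j * ((l : ℝ) / M)) = e (j / M) ^ l := by
      intro l; rw [← e_nat_mul]; congr 1; ring
    simp only [h1]
    rw [Fin.sum_univ_eq_sum_range (fun l => e (j / M) ^ l)]
    have h2 : e (j / M) ^ M = 1 := by
      rw [← e_nat_mul, ← e_int j]; congr 1; field_simp
    have h3 : e (j / M) ≠ 1 := by
      intro h4
      unfold e at h4
      obtain ⟨k, hk⟩ := Complex.exp_eq_one_iff.1 h4
      have hpi : (2 * Real.pi * Complex.I : ℂ) ≠ 0 := Complex.two_pi_I_ne_zero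
      have h5 : (((j : ℝ) / M : ℝ) : ℂ) = k := by
        apply mul_right_cancel₀ hpi
        rw [← hk]; ring
      have h6 : (j : ℝ) / M = k := by exact_mod_cast h5
      have h7 : (j : ℝ) = k * M := by rw [← h6]; field_simp
      have h8 : j = k * M := by exact_mod_cast h7
      have h9 : k ≠ 0 := by rintro rfl; simp at h8; exact h h8
      have h10 : (1 : ℤ) ≤ |k| := Int.one_le_abs h9
      rw [h8, abs_mul, abs_of_nonneg (by positivity : (0 : ℤ) ≤ M)] at hj
      have : (0 : ℤ) ≤ M := by positivity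
      nlinarith
    have h4 := geom_sum_mul (e (j / M)) M
    rw [h2, sub_self] at h4
    exact (mul_eq_zero.1 h4).resolve_right (sub_ne_zero.2 h3)

/-- discrete Parseval -/
lemma parseval {ι : Type} [Fintype ι] [DecidableEq ι] (M : ℕ) (ν : ι → ℤ)
    (hν : Function.Injective ν) (hM : ∀ a b, |ν a - ν b| < M) (c : ι → ℂ) :
    ∑ l : Fin M, ‖∑ a, c a * e (ν a * ((l : ℕ) / M))‖ ^ 2 = M * ∑ a, ‖c a‖ ^ 2 := by
  apply Complex.ofReal_injective
  push_cast
  have h1 : ∀ l : Fin M, ((‖∑ a, c a * e (ν a * ((l : ℕ) / M))‖ : ℝ) : ℂ) ^ 2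
      = ∑ a, ∑ b, c a * (starRingEnd ℂ) (c b) * e (((ν a - ν b : ℤ) : ℝ) * ((l : ℕ) / M)) := by
    intro l
    rw [← Complex.mul_conj', map_sum, Finset.sum_mul_sum]
    refine Finset.sum_congr rfl fun a _ => Finset.sum_congr rfl fun b _ => ?_
    rw [map_mul, conj_e]
    have : e (((ν a - ν b : ℤ) : ℝ) * ((l : ℕ) / M))
        = e (ν a * ((l : ℕ) / M)) * e (-(ν b * ((l : ℕ) / M))) := by
      rw [← e_add]; congr 1; push_cast; ring
    rw [this]; ring
  simp only [h1]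
  rw [Finset.sum_comm, Finset.mul_sum]
  refine Finset.sum_congr rfl fun a _ => ?_
  rw [Finset.sum_comm]
  have h2 : ∀ b, ∑ l : Fin M,
      c a * (starRingEnd ℂ) (c b) * e (((ν a - ν b : ℤ) : ℝ) * ((l : ℕ) / M))
      = if b = a then (M : ℂ) * (‖c a‖ : ℂ) ^ 2 else 0 := by
    intro b
    rw [← Finset.mul_sum, orth M _ (hM a b)]
    by_cases h : b = a
    · rw [h, sub_self, if_pos rfl, if_pos rfl, Complex.mul_conj']; ring
    · rw [if_neg h, if_neg (fun h' => h (hν (sub_eq_zero.1 h')).symm), mul_zero]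
  simp only [h2]
  simp

/-- sampling inequality -/
lemma sampling (N : ℕ) (hN : 0 < N) (c : Fin N → ℂ) (B : ℝ)
    (hB : ∀ l : Fin (2 * N), ‖∑ k : Fin N, c k * e ((k : ℕ) * ((l : ℕ) / ((2 * N : ℕ) : ℝ)))‖ ≤ B)
    (θ : ℝ) : ‖∑ k : Fin N, c k * e ((k : ℕ) * θ)‖ ≤ 3 / 2 * B := by
  obtain ⟨M, hM⟩ : ∃ M : ℕ, M = 2 * N := ⟨_, rfl⟩
  have hB' : ∀ l : Fin M, ‖∑ k : Fin N, c k * e ((k : ℕ) * ((l : ℕ) / (M : ℝ)))‖ ≤ B := by
    subst hM; exact hB
  let P : Fin M → ℂ := fun l => ∑ k : Fin N, c k * e ((k : ℕ) * ((l : ℕ) / (M : ℝ)))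
  let X : Fin M → ℂ := fun l => ∑ a : Fin M, e ((a : ℕ) * θ) *
    e (((-((a : ℕ) : ℤ) : ℤ) : ℝ) * ((l : ℕ) / M))
  let Y : Fin M → ℂ := fun l => ∑ b : Fin N, e (-((b : ℕ) * θ)) *
    e (((((b : ℕ) : ℤ) : ℤ) : ℝ) * ((l : ℕ) / M))
  have hX : ∑ l, ‖X l‖ ^ 2 = M * M := by
    rw [parseval M (fun a : Fin M => -((a : ℕ) : ℤ))
      (fun a b h => Fin.ext (by simpa using h))
      (fun a b => by have := a.2; have := b.2; rw [abs_lt]; constructor <;> omega)]
    simp
  have hY : ∑ l, ‖Y l‖ ^ 2 = M * N := by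
    rw [parseval M (fun b : Fin N => ((b : ℕ) : ℤ))
      (fun a b h => Fin.ext (by simpa using h))
      (fun a b => by have := a.2; have := b.2; rw [abs_lt]; constructor <;> omega)]
    simp
  have key : ∑ l, P l * X l * Y l = (M * N : ℂ) * ∑ k : Fin N, c k * e ((k : ℕ) * θ) := by
    have h1 : ∀ l, P l * X l * Y l = ∑ k : Fin N, ∑ b : Fin N, ∑ a : Fin M,
        c k * e ((((a : ℕ) : ℝ) - (b : ℕ)) * θ) *
          e (((((k : ℕ) : ℤ) + (b : ℕ) - (a : ℕ) : ℤ) : ℝ) * ((l : ℕ) / M)) := by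
      intro l
      rw [mul_right_comm]
      simp only [P, X, Y]
      rw [Finset.sum_mul_sum, Finset.sum_mul]
      simp only [Finset.sum_mul_sum]
      refine Finset.sum_congr rfl fun k _ => Finset.sum_congr rfl fun b _ =>
        Finset.sum_congr rfl fun a _ => ?_
      have e1 : e ((((a : ℕ) : ℝ) - (b : ℕ)) * θ) = e ((a : ℕ) * θ) * e (-((b : ℕ) * θ)) := by
        rw [← e_add]; congr 1; ring
      have e2 : e (((((k : ℕ) : ℤ) + (b : ℕ) - (a : ℕ) : ℤ) : ℝ) * ((l : ℕ) / M))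
          = e ((k : ℕ) * ((l : ℕ) / (M : ℝ))) * e (((((b : ℕ) : ℤ) : ℤ) : ℝ) * ((l : ℕ) / M))
            * e (((-((a : ℕ) : ℤ) : ℤ) : ℝ) * ((l : ℕ) / M)) := by
        rw [← e_add, ← e_add]; congr 1; push_cast; ring
      rw [e1, e2]; ring
    simp only [h1]
    rw [Finset.sum_comm, Finset.mul_sum]
    refine Finset.sum_congr rfl fun k _ => ?_
    rw [Finset.sum_comm]
    have h2 : ∀ b : Fin N, ∑ l : Fin M, ∑ a : Fin M,
        c k * e ((((a : ℕ) : ℝ) - (b : ℕ)) * θ) *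
          e (((((k : ℕ) : ℤ) + (b : ℕ) - (a : ℕ) : ℤ) : ℝ) * ((l : ℕ) / M))
        = M * (c k * e ((k : ℕ) * θ)) := by
      intro b
      rw [Finset.sum_comm]
      have hkb : (k : ℕ) + b < M := by have := k.2; have := b.2; omega
      rw [Finset.sum_eq_single (⟨k + b, hkb⟩ : Fin M)]
      · rw [← Finset.mul_sum, orth M _ (by simp; omega), if_pos (by simp)]
        have : ((((k : ℕ) + b : ℕ) : ℝ) - (b : ℕ)) = (k : ℕ) := by push_cast; ring
        simp only [this]; ring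
      · intro a _ ha
        have := k.2; have := b.2; have := a.2
        rw [← Finset.mul_sum, orth M _ (by rw [abs_lt]; constructor <;> omega), if_neg, mul_zero]
        intro h
        exact ha (Fin.ext (by simp only; omega))
      · simp
    simp only [h2]
    simp; ring
  have hB0 : 0 ≤ B := (norm_nonneg _).trans (hB' ⟨0, by omega⟩)
  have hNr : (0 : ℝ) < N := by exact_mod_cast hN
  have hMr : (M : ℝ) = 2 * N := by rw [hM]; push_cast; ring
  have h3 : ‖∑ l, P l * X l * Y l‖ ≤ B * ((M * M) / 4 + M * N) := by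
    calc ‖∑ l, P l * X l * Y l‖ ≤ ∑ l, ‖P l * X l * Y l‖ := norm_sum_le _ _
      _ ≤ ∑ l, B * (‖X l‖ ^ 2 / 4 + ‖Y l‖ ^ 2) := by
          refine Finset.sum_le_sum fun l _ => ?_
          rw [norm_mul, norm_mul, mul_assoc]
          have h4 : ‖X l‖ * ‖Y l‖ ≤ ‖X l‖ ^ 2 / 4 + ‖Y l‖ ^ 2 := by
            nlinarith [sq_nonneg (‖X l‖ / 2 - ‖Y l‖)]
          exact mul_le_mul (hB' l) h4 (by positivity) hB0
      _ = _ := by rw [← Finset.mul_sum, Finset.sum_add_distrib, ← Finset.sum_div, hX, hY]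
  rw [key, norm_mul, norm_mul, Complex.norm_natCast, Complex.norm_natCast, hMr] at h3
  have h5 : 0 < 2 * (N : ℝ) * N := by positivity
  apply le_of_mul_le_mul_left _ h5
  linarith

theorem rounding : Rounding := by
  intro ε hε
  obtain ⟨ρ, hρ⟩ : ∃ ρ : ℝ, ρ = ε / 23040 := ⟨_, rfl⟩
  have hρ0 : 0 < ρ := by rw [hρ]; positivity
  refine ⟨min (ρ ^ 4 / 4) (1 / 2), by positivity, fun N x hx hp => ?_⟩
  obtain ⟨η, hη⟩ : ∃ η : ℝ, η = min (ρ ^ 4 / 4) (1 / 2) := ⟨_, rfl⟩
  rw [← hη] at hp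
  have hη1 : η ≤ ρ ^ 4 / 4 := hη ▸ min_le_left _ _
  have hη2 : η ≤ 1 / 2 := hη ▸ min_le_right _ _
  have hη0 : 0 < η := by rw [hη]; positivity
  rcases Nat.eq_zero_or_pos N with rfl | hN
  · exact ⟨fun _ => 1, fun θ => by simp⟩
  have hNr : (0 : ℝ) < N := by exact_mod_cast hN
  have hN1 : (1 : ℝ) ≤ N := by exact_mod_cast hN
  have hsq : 1 ≤ √(N : ℝ) := Real.one_le_sqrt.2 hN1
  -- Parseval
  have hpars : (1 - η) ^ 2 * N ≤ ∑ k, x k ^ 2 := by
    have h1 := parseval N (fun k : Fin N => ((k : ℕ) : ℤ))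
      (fun a b h => Fin.ext (by simpa using h))
      (fun a b => by have := a.2; have := b.2; rw [abs_lt]; constructor <;> omega)
      (fun k => (x k : ℂ))
    simp only [Complex.norm_real, Real.norm_eq_abs, sq_abs, Int.cast_natCast] at h1
    have h2 : ∀ l : Fin N, (1 - η) ^ 2 * N
        ≤ ‖∑ k : Fin N, (x k : ℂ) * e ((k : ℕ) * ((l : ℕ) / (N : ℝ)))‖ ^ 2 := by
      intro l
      have h3 := hp ((l : ℕ) / (N : ℝ)) ⟨by positivity, by
        rw [div_le_one hNr]; exact_mod_cast l.2.le⟩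
      have h4 : 0 ≤ (1 - η) * √(N : ℝ) := by
        apply mul_nonneg <;> [linarith; positivity]
      calc (1 - η) ^ 2 * N = ((1 - η) * √(N : ℝ)) ^ 2 := by
            rw [mul_pow, Real.sq_sqrt hNr.le]
        _ ≤ _ := by gcongr
    have h5 := Finset.sum_le_sum fun l (_ : l ∈ (univ : Finset (Fin N))) => h2 l
    rw [h1, Finset.sum_const, Finset.card_univ, Fintype.card_fin, nsmul_eq_mul] at h5
    exact le_of_mul_le_mul_left h5 hNr
  let y : Fin N → ℝ := fun k => (1 - |x k|) / 2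
  have hy0 : ∀ k, 0 ≤ y k := fun k => by have := hx k; simp only [y]; linarith
  have hy1 : ∀ k, y k ≤ 1 := fun k => by have := abs_nonneg (x k); simp only [y]; linarith
  have hysum : ∑ k, y k ≤ η * N := by
    have h1 : ∑ k, y k ≤ ∑ k, (1 - x k ^ 2) / 2 := by
      refine Finset.sum_le_sum fun k _ => ?_
      have h2 := hx k
      have h3 := abs_nonneg (x k)
      simp only [y]
      rw [← sq_abs (x k)]; nlinarith
    have h2 : ∑ k, (1 - x k ^ 2) / 2 = (N - ∑ k, x k ^ 2) / 2 := by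
      rw [← Finset.sum_div, Finset.sum_sub_distrib, Finset.sum_const, Finset.card_univ,
        Fintype.card_fin, nsmul_eq_mul, mul_one]
    rw [h2] at h1
    nlinarith [mul_pos (mul_pos hη0 hη0) hNr]
  let σ : Fin N → ℤˣ := fun k => if 0 ≤ x k then 1 else -1
  have hσ : ∀ k, x k = ((σ k : ℤ) : ℝ) * (1 - 2 * y k) := by
    intro k
    simp only [σ, y]
    split_ifs with h
    · rw [abs_of_nonneg h]; simp; ring
    · rw [abs_of_neg (not_le.1 h)]; simp; ring
  have hσ1 : ∀ k, |((σ k : ℤ) : ℝ)| = 1 := by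
    intro k; simp only [σ]; split_ifs <;> simp
  obtain ⟨J, hJ⟩ : ∃ J : ℕ, 12 * N / ε ≤ 2 ^ J :=
    (pow_unbounded_of_one_lt (12 * N / ε) (by norm_num : (1 : ℝ) < 2)).imp fun _ h => h.le
  have hJ0 : (0 : ℝ) < 2 ^ J := by positivity
  let E : Fin (2 * N) → Fin N → ℂ := fun l k => e ((k : ℕ) * ((l : ℕ) / ((2 * N : ℕ) : ℝ)))
  let A : Fin (2 * N) × Bool → Fin N → ℝ := fun i k =>
    ((σ k : ℤ) : ℝ) * (if i.2 then (E i.1 k).re else (E i.1 k).im)
  have hA : ∀ i k, |A i k| ≤ 1 := by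
    intro i k
    simp only [A]
    rw [abs_mul, hσ1, one_mul]
    split_ifs
    · exact (Complex.abs_re_le_norm _).trans (norm_e _).le
    · exact (Complex.abs_im_le_norm _).trans (norm_e _).le
  let a : Fin N → ℕ := fun k => ⌊2 ^ J * y k⌋₊
  have ha1 : ∀ k, (a k : ℝ) ≤ 2 ^ J * y k := fun k => Nat.floor_le (mul_nonneg hJ0.le (hy0 k))
  have ha2 : ∀ k, 2 ^ J * y k < a k + 1 := fun k => Nat.lt_floor_add_one _
  obtain ⟨z, hz, hd⟩ := Sp.dyadic A hA (by simp; omega) (ρ * √(N : ℝ)) (by positivity) J a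
    (fun k => by
      have h1 : (a k : ℝ) ≤ 2 ^ J := (ha1 k).trans (by nlinarith [hy1 k])
      exact_mod_cast h1)
    (by
      have h1 : ∑ k, (a k : ℝ) ≤ 2 ^ J * (η * N) := by
        calc ∑ k, (a k : ℝ) ≤ ∑ k, 2 ^ J * y k := Finset.sum_le_sum fun k _ => ha1 k
          _ = 2 ^ J * ∑ k, y k := by rw [Finset.mul_sum]
          _ ≤ _ := by gcongr
      have h2 : (ρ * √(N : ℝ)) ^ 4 = ρ ^ 4 * N ^ 2 := by
        rw [mul_pow, show (4 : ℕ) = 2 * 2 by norm_num, pow_mul √(N : ℝ), Real.sq_sqrt hNr.le]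
      have h3 : (Fintype.card (Fin (2 * N) × Bool) : ℝ) = 4 * N := by
        simp; ring
      rw [h2, h3]
      calc (∑ k, (a k : ℝ)) * (4 * N) ≤ 2 ^ J * (η * N) * (4 * N) := by gcongr
        _ = 2 ^ J * (4 * η * N ^ 2) := by ring
        _ ≤ _ := by gcongr; linarith)
  have hd' : ∀ i, |∑ k, A i k * (z k - y k)| ≤ ε * √(N : ℝ) / 6 := by
    intro i
    have h1 : ∑ k, A i k * (z k - y k)
        = ∑ k, A i k * (z k - a k / 2 ^ J) + ∑ k, A i k * (a k / 2 ^ J - y k) := by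
      rw [← Finset.sum_add_distrib]; exact Finset.sum_congr rfl fun k _ => by ring
    have h2 : |∑ k, A i k * (a k / 2 ^ J - y k)| ≤ N / 2 ^ J := by
      calc |∑ k, A i k * (a k / 2 ^ J - y k)| ≤ ∑ k, |A i k * (a k / 2 ^ J - y k)| :=
            Finset.abs_sum_le_sum_abs _ _
        _ ≤ ∑ _k : Fin N, (1 / 2 ^ J : ℝ) := by
            refine Finset.sum_le_sum fun k _ => ?_
            have h3 : |(a k : ℝ) / 2 ^ J - y k| ≤ 1 / 2 ^ J := by
              have h4 : (a k : ℝ) / 2 ^ J - y k = (a k - 2 ^ J * y k) / 2 ^ J := by field_simp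
              rw [h4, abs_div, abs_of_pos hJ0]
              gcongr
              rw [abs_le]; constructor <;> linarith [ha1 k, ha2 k]
            rw [abs_mul]
            calc |A i k| * |(a k : ℝ) / 2 ^ J - y k| ≤ 1 * (1 / 2 ^ J) :=
                  mul_le_mul (hA i k) h3 (abs_nonneg _) zero_le_one
              _ = _ := one_mul _
        _ = N / 2 ^ J := by
            rw [Finset.sum_const, Finset.card_univ, Fintype.card_fin, nsmul_eq_mul]; ring
    have h3 : (N : ℝ) / 2 ^ J ≤ ε / 12 := by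
      rw [div_le_iff₀ hε] at hJ
      rw [div_le_iff₀ hJ0]; linarith
    have h4 := hd i
    have h5 : 1920 * (ρ * √(N : ℝ)) * (1 - (3 / 4) ^ J) ≤ 1920 * (ρ * √(N : ℝ)) := by
      have : 0 ≤ 1920 * (ρ * √(N : ℝ)) * (3 / 4) ^ J := by positivity
      linarith
    have h6 : 1920 * (ρ * √(N : ℝ)) = ε * √(N : ℝ) / 12 := by rw [hρ]; ring
    have h7 : ε ≤ ε * √(N : ℝ) := by nlinarith
    have h8 := abs_add_le (∑ k, A i k * (z k - a k / 2 ^ J)) (∑ k, A i k * (a k / 2 ^ J - y k))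
    rw [h1]; linarith
  let c : Fin N → ℤˣ := fun k => if z k = 0 then σ k else -σ k
  have hc : ∀ k, (((c k : ℤ) : ℂ) - (x k : ℂ))
      = ((-2 * (((σ k : ℤ) : ℝ) * (z k - y k)) : ℝ) : ℂ) := by
    intro k
    have h1 : ((c k : ℤ) : ℝ) - x k = -2 * (((σ k : ℤ) : ℝ) * (z k - y k)) := by
      rw [hσ k]
      simp only [c]
      rcases hz k with h | h
      · rw [if_pos h, h]; ring
      · rw [if_neg (by rw [h]; norm_num), h]; push_cast; ring
    rw [← h1]; push_cast; rfl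
  refine ⟨c, fun θ => ?_⟩
  have := sampling N hN (fun k => ((c k : ℤ) : ℂ) - (x k : ℂ)) (2 / 3 * (ε * √(N : ℝ)))
    (fun l => by
      refine (Complex.norm_le_abs_re_add_abs_im _).trans ?_
      simp only [hc]
      rw [Complex.re_sum, Complex.im_sum]
      simp only [Complex.re_ofReal_mul, Complex.im_ofReal_mul]
      have h1 := hd' (l, true)
      have h2 := hd' (l, false)
      simp only [A, if_true, Bool.false_eq_true, if_false] at h1 h2
      have h3 : ∑ k, -2 * (((σ k : ℤ) : ℝ) * (z k - y k)) * (E l k).re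
          = -2 * ∑ k, ((σ k : ℤ) : ℝ) * (E l k).re * (z k - y k) := by
        rw [Finset.mul_sum]; exact Finset.sum_congr rfl fun k _ => by ring
      have h4 : ∑ k, -2 * (((σ k : ℤ) : ℝ) * (z k - y k)) * (E l k).im
          = -2 * ∑ k, ((σ k : ℤ) : ℝ) * (E l k).im * (z k - y k) := by
        rw [Finset.mul_sum]; exact Finset.sum_congr rfl fun k _ => by ring
      simp only [E] at h1 h2 h3 h4
      rw [h3, h4, abs_mul, abs_mul, abs_neg, abs_two]
      linarith) θ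
  linarith

end Crest.Agent.H4.UFR
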